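import Vale.Agent.P050.R3.H987.Embed

/-!
# P050: the reduction to reversible chains without a condition on isolated vertices
-/

namespace Vale.Agent.P050.SP

open Finset Matrix Vale.Agent.P050.Ears Vale.Agent.P050.Lev

variable {V : Type} [Fintype V] [DecidableEq V]

/-- the coordinates outside `p` are integrated out -/
theorem sum_split_coord {X : Type} [Fintype X] (p : V → Prop) [DecidablePred p] (F : V → X → ℝ)
    (G : ({v // p v} → X) → ℝ) :
    ∑ z : V → X, (∏ v, F v (z v)) * G (fun v => z v) =
      (∑ y : {v // p v} → X, (∏ v : {v // p v}, F v (y v)) * G y) *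
        ∏ v : {v // ¬ p v}, ∑ x, F v x := by
  have h1 := Finset.prod_univ_sum (fun _ : {v // ¬ p v} => (univ : Finset X))
    (fun v x => F v x)
  rw [Fintype.piFinset_univ] at h1
  rw [h1, Finset.sum_mul_sum,
    ← (Equiv.piEquivPiSubtypeProd p (fun _ => X)).symm.sum_comp, Fintype.sum_prod_type]
  refine Finset.sum_congr rfl fun y _ => Finset.sum_congr rfl fun t _ => ?_
  rw [← Fintype.prod_subtype_mul_prod_subtype p]
  have e1 : ∀ v : {v // p v},
      (Equiv.piEquivPiSubtypeProd p (fun _ => X)).symm (y, t) v = y v := fun v => by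
    simp [Equiv.piEquivPiSubtypeProd, v.2]
  have e2 : ∀ v : {v // ¬ p v},
      (Equiv.piEquivPiSubtypeProd p (fun _ => X)).symm (y, t) v = t v := fun v => by
    simp [Equiv.piEquivPiSubtypeProd, v.2]
  simp only [e1, e2]
  ring

omit [DecidableEq V] in
/-- the weight of a map as a product -/
theorem wt_prod {S : Type} (H : SimpleGraph V) (side : V → Bool) (A : Matrix S S ℝ) (μ : S → ℝ)
    (c : S → Bool) (z : V → S) : wt H side A μ c z =
      (∏ v, if c (z v) = side v then μ (z v) else 0) *
        ∏ e ∈ sideEdges H side, A (z e.1) (z e.2) / μ (z e.2) := by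
  unfold wt
  split_ifs with h
  · congr 1
    exact Finset.prod_congr rfl fun v _ => (if_pos (h v)).symm
  · obtain ⟨v, hv⟩ := not_forall.1 h
    rw [Finset.prod_eq_zero (mem_univ v) (if_neg hv), zero_mul]

open Classical in
omit [DecidableEq V] in
/-- the edges between the vertices which are not isolated -/
theorem sideEdges_noniso (H : SimpleGraph V) (side : V → Bool) :
    sideEdges H side =
      (sideEdges (H.comap (Subtype.val : {v // ∃ w, H.Adj v w} → V)) fun v => side v).map
        ((Function.Embedding.subtype _).prodMap (Function.Embedding.subtype _)) := by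
  ext ⟨u, v⟩
  simp only [sideEdges, mem_filter, mem_univ, true_and, mem_map, SimpleGraph.comap_adj,
    Prod.exists, Function.Embedding.prodMap, Function.Embedding.coeFn_mk, Prod.map,
    Function.Embedding.subtype_apply, Prod.mk.injEq, Subtype.exists]
  constructor
  · rintro ⟨h, h1, h2⟩
    exact ⟨u, ⟨v, h⟩, v, ⟨u, h.symm⟩, ⟨h, h1, h2⟩, rfl, rfl⟩
  · rintro ⟨a, _, b, _, h, rfl, rfl⟩
    exact h

/-- **The inequality for reversible chains implies the two-sided Sidorenko inequality**, for all
finite graphs. -/
theorem gsid_of_rev_iso (H : SimpleGraph V) (side : V → Bool)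
    (hs : ∀ u v, H.Adj u v → side u ≠ side v)
    (h : ∀ (S : Type) [Fintype S] [DecidableEq S] [Nonempty S] (A : Matrix S S ℝ) (μ : S → ℝ)
      (c : S → Bool), Rev A μ c → 1 ≤ ∑ z : V → S, wt H side A μ c z) : GSid H side := by
  classical
  let p : V → Prop := fun v => ∃ w, H.Adj v w
  have hp : (sideEdges H side) = (sideEdges (H.comap (Subtype.val : {v // p v} → V))
      fun v => side v).map ((Function.Embedding.subtype _).prodMap
        (Function.Embedding.subtype _)) := sideEdges_noniso H side
  have hG : GSid (H.comap (Subtype.val : {v // p v} → V)) (fun v => side v) := by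
    refine gsid_of_rev _ _ (fun u v huv => hs _ _ huv) (fun v => ?_) ?_
    · obtain ⟨w, hw⟩ := v.2
      exact ⟨⟨w, v, hw.symm⟩, hw⟩
    · intro S _ _ _ A μ c hR
      refine (h S A μ c hR).trans_eq ?_
      simp only [wt_prod]
      have h2 : ∀ z : V → S, ∏ e ∈ sideEdges H side, A (z e.1) (z e.2) / μ (z e.2) =
          ∏ e ∈ sideEdges (H.comap (Subtype.val : {v // p v} → V)) (fun v => side v),
              A (z e.1) (z e.2) / μ (z e.2) := by
        intro z
        rw [hp, Finset.prod_map]
        rfl
      have h3 := sum_split_coord p (fun v x => if c x = side v then μ x else 0)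
        (fun y : {v // p v} → S =>
          ∏ e ∈ sideEdges (H.comap (Subtype.val : {v // p v} → V)) (fun v => side v),
            A (y e.1) (y e.2) / μ (y e.2))
      rw [Finset.prod_eq_one (s := (univ : Finset {v // ¬ p v})) (fun v _ => hR.mass _),
        mul_one] at h3
      refine Eq.trans (Finset.sum_congr rfl fun z _ => ?_) h3
      rw [h2]
  refine ⟨hs, ?_, ?_⟩
  · intro e he
    exact (mem_filter.1 he).2.2
  · intro U _ m W hm hm1 hW
    have h2 : ∀ z : V → U, ∏ e ∈ sideEdges H side, W (z e.1) (z e.2) =
        ∏ e ∈ sideEdges (H.comap (Subtype.val : {v // p v} → V)) (fun v => side v),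
          W (z e.1) (z e.2) := by
      intro z
      rw [hp, Finset.prod_map]
      rfl
    have h3 := sum_split_coord p (fun v x => m (side v) x)
      (fun y : {v // p v} → U =>
        ∏ e ∈ sideEdges (H.comap (Subtype.val : {v // p v} → V)) (fun v => side v),
          W (y e.1) (y e.2))
    rw [Finset.prod_eq_one (s := (univ : Finset {v // ¬ p v})) (fun v _ => hm1 _),
      mul_one] at h3
    have h4 := hG.2.2 U m W hm hm1 hW
    rw [← h3] at h4
    have h5 : (sideEdges H side).card =
        (sideEdges (H.comap (Subtype.val : {v // p v} → V)) (fun v => side v)).card := by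
      rw [hp, Finset.card_map]
    rw [h5]
    refine h4.trans_eq (Finset.sum_congr rfl fun z _ => ?_)
    rw [h2]

end Vale.Agent.P050.SP
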