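import Vale.Agent.P050.R4.H153.MfSem

/-!
# P050, frames: balanced sets of vertices and their copies
-/

namespace Vale.Agent.P050.SP

open Finset Matrix Vale.Agent.P050.Ears Vale.Agent.P050.Lev

section basic

variable {S : Type} [Fintype S] [DecidableEq S] {A : Matrix S S ℝ} {μ : S → ℝ} {c : S → Bool}
variable {V : Type} [Fintype V] [DecidableEq V] {side : V → Bool} {P : (V → S) → ℝ}
variable {U : Set V} {w f : (V → S) → ℝ}

/-- the function depends on the vertices in `U` only -/
def Dep (U : Set V) (F : (V → S) → ℝ) : Prop :=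
  ∀ z z' : V → S, (∀ v ∈ U, z v = z' v) → F z = F z'

/-- the law of the vertices in `U` has the density `f` -/
def MargF (μ : S → ℝ) (c : S → Bool) (side : V → Bool) (P : (V → S) → ℝ) (U : Set V)
    (f : (V → S) → ℝ) : Prop :=
  ∀ F : (V → S) → ℝ, Dep U F → ∑ z, P z * F z = ∑ z, mus side μ c z * (f z * F z)

/-- A balanced set of vertices: the law of the vertices has nonnegative entropy balance for the
weight `w`. -/
def BalW (μ : S → ℝ) (c : S → Bool) (side : V → Bool) (P : (V → S) → ℝ) (U : Set V)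
    (w : (V → S) → ℝ) : Prop :=
  ∃ f : (V → S) → ℝ, (∀ z, 0 ≤ f z) ∧ Dep U f ∧ MargF μ c side P U f ∧
    (∀ z, mus side μ c z * f z ≠ 0 → w z ≠ 0) ∧
    0 ≤ ∑ z, mus side μ c z * (f z * (Real.log (w z) - Real.log (f z)))

/-- the set of all vertices is balanced -/
theorem BalW.univ (h : Rev A μ c) (hP : LawW w side μ c P) :
    BalW μ c side P Set.univ w := by
  have key : ∀ z, mus side μ c z * (P z / mus side μ c z) = P z := by
    intro z
    by_cases h0 : mus side μ c z = 0
    · have h1 : P z = 0 := by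
        by_contra h1
        have h2 := hP.supp z (lt_of_le_of_ne (hP.nonneg z) (Ne.symm h1))
        rw [h0, zero_mul] at h2
        exact lt_irrefl _ h2
      rw [h0, h1, zero_mul]
    · exact mul_div_cancel₀ _ h0
  refine ⟨fun z => P z / mus side μ c z, fun z => div_nonneg (hP.nonneg z) (mus_nonneg h _ _),
    fun z z' hz => ?_, fun F _ => ?_, fun z hz => ?_, ?_⟩
  · rw [show z = z' from funext fun v => hz v (Set.mem_univ v)]
  · refine Finset.sum_congr rfl fun z _ => ?_
    rw [← mul_assoc, key]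
  · rw [key] at hz
    exact right_ne_zero_of_mul (hP.supp z (lt_of_le_of_ne (hP.nonneg z) hz.symm)).ne'
  · refine hP.ent.trans_eq (Finset.sum_congr rfl fun z _ => ?_)
    rw [← mul_assoc, key]
    rcases (hP.nonneg z).eq_or_lt with h0 | h0
    · rw [← h0, zero_mul, zero_mul]
    · have h1 := (hP.supp z h0).ne'
      have h2 := left_ne_zero_of_mul h1
      have h3 := right_ne_zero_of_mul h1
      congr 1
      rw [Real.log_mul h2 h3, Real.log_div h0.ne' h2]
      ring

theorem MargT.margF {r : Set V × Multiset (V × ℕ × V)} (hm : MargT A μ c side P r) :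
    MargF μ c side P r.1 (kapE A μ r.2) := fun F hF => by
  rw [hm F hF]
  exact Finset.sum_congr rfl fun z _ => by ring

theorem MargF.margT {r : Set V × Multiset (V × ℕ × V)}
    (hm : MargF μ c side P r.1 (kapE A μ r.2)) : MargT A μ c side P r := fun F hF => by
  rw [hm F hF]
  exact Finset.sum_congr rfl fun z _ => by ring

section push

variable {W : Type} [Fintype W] [DecidableEq W] {side' : W → Bool} {P' : (W → S) → ℝ}
variable {σ : V → W} {τ : (V → S) → W → S}

/-- transfer of densities -/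
theorem MargF.push (hτ : ∀ x v, τ x (σ v) = x v)
    (hμ : ∀ Ψ : (V → S) → ℝ, ∑ z, mus side' μ c z * Ψ (fun v => z (σ v)) =
      ∑ z, mus side μ c z * Ψ z)
    (hP : ∀ G : (V → S) → ℝ, Dep U G →
      ∑ z, P' z * G (fun v => z (σ v)) = ∑ z, P z * G z)
    (hm : MargF μ c side P U f) :
    MargF μ c side' P' (σ '' U) (fun z => f fun v => z (σ v)) := by
  intro F hF
  have h1 : ∀ z : W → S, F z = F (τ fun v => z (σ v)) := fun z => hF _ _ fun v hv => by
    obtain ⟨u, _, rfl⟩ := hv
    rw [hτ]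
  have h2 : Dep U fun x => F (τ x) := fun x x' hx => hF _ _ fun v hv => by
    obtain ⟨u, hu, rfl⟩ := hv
    rw [hτ, hτ, hx u hu]
  calc ∑ z, P' z * F z = ∑ z, P' z * F (τ fun v => z (σ v)) :=
        Finset.sum_congr rfl fun z _ => by rw [← h1]
    _ = ∑ z, P z * F (τ z) := hP (fun x => F (τ x)) h2
    _ = ∑ z, mus side μ c z * (f z * F (τ z)) := hm _ h2
    _ = ∑ z, mus side' μ c z * ((f fun v => z (σ v)) * F (τ fun v => z (σ v))) :=
        (hμ fun x => f x * F (τ x)).symm
    _ = _ := Finset.sum_congr rfl fun z _ => by rw [← h1]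

/-- transfer of records -/
theorem MargT.push {E : Multiset (V × ℕ × V)} (hτ : ∀ x v, τ x (σ v) = x v)
    (hμ : ∀ Ψ : (V → S) → ℝ, ∑ z, mus side' μ c z * Ψ (fun v => z (σ v)) =
      ∑ z, mus side μ c z * Ψ z)
    (hP : ∀ G : (V → S) → ℝ, Dep U G →
      ∑ z, P' z * G (fun v => z (σ v)) = ∑ z, P z * G z)
    (hm : MargT A μ c side P (U, E)) :
    MargT A μ c side' P' (tmap σ (U, E)) := by
  refine MargF.margT ?_
  have h1 := MargF.push hτ hμ hP hm.margF
  have h2 : (fun z : W → S => kapE A μ E fun v => z (σ v)) = kapE A μ (tmap σ (U, E)).2 := by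
    funext z
    exact (kapE_map _ _ _).symm
  rw [← h2]
  exact h1

/-- transfer of balanced sets -/
theorem BalW.push (hτ : ∀ x v, τ x (σ v) = x v)
    (hμ : ∀ Ψ : (V → S) → ℝ, ∑ z, mus side' μ c z * Ψ (fun v => z (σ v)) =
      ∑ z, mus side μ c z * Ψ z)
    (hP : ∀ G : (V → S) → ℝ, Dep U G →
      ∑ z, P' z * G (fun v => z (σ v)) = ∑ z, P z * G z)
    (hn : ∀ z : W → S, mus side' μ c z ≠ 0 → mus side μ c (fun v => z (σ v)) ≠ 0)
    (hm : BalW μ c side P U w) :
    BalW μ c side' P' (σ '' U) (fun z => w fun v => z (σ v)) := by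
  obtain ⟨f, f0, fd, fm, fs, fb⟩ := hm
  refine ⟨fun z => f fun v => z (σ v), fun z => f0 _, fun z z' hz => ?_, fm.push hτ hμ hP,
    fun z hz => ?_, ?_⟩
  · exact fd _ _ fun v hv => hz _ ⟨v, hv, rfl⟩
  · exact fs _ (mul_ne_zero (hn z (left_ne_zero_of_mul hz)) (right_ne_zero_of_mul hz))
  · rw [hμ fun x => f x * (Real.log (w x) - Real.log (f x))]
    exact fb

end push

end basic

variable {S : Type} [Fintype S] [DecidableEq S] {A : Matrix S S ℝ} {μ : S → ℝ} {c : S → Bool}
variable {V : Type} [Fintype V] [DecidableEq V] {side : V → Bool} {P : (V → S) → ℝ}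
variable {N : Type} [Fintype N] [DecidableEq N] {sN : N → Bool}
variable {φ : (V ⊕ N → S) → ℝ} {U : Set V} {w : (V → S) → ℝ}

omit [DecidableEq V] [DecidableEq N] in
theorem mus_elim (z : V ⊕ N → S) : mus (Sum.elim side sN) μ c z =
    mus side μ c (fun v => z (.inl v)) * mus sN μ c (fun n => z (.inr n)) := by
  unfold mus
  rw [Fintype.prod_sum_type]
  rfl

/-- the product measure of the old vertices -/
theorem mus_old (h : Rev A μ c) (G : (V → S) → ℝ) :
    ∑ z : V ⊕ N → S, mus (Sum.elim side sN) μ c z * G (fun v => z (.inl v)) =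
      ∑ z, mus side μ c z * G z := by
  rw [sum_arrow]
  refine Finset.sum_congr rfl fun z _ => ?_
  simp only [mus_sumElim, Sum.elim_inl]
  rw [← Finset.sum_mul, ← Finset.mul_sum, mus_sum h, mul_one]

/-- old balanced sets -/
theorem BalW.ext_oldG (h : Rev A μ c) (hZ : ∀ z, P z ≠ 0 → zwG μ c sN φ z ≠ 0)
    (hm : BalW μ c side P U w) :
    BalW μ c (Sum.elim side sN) (extG μ c sN φ P) (Sum.inl '' U)
      (fun z => w fun v => z (.inl v)) := by
  have hS : Nonempty S := by
    by_contra hS
    rw [not_nonempty_iff] at hS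
    have h1 := h.mass true
    simp at h1
  obtain ⟨s⟩ := hS
  refine hm.push (τ := fun x => Sum.elim x fun _ => s) (fun x v => rfl) (fun Ψ => mus_old h Ψ)
    (fun G _ => extG_sum hZ G) fun z hz => ?_
  rw [mus_elim] at hz
  exact left_ne_zero_of_mul hz

/-- sums over the new law -/
theorem extG_sum' (G : (V ⊕ N → S) → ℝ) : ∑ w, extG μ c sN φ P w * G w =
    ∑ z, P z * ∑ y, mus sN μ c y * φ (Sum.elim z y) / zwG μ c sN φ z * G (Sum.elim z y) := by
  rw [sum_arrow]
  refine Finset.sum_congr rfl fun z _ => ?_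
  rw [Finset.mul_sum]
  refine Finset.sum_congr rfl fun y _ => ?_
  change P z * (mus sN μ c y * φ (Sum.elim z y) / zwG μ c sN φ z) * G _ = _
  ring

theorem extG_pos (h : Rev A μ c) (hφ : ∀ z, 0 ≤ φ z) (hP : ∀ z, 0 ≤ P z) {z : V ⊕ N → S}
    (hz : 0 < extG μ c sN φ P z) :
    0 < P (fun v => z (.inl v)) ∧ mus sN μ c (fun n => z (.inr n)) ≠ 0 ∧ φ z ≠ 0 ∧
      0 < zwG μ c sN φ (fun v => z (.inl v)) := by
  unfold extG at hz
  have elim : Sum.elim (fun v => z (.inl v)) (fun n => z (.inr n)) = z := by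
    funext v; rcases v with v | v <;> rfl
  rw [elim] at hz
  have h1 : P (fun v => z (.inl v)) ≠ 0 := fun h0 => by
    rw [h0, zero_mul] at hz; exact lt_irrefl _ hz
  have h2 : mus sN μ c (fun n => z (.inr n)) * φ z ≠ 0 := fun h0 => by
    rw [h0, zero_div, mul_zero] at hz; exact lt_irrefl _ hz
  have h3 : zwG μ c sN φ (fun v => z (.inl v)) ≠ 0 := fun h0 => by
    rw [h0, div_zero, mul_zero] at hz; exact lt_irrefl _ hz
  exact ⟨lt_of_le_of_ne (hP _) h1.symm, left_ne_zero_of_mul h2, right_ne_zero_of_mul h2,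
    lt_of_le_of_ne (zwG_nonneg h hφ _) h3.symm⟩

/-- Adding new vertices with the density `φ` and a new factor `k` of the weight. -/
theorem LawW.extD (h : Rev A μ c) (hφ : ∀ z, 0 ≤ φ z) {k : (V ⊕ N → S) → ℝ}
    (hk : ∀ z, 0 ≤ k z) (hP : LawW w side μ c P) (hZ : ∀ z, P z ≠ 0 → zwG μ c sN φ z ≠ 0)
    (hs : ∀ z, 0 < extG μ c sN φ P z → k z ≠ 0)
    (hE : 0 ≤ ∑ z, P z * Real.log (zwG μ c sN φ z) +
      ∑ z, extG μ c sN φ P z * (Real.log (k z) - Real.log (φ z))) :
    LawW (fun z => w (fun v => z (.inl v)) * k z) (Sum.elim side sN) μ c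
      (extG μ c sN φ P) := by
  have split : ∀ z : V ⊕ N → S, mus (Sum.elim side sN) μ c z *
      (w (fun v => z (.inl v)) * k z) =
      (mus side μ c (fun v => z (.inl v)) * w (fun v => z (.inl v))) *
        (mus sN μ c (fun n => z (.inr n)) * k z) := by
    intro z
    rw [mus_elim]
    ring
  refine ⟨fun z => extG_nonneg h hφ hP.nonneg z, ?_, fun z hz => ?_, ?_⟩
  · have h1 := extG_sum (P := P) hZ (fun _ => 1)
    simp only [mul_one] at h1
    rw [h1, hP.sum]
  · obtain ⟨p1, p2, p3, _⟩ := extG_pos h hφ hP.nonneg hz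
    rw [split]
    exact mul_pos (hP.supp _ p1) (mul_pos (lt_of_le_of_ne (mus_nonneg h _ _) p2.symm)
      (lt_of_le_of_ne (hk z) (hs z hz).symm))
  · have h1 := extG_sum (P := P) hZ (fun z =>
      (Real.log (mus side μ c z * w z) - Real.log (P z)) + Real.log (zwG μ c sN φ z))
    have h2 : ∑ z, extG μ c sN φ P z *
        (Real.log (mus (Sum.elim side sN) μ c z * (w (fun v => z (.inl v)) * k z)) -
          Real.log (extG μ c sN φ P z)) =
        ∑ z, extG μ c sN φ P z * ((Real.log (mus side μ c (fun v => z (.inl v)) *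
          w (fun v => z (.inl v))) - Real.log (P (fun v => z (.inl v)))) +
              Real.log (zwG μ c sN φ (fun v => z (.inl v)))) +
        ∑ z, extG μ c sN φ P z * (Real.log (k z) - Real.log (φ z)) := by
      rw [← Finset.sum_add_distrib]
      refine Finset.sum_congr rfl fun z _ => ?_
      rcases (extG_nonneg (sN := sN) h hφ hP.nonneg z).eq_or_lt with h0 | h0
      · rw [← h0, zero_mul, zero_mul, zero_mul, add_zero]
      · obtain ⟨p1, p2, p3, p4⟩ := extG_pos h hφ hP.nonneg h0
        rw [← mul_add]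
        congr 1
        have elim : Sum.elim (fun v => z (.inl v)) (fun n => z (.inr n)) = z := by
          funext v; rcases v with v | v <;> rfl
        rw [split, Real.log_mul (hP.supp _ p1).ne' (mul_ne_zero p2 (hs z h0)),
          Real.log_mul p2 (hs z h0)]
        unfold extG
        rw [elim, Real.log_mul p1.ne' (div_ne_zero (mul_ne_zero p2 p3) p4.ne'),
          Real.log_div (mul_ne_zero p2 p3) p4.ne', Real.log_mul p2 p3]
        ring
    rw [h2, h1]
    have h3 : ∑ z, P z * ((Real.log (mus side μ c z * w z) - Real.log (P z)) +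
        Real.log (zwG μ c sN φ z)) =
        ∑ z, P z * (Real.log (mus side μ c z * w z) - Real.log (P z)) +
          ∑ z, P z * Real.log (zwG μ c sN φ z) := by
      rw [← Finset.sum_add_distrib]
      exact Finset.sum_congr rfl fun z _ => by ring
    rw [h3]
    have := hP.ent
    linarith

end Vale.Agent.P050.SP
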