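import Vale.Agent.P050.R4.H859.CopyStep
import Vale.Agent.P050.R4.H153.MfOk
import Vale.Agent.P050.R4.H153.Forest

/-!
# P050, frames with balanced sets: copies
-/

namespace Vale.Agent.P050.SP

open Finset Matrix Vale.Agent.P050.Ears Vale.Agent.P050.Lev

section

variable {S : Type} [Fintype S] [DecidableEq S] {A : Matrix S S ℝ} {μ : S → ℝ} {c : S → Bool}
variable {V : Type}

theorem kapE_dep {U : Set V} {E : Multiset (V × ℕ × V)} (hE : ∀ p ∈ E, p.1 ∈ U ∧ p.2.2 ∈ U) :
    Dep U (kapE A μ E) := fun _ _ hz =>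
  kapE_congr fun p hp => ⟨hz _ (hE p hp).1, hz _ (hE p hp).2⟩

theorem partE_dep {U : Set V} {M : Multiset (V × SP × V)}
    (hM : ∀ q ∈ M, q.1 ∈ U ∧ q.2.2 ∈ U) : Dep U (partE A μ M) := fun _ _ hz =>
  partE_congr fun p hp => ⟨hz _ (hM p hp).1, hz _ (hM p hp).2⟩

end

variable {V : Type} {L E E' : Multiset (V × ℕ × V)} {M Q : Multiset (V × SP × V)}
variable {R : Set (Set V × Multiset (V × ℕ × V))}
variable {B : Set (Blk V)} {iF : Fintype V} {iD : DecidableEq V} {side : V → Bool} {U : Set V}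

/-- A balanced set is copied, except the edges `E'` of a forest on the kept vertices. -/
theorem MOK.copy {N : Type} {g : N → V} {ρ : V → V ⊕ N}
    {iN : Fintype N} {iE : DecidableEq N} (hT : MOK L M R B iF iD side)
    (hb : (U, E + E', Q) ∈ B) (hE : ∀ p ∈ E + E', p.1 ∈ U ∧ p.2.2 ∈ U)
    (hQ : ∀ q ∈ Q, q.1 ∈ U ∧ q.2.2 ∈ U) (hn : ∀ p ∈ E', ∀ n, g n ≠ p.1 ∧ g n ≠ p.2.2)
    (hF : Forest E')
    (hg : ∀ n, ρ (g n) = .inr n) (hρ : ∀ v, (∀ n, g n ≠ v) → ρ v = .inl v) :
    MOK (L.map (emap .inl) + E.map (emap ρ)) (M.map (pmap .inl) + Q.map (pmap ρ))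
      (copyT R U ρ) (copyB B U ρ) inferInstance inferInstance
      (Sum.elim side fun n => side (g n)) := by
  have tm : ∀ E : Multiset (V × ℕ × V), TOK side E →
      TOK (Sum.elim side fun n => side (g n)) (E.map (emap ρ)) := by
    intro E hE p hp
    obtain ⟨q, hq, rfl⟩ := Multiset.mem_map.1 hp
    change Sum.elim side _ (ρ q.2.2) = sh (Sum.elim side _ (ρ q.1)) q.2.1
    rw [clone_side hg hρ, clone_side hg hρ]
    exact hE q hq
  have pm : ∀ M : Multiset (V × SP × V),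
      (∀ q ∈ M, side q.2.2 = sh (side q.1) (len q.2.1) ∧ bip q.2.1) →
      ∀ q ∈ M.map (pmap ρ), Sum.elim side (fun n => side (g n)) q.2.2 =
        sh (Sum.elim side (fun n => side (g n)) q.1) (len q.2.1) ∧ bip q.2.1 := by
    intro M hM p hp
    obtain ⟨q, hq, rfl⟩ := Multiset.mem_map.1 hp
    change Sum.elim side _ (ρ q.2.2) = sh (Sum.elim side _ (ρ q.1)) (len q.2.1) ∧ bip q.2.1
    rw [clone_side hg hρ, clone_side hg hρ]
    exact hM q hq
  obtain ⟨tb, pb⟩ := hT.bok _ hb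
  have tE : TOK side E := fun p hp => tb p (Multiset.mem_add.2 (Or.inl hp))
  have tE' : TOK side E' := fun p hp => tb p (Multiset.mem_add.2 (Or.inr hp))
  have eE : ∀ p ∈ E, p.1 ∈ U ∧ p.2.2 ∈ U := fun p hp => hE p (Multiset.mem_add.2 (Or.inl hp))
  have eE' : ∀ p ∈ E', p.1 ∈ U ∧ p.2.2 ∈ U := fun p hp => hE p (Multiset.mem_add.2 (Or.inr hp))
  refine ⟨?_, ?_, ?_, ?_, fun S _ _ A μ c h => ?_⟩
  · intro p hp
    rcases Multiset.mem_add.1 hp with hp | hp
    · exact TOK.old hT.virt p hp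
    · exact tm E tE p hp
  · intro p hp
    rcases Multiset.mem_add.1 hp with hp | hp
    · exact prt_old hT.prt p hp
    · exact pm Q pb p hp
  · rintro r (⟨r₀, h0, rfl⟩ | ⟨r₀, h0, _, rfl⟩)
    · exact TOK.old (hT.rok r₀ h0)
    · exact tm _ (hT.rok _ h0)
  · rintro r (⟨r₀, h0, rfl⟩ | ⟨r₀, h0, _, rfl⟩)
    · exact ⟨TOK.old (hT.bok r₀ h0).1, prt_old (hT.bok r₀ h0).2⟩
    · exact ⟨tm _ (hT.bok _ h0).1, pm _ (hT.bok _ h0).2⟩
  · obtain ⟨P, hP, hR, hB⟩ := hT.law S A μ c h
    have hb' := hB _ hb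
    have e1 : (fun z => kapE A μ (E + E') z * partE A μ Q z) =
        fun z => (kapE A μ E z * partE A μ Q z) * kapE A μ E' z := by
      funext z
      rw [kapE_add]
      ring
    change BalW μ c side P U (fun z => kapE A μ (E + E') z * partE A μ Q z) at hb'
    rw [e1] at hb'
    obtain ⟨P', hP', h1, h2⟩ := LawW.copy h hg hρ hP hb'
      (fun z => mul_nonneg (kapE_nonneg h _ _) (partE_nonneg h _ _)) (fun z => kapE_nonneg h _ _)
      (fun z z' hz => by
        beta_reduce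
        rw [kapE_dep eE z z' hz, partE_dep hQ z z' hz])
      (fun z z' hz => kapE_congr fun p hp =>
        ⟨hz _ (eE' p hp).1 fun n => (hn p hp n).1, hz _ (eE' p hp).2 fun n => (hn p hp n).2⟩)
      (Forest.mass h hF tE').le
    have τ1 : ∀ (x : V → S) (v : V), (Sum.elim x fun n => x (g n)) (.inl v) = x v :=
      fun x v => rfl
    have τ2 : ∀ (x : V → S) (v : V), (Sum.elim x fun n => x (g n)) (ρ v) = x v := by
      intro x v
      by_cases hn : ∃ n, g n = v
      · obtain ⟨n, rfl⟩ := hn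
        rw [hg]; rfl
      · push Not at hn
        rw [hρ v hn]; rfl
    have nz : ∀ z : V ⊕ N → S, mus (Sum.elim side fun n => side (g n)) μ c z ≠ 0 →
        mus side μ c (fun v => z (ρ v)) ≠ 0 := by
      intro z hz h0
      unfold mus at h0
      obtain ⟨v, _, hv⟩ := Finset.prod_eq_zero_iff.1 h0
      refine hz (Finset.prod_eq_zero (mem_univ (ρ v)) ?_)
      rw [clone_side hg hρ]
      exact hv
    have nz1 : ∀ z : V ⊕ N → S, mus (Sum.elim side fun n => side (g n)) μ c z ≠ 0 →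
        mus side μ c (fun v => z (.inl v)) ≠ 0 := by
      intro z hz
      rw [mus_elim] at hz
      exact left_ne_zero_of_mul hz
    refine ⟨P', ?_, ?_, ?_⟩
    · have e2 : (fun z : V ⊕ N → S => kapE A μ (L.map (emap .inl) + E.map (emap ρ)) z *
          partE A μ (M.map (pmap .inl) + Q.map (pmap ρ)) z) =
          fun z => (kapE A μ L (fun v => z (.inl v)) * partE A μ M fun v => z (.inl v)) *
            (kapE A μ E (fun v => z (ρ v)) * partE A μ Q fun v => z (ρ v)) := by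
        funext z
        rw [kapE_add, partE_add, kapE_map, kapE_map, partE_map, partE_map]
        ring
      rw [e2]
      exact hP'
    · rintro r (⟨⟨U', E₀⟩, h0, rfl⟩ | ⟨⟨U', E₀⟩, h0, hU, rfl⟩)
      · exact MargT.push τ1 (fun Ψ => mus_old h Ψ) (fun G _ => h1 G) (hR _ h0)
      · exact MargT.push τ2 (fun Ψ => mus_rho h hg hρ Ψ)
          (fun G hG => h2 G fun z z' hz => hG z z' fun v hv => hz v (hU hv)) (hR _ h0)
    · rintro r (⟨⟨U', E₀, Q₀⟩, h0, rfl⟩ | ⟨⟨U', E₀, Q₀⟩, h0, hU, rfl⟩)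
      · have h3 := BalW.push (σ := (Sum.inl : V → V ⊕ N)) τ1 (fun Ψ => mus_old h Ψ)
          (fun G _ => h1 G) nz1 (hB _ h0)
        refine Eq.mp (congrArg (BalW μ c _ P' _) ?_) h3
        funext z
        change _ = kapE A μ (E₀.map (emap .inl)) z * partE A μ (Q₀.map (pmap .inl)) z
        rw [kapE_map, partE_map]
      · have h3 := BalW.push (σ := ρ) τ2 (fun Ψ => mus_rho h hg hρ Ψ)
          (fun G hG => h2 G fun z z' hz => hG z z' fun v hv => hz v (hU hv)) nz (hB _ h0)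
        refine Eq.mp (congrArg (BalW μ c _ P' _) ?_) h3
        funext z
        change _ = kapE A μ (E₀.map (emap ρ)) z * partE A μ (Q₀.map (pmap ρ)) z
        rw [kapE_map, partE_map]

end Vale.Agent.P050.SP
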