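import Vale.Agent.P050.R4.H859.Hang

/-!
# P050, series-parallel graphs: the theorem on kernels
-/

namespace Vale.Agent.P050.SP

open Finset Matrix Vale.Agent.P050.Ears

variable {S : Type*} [Fintype S] [DecidableEq S]
variable {A : Matrix S S ℝ} {μ : S → ℝ} {c : S → Bool} (h : Rev A μ c)

include h

theorem K_nonneg : ∀ (e : SP) (x y : S), 0 ≤ K A μ e x y
  | .edge, x, y => div_nonneg (h.nonneg x y) (h.pos y).le
  | .ser a b, x, y => Finset.sum_nonneg fun w _ =>
      mul_nonneg (mul_nonneg (h.pos w).le (K_nonneg a x w)) (K_nonneg b w y)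
  | .par a b, x, y => mul_nonneg (K_nonneg a x y) (K_nonneg b x y)
  | .hang a b, x, y => mul_nonneg (K_nonneg a x y)
      (Finset.sum_nonneg fun w _ => mul_nonneg (h.pos w).le (K_nonneg b x w))
  | .hangR a b, x, y => mul_nonneg (K_nonneg a x y)
      (Finset.sum_nonneg fun w _ => mul_nonneg (h.pos w).le (K_nonneg b y w))

theorem K_pos : ∀ e : SP, bip e → PosK A (len e) (K A μ e)
  | .edge, _ => fun x y hxy => by
      simp only [len, pow_one] at hxy
      exact div_pos hxy (h.pos y)
  | .ser a b, hb => fun x y hxy => by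
      simp only [len, pow_add, Matrix.mul_apply] at hxy
      obtain ⟨w, _, hw⟩ : ∃ w ∈ (univ : Finset S), 0 < (A ^ len a) x w * (A ^ len b) w y := by
        by_contra hne
        push Not at hne
        exact absurd hxy (not_lt.2 (Finset.sum_nonpos hne))
      have h1 : (A ^ len a) x w ≠ 0 := fun h0 => by
        rw [h0, zero_mul] at hw; exact lt_irrefl _ hw
      have h2 : (A ^ len b) w y ≠ 0 := fun h0 => by
        rw [h0, mul_zero] at hw; exact lt_irrefl _ hw
      have h3 := lt_of_le_of_ne (h.pow_nonneg _ x w) h1.symm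
      have h4 := lt_of_le_of_ne (h.pow_nonneg _ w y) h2.symm
      exact Finset.sum_pos' (fun w _ => mul_nonneg (mul_nonneg (h.pos w).le
        (K_nonneg h a x w)) (K_nonneg h b w y)) ⟨w, mem_univ w, mul_pos (mul_pos (h.pos w)
        (K_pos a hb.1 x w h3)) (K_pos b hb.2 w y h4)⟩
  | .par a b, hb => by
      obtain ⟨h1, h2, h3⟩ := hb
      have h4 : len (.par a b) = min (len a) (len b) := rfl
      exact fun x y hxy => mul_pos
        ((K_pos a h1).mono h (by omega) (by omega) x y hxy)
        ((K_pos b h2).mono h (by omega) (by omega) x y hxy)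
  | .hang a b, hb => fun x y hxy =>
      mul_pos (K_pos a hb.1 x y hxy) (out_pos h (K_pos b hb.2) (K_nonneg h b) x)
  | .hangR a b, hb => fun x y hxy =>
      mul_pos (K_pos a hb.1 x y hxy) (out_pos h (K_pos b hb.2) (K_nonneg h b) y)

theorem K_bal {e : SP} (he : Balanced e) : QK A μ c (len e) (K A μ e) := by
  induction he with
  | edge => exact QK_edge h
  | @ser a b ha hb h1 h2 =>
    exact h1.ser h h2 (K_pos h a ha.bip) (K_pos h b hb.bip) (K_nonneg h a) (K_nonneg h b)
  | @par a b ha hb hl h1 h2 =>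
    have h3 : len (.par a b) = len a := by simp only [len, hl, min_self]
    rw [h3]
    rw [← hl] at h2
    exact h1.par h h2 (K_pos h a ha.bip) (by rw [hl]; exact K_pos h b hb.bip)
  | @load a b ha hb hl hl' h1 h2 =>
    have h3 : len (.par a b) = 1 := by
      have := len_pos b
      simp only [len]
      omega
    rw [h3]
    have pa := K_pos h a ha.bip
    rw [hl] at h1 pa
    exact h1.load h h2 hl' pa (K_pos h b hb.bip)
  | @hang a b ha hb h1 h2 =>
    exact h1.hang h h2 (K_pos h a ha.bip) (K_pos h b hb.bip) (K_nonneg h b)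
  | @hangR a b ha hb h1 h2 =>
    exact h1.hangR h h2 (K_pos h a ha.bip) (K_pos h b hb.bip) (K_nonneg h b)

theorem K_good {e : SP} {d : ℕ} (he : Good e d) : GoodK A μ c (len e) d (K A μ e) := by
  induction he with
  | bal hb hd hm => exact (K_bal h hb).good h hd hm
  | @par a b d ha hb h1 h2 =>
    exact GoodK.par h h1 h2 ((K_pos h a ha.bip).mono h ha.le.1 ha.le.2)
      ((K_pos h b hb.bip).mono h hb.le.1 hb.le.2)
  | @serR a b d ha hb h1 h2 h3 h4 =>
    exact GoodK.serR h h4 (K_bal h hb) (K_pos h a ha.bip) (K_pos h b hb.bip) (K_nonneg h a)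
      (K_nonneg h b) h1 h2 h3
  | @serL a b d ha hb h1 h2 h3 h4 =>
    exact GoodK.serL h (K_bal h ha) h4 (K_pos h a ha.bip) (K_pos h b hb.bip) (K_nonneg h a)
      (K_nonneg h b) h1 h2 h3
  | @chain a b ha hb h1 h2 =>
    exact GoodK.chain h h1 h2 (K_pos h a ha.bip) (K_pos h b hb.bip) (K_nonneg h a)
      (K_nonneg h b)
  | @longR a b d ha hb h1 h2 =>
    have h3 := len_pos b
    have h4 := ha.le.1
    exact GoodK.longR h h1 h2 ((K_pos h a ha.bip).mono h ha.le.1 ha.le.2) (K_pos h b hb.bip)
      (K_nonneg h a) (K_nonneg h b) (by omega)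
  | @longL a b d ha hb h1 h2 =>
    have h3 := len_pos a
    have h4 := hb.le.1
    exact GoodK.longL h h1 h2 (K_pos h a ha.bip) ((K_pos h b hb.bip).mono h hb.le.1 hb.le.2)
      (K_nonneg h a) (K_nonneg h b) (by omega)
  | @hang a b d ha hb h1 h2 =>
    exact h1.hang h h2 ((K_pos h a ha.bip).mono h ha.le.1 ha.le.2) (K_pos h b hb.bip)
      (K_nonneg h b)
  | @hangR a b d ha hb h1 h2 =>
    exact h1.hangR h h2 ((K_pos h a ha.bip).mono h ha.le.1 ha.le.2) (K_pos h b hb.bip)
      (K_nonneg h b)

/-- the main inequality for series-parallel graphs of the class `Good` -/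
theorem final {e : SP} (he : Good e (len e)) (b : Bool) :
    1 ≤ ∑ x, if c x = b then ∑ y, μ x * μ y * K A μ e x y else 0 :=
  (K_good h he).final h (K_pos h e he.bip) (K_nonneg h e) b

end Vale.Agent.P050.SP
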