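import Vale.Agent.P050.R4.H859.Good2

/-!
# P050, series-parallel graphs: a crossed side with balanced parts of both lengths
-/

namespace Vale.Agent.P050.SP

open Finset Matrix Vale.Agent.P050.Ears

variable {S : Type*} [Fintype S] [DecidableEq S]
variable {A : Matrix S S ℝ} {μ : S → ℝ} {c : S → Bool} (h : Rev A μ c)

include h

/-- series composition for one starting point, with the walk coupling -/
theorem ser_pt {l1 l2 d a b : ℕ} {F G : S → S → ℝ} (pF : PosK A l1 F) (pG : PosK A l2 G)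
    (nF : ∀ x y, 0 ≤ F x y) (nG : ∀ x y, 0 ≤ G x y) (hab : a + b = l2) (hT : l1 + b = d + a)
    (u : S) :
    (∑ w, (A ^ l1) u w * Real.log (F u w) - Dd A μ l1 u) + Dd A μ (l1 + b) u +
      (EL (lam A b a (fun w => (A ^ l1) u w) (fun v => (A ^ d) u v)) G -
        QB A μ b a (fun w => (A ^ l1) u w) (fun v => (A ^ d) u v)) ≤
      ∑ v, (A ^ d) u v * Real.log (serK μ F G u v) := by
  set rx : S → ℝ := fun w => (A ^ l1) u w with hrx
  set ry : S → ℝ := fun v => (A ^ d) u v with hry
  have hsg : ∀ z, ∑ x, rx x * (A ^ b) x z = (A ^ (l1 + b)) u z := by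
    intro z
    rw [pow_add, Matrix.mul_apply]
  have hc : Cmp A c b a rx ry := by
    refine ⟨fun y => h.pow_nonneg l1 u y, fun y => h.pow_nonneg d u y,
      ⟨sh (c u) l1, fun y hy => h.pow_alt l1 u y hy⟩,
      ⟨sh (c u) d, fun y hy => h.pow_alt d u y hy⟩, fun z => ?_⟩
    rw [hsg, hT, pow_add, Matrix.mul_apply]
  have jn := jensen (X := S) (W := S) (fun v w => lam A b a rx ry w v)
    (fun v w => μ w * F u w * G w v) (fun v w => lam_nonneg h hc w v)
    (fun v w => mul_nonneg (mul_nonneg (h.pos w).le (nF u w)) (nG w v))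
    (fun v w hp => by
      obtain ⟨a1, _, a3⟩ := lam_pos h hc hp
      rw [hab] at a3
      exact mul_pos (mul_pos (h.pos w) (pF u w a1)) (pG w v a3))
  simp only [lam_right h hc] at jn
  have e0 : ∀ v w, lam A b a rx ry w v * (Real.log (μ w * F u w * G w v) -
      Real.log (lam A b a rx ry w v)) =
      lam A b a rx ry w v * (Real.log (μ w) + Real.log (F u w)) +
      lam A b a rx ry w v * Real.log (G w v) -
      lam A b a rx ry w v * Real.log (lam A b a rx ry w v) := by
    intro v w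
    rcases (lam_nonneg h hc w v).eq_or_lt with h0 | h0
    · rw [← h0]; ring
    · obtain ⟨a1, _, a3⟩ := lam_pos h hc h0
      rw [hab] at a3
      have b1 := pF u w a1
      have b2 := pG w v a3
      have b3 := h.pos w
      rw [Real.log_mul (mul_pos b3 b1).ne' b2.ne', Real.log_mul b3.ne' b1.ne']
      ring
  simp only [e0, Finset.sum_add_distrib, Finset.sum_sub_distrib] at jn
  have s1 : ∑ v, ∑ w, lam A b a rx ry w v * (Real.log (μ w) + Real.log (F u w)) =
      ∑ w, rx w * Real.log (μ w) + ∑ w, rx w * Real.log (F u w) := by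
    rw [Finset.sum_comm, ← Finset.sum_add_distrib]
    refine Finset.sum_congr rfl fun w _ => ?_
    rw [← Finset.sum_mul, lam_left h hc]
    ring
  have s2 : ∑ v, ∑ w, lam A b a rx ry w v * Real.log (G w v) = EL (lam A b a rx ry) G :=
    Finset.sum_comm
  have s3 : ∑ v, ∑ w, lam A b a rx ry w v * Real.log (lam A b a rx ry w v) =
      EL (lam A b a rx ry) (lam A b a rx ry) := Finset.sum_comm
  rw [s1, s2, s3] at jn
  unfold QB
  simp only [hsg]
  have s4 : Dd A μ (l1 + b) u = E1 (fun z => (A ^ (l1 + b)) u z) -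
      ∑ z, (A ^ (l1 + b)) u z * Real.log (μ z) := by
    unfold E1 Dd
    rw [← Finset.sum_sub_distrib]
    exact Finset.sum_congr rfl fun z _ => by ring
  have s5 : Dd A μ l1 u = E1 rx - ∑ z, rx z * Real.log (μ z) := by
    unfold E1 Dd
    rw [← Finset.sum_sub_distrib]
    exact Finset.sum_congr rfl fun z _ => by ring
  have s6 : ∑ v, ry v * Real.log (ry v) = E1 ry := rfl
  have s7 : ∑ v, ry v * Real.log (∑ w, μ w * F u w * G w v) =
      ∑ v, ry v * Real.log (serK μ F G u v) := rfl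
  have s8 : ∑ w, (A ^ l1) u w * Real.log (F u w) = ∑ w, rx w * Real.log (F u w) := rfl
  rw [s6, s7] at jn
  rw [s4, s5]
  linarith

/-- compatibility of the two laws given the starting point -/
theorem cmp_walk {l1 d a b : ℕ} (hT : l1 + b = d + a) (u : S) :
    Cmp A c b a (fun w => (A ^ l1) u w) (fun v => (A ^ d) u v) := by
  refine ⟨fun y => h.pow_nonneg l1 u y, fun y => h.pow_nonneg d u y,
    ⟨sh (c u) l1, fun y hy => h.pow_alt l1 u y hy⟩,
    ⟨sh (c u) d, fun y hy => h.pow_alt d u y hy⟩, fun z => ?_⟩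
  rw [← Matrix.mul_apply, ← Matrix.mul_apply, ← pow_add, ← pow_add, hT]

/-- two bridges between `u` and `z`: exchange of `u` and `z` -/
theorem bridge_swap {l1 d a b : ℕ} (hT : l1 + b = d + a) (u z w v : S) :
    μ u * (((A ^ l1) u w * (A ^ b) w z) * ((A ^ d) u v * (A ^ a) v z) / (A ^ (l1 + b)) u z) =
    μ z * (((A ^ b) z w * (A ^ l1) w u) * ((A ^ a) z v * (A ^ d) v u) /
      (A ^ (l1 + b)) z u) := by
  have e1 := h.pow_rev l1 u w
  have e2 := h.pow_rev b w z
  have e3 := h.pow_rev d u v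
  have e4 := h.pow_rev a v z
  have e5 := h.pow_rev (l1 + b) u z
  have hu := (h.pos u).ne'
  have hz := (h.pos z).ne'
  have hw := (h.pos w).ne'
  have hv := (h.pos v).ne'
  by_cases h0 : (A ^ (l1 + b)) u z = 0
  · have h1 : (A ^ (l1 + b)) z u = 0 := by
      rw [h0, mul_zero] at e5
      exact (mul_eq_zero.1 e5.symm).resolve_left hz
    rw [h0, h1, div_zero, div_zero, mul_zero, mul_zero]
  · have h1 : (A ^ (l1 + b)) z u ≠ 0 := by
      intro h1
      rw [h1, mul_zero] at e5
      exact h0 ((mul_eq_zero.1 e5).resolve_left hu)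
    have f1 : (A ^ l1) u w = μ w * (A ^ l1) w u / μ u := by
      rw [eq_div_iff hu]; linarith
    have f2 : (A ^ b) w z = μ z * (A ^ b) z w / μ w := by
      rw [eq_div_iff hw]; linarith
    have f3 : (A ^ d) u v = μ v * (A ^ d) v u / μ u := by
      rw [eq_div_iff hu]; linarith
    have f4 : (A ^ a) v z = μ z * (A ^ a) z v / μ v := by
      rw [eq_div_iff hv]; linarith
    have f5 : (A ^ (l1 + b)) u z = μ z * (A ^ (l1 + b)) z u / μ u := by
      rw [eq_div_iff hu]; linarith
    rw [f1, f2, f3, f4, f5]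
    field_simp

/-- the law of the two points of the bridges, seen from the two ends -/
theorem EL_bridge {l1 d a b : ℕ} (hT : l1 + b = d + a) (t : Bool) (G : S → S → ℝ) :
    (∑ u, if c u = t then μ u * EL (lam A b a (fun w => (A ^ l1) u w)
      (fun v => (A ^ d) u v)) G else 0) =
    ∑ z, if c z = sh t (l1 + b) then μ z * EL (lam A l1 d (fun w => (A ^ b) z w)
      (fun v => (A ^ a) z v)) G else 0 := by
  have hl : ∀ u, μ u * EL (lam A b a (fun w => (A ^ l1) u w) (fun v => (A ^ d) u v)) G =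
      ∑ z, ∑ w, ∑ v, μ u * (((A ^ l1) u w * (A ^ b) w z) * ((A ^ d) u v * (A ^ a) v z) /
        (A ^ (l1 + b)) u z) * Real.log (G w v) := by
    intro u
    unfold EL lam glue
    rw [Finset.mul_sum]
    have t1 : ∀ w, μ u * ∑ y, (∑ z, ((A ^ l1) u w * (A ^ b) w z) * ((A ^ d) u y *
        (A ^ a) y z) / (∑ x, (A ^ l1) u x * (A ^ b) x z)) * Real.log (G w y) =
        ∑ z, ∑ v, μ u * (((A ^ l1) u w * (A ^ b) w z) * ((A ^ d) u v * (A ^ a) v z) /
        (A ^ (l1 + b)) u z) * Real.log (G w v) := by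
      intro w
      rw [Finset.mul_sum, Finset.sum_comm (f := fun z v => μ u * (((A ^ l1) u w *
        (A ^ b) w z) * ((A ^ d) u v * (A ^ a) v z) / (A ^ (l1 + b)) u z) *
        Real.log (G w v))]
      refine Finset.sum_congr rfl fun v _ => ?_
      rw [Finset.sum_mul, Finset.mul_sum]
      refine Finset.sum_congr rfl fun z _ => ?_
      rw [pow_add, Matrix.mul_apply]
      ring
    refine (Finset.sum_congr rfl fun w _ => t1 w).trans ?_
    rw [Finset.sum_comm]
  have hr : ∀ z, μ z * EL (lam A l1 d (fun w => (A ^ b) z w) (fun v => (A ^ a) z v)) G =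
      ∑ u, ∑ w, ∑ v, μ z * (((A ^ b) z w * (A ^ l1) w u) * ((A ^ a) z v * (A ^ d) v u) /
        (A ^ (l1 + b)) z u) * Real.log (G w v) := by
    intro z
    unfold EL lam glue
    rw [Finset.mul_sum]
    have t1 : ∀ w, μ z * ∑ y, (∑ u, ((A ^ b) z w * (A ^ l1) w u) * ((A ^ a) z y *
        (A ^ d) y u) / (∑ x, (A ^ b) z x * (A ^ l1) x u)) * Real.log (G w y) =
        ∑ u, ∑ v, μ z * (((A ^ b) z w * (A ^ l1) w u) * ((A ^ a) z v * (A ^ d) v u) /
        (A ^ (l1 + b)) z u) * Real.log (G w v) := by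
      intro w
      rw [Finset.mul_sum, Finset.sum_comm (f := fun u v => μ z * (((A ^ b) z w *
        (A ^ l1) w u) * ((A ^ a) z v * (A ^ d) v u) / (A ^ (l1 + b)) z u) *
        Real.log (G w v))]
      refine Finset.sum_congr rfl fun v _ => ?_
      rw [Finset.sum_mul, Finset.mul_sum]
      refine Finset.sum_congr rfl fun u _ => ?_
      rw [add_comm l1 b, pow_add, Matrix.mul_apply]
      ring
    refine (Finset.sum_congr rfl fun w _ => t1 w).trans ?_
    rw [Finset.sum_comm]
  have hl2 : ∀ u, (if c u = t then μ u * EL (lam A b a (fun w => (A ^ l1) u w)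
      (fun v => (A ^ d) u v)) G else 0) =
      ∑ z, (if c u = t then ∑ w, ∑ v, μ u * (((A ^ l1) u w * (A ^ b) w z) *
        ((A ^ d) u v * (A ^ a) v z) / (A ^ (l1 + b)) u z) * Real.log (G w v) else 0) := by
    intro u
    split_ifs
    · exact hl u
    · rw [Finset.sum_const_zero]
  have hr2 : ∀ z, (if c z = sh t (l1 + b) then μ z * EL (lam A l1 d (fun w => (A ^ b) z w)
      (fun v => (A ^ a) z v)) G else 0) =
      ∑ u, (if c z = sh t (l1 + b) then ∑ w, ∑ v, μ z * (((A ^ b) z w * (A ^ l1) w u) *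
        ((A ^ a) z v * (A ^ d) v u) / (A ^ (l1 + b)) z u) * Real.log (G w v) else 0) := by
    intro z
    split_ifs
    · exact hr z
    · rw [Finset.sum_const_zero]
  simp only [hl2, hr2]
  rw [Finset.sum_comm]
  refine Finset.sum_congr rfl fun z _ => Finset.sum_congr rfl fun u _ => ?_
  by_cases h0 : (A ^ (l1 + b)) u z = 0
  · have h1 : (A ^ (l1 + b)) z u = 0 := by
      have e5 := h.pow_rev (l1 + b) u z
      rw [h0, mul_zero] at e5
      exact (mul_eq_zero.1 e5.symm).resolve_left (h.pos z).ne'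
    simp only [h0, h1, div_zero, mul_zero, zero_mul, Finset.sum_const_zero, ite_self]
  · have h1 : c z = sh (c u) (l1 + b) := by
      by_contra hne
      exact h0 (h.pow_alt (l1 + b) u z hne)
    have h2 : (c z = sh t (l1 + b)) ↔ (c u = t) := by
      rw [h1]
      constructor
      · intro h3
        have h4 := congrArg (fun s => sh s (l1 + b)) h3
        simpa only [sh_sh] using h4
      · intro h3; rw [h3]
    by_cases h3 : c u = t
    · rw [if_pos h3, if_pos (h2.2 h3)]
      refine Finset.sum_congr rfl fun w _ => Finset.sum_congr rfl fun v _ => ?_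
      rw [bridge_swap h hT]
    · rw [if_neg h3, if_neg (fun h4 => h3 (h2.1 h4))]

/-- series composition with a side which consists of two balanced kernels, one for each of the
two arcs of the polygon -/
theorem GoodK.serR2 {l1 l2 d : ℕ} {F G1 G2 : S → S → ℝ} (hF : GoodK A μ c l1 l1 F)
    (hG1 : QK A μ c l2 G1) (hG2 : QK A μ c (d + l1) G2) (pF : PosK A l1 F)
    (pG1 : PosK A l2 G1) (pG2 : PosK A (d + l1) G2) (nF : ∀ x y, 0 ≤ F x y)
    (nG1 : ∀ x y, 0 ≤ G1 x y) (nG2 : ∀ x y, 0 ≤ G2 x y) (h1 : l1 ≤ d + l2)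
    (h2 : d ≤ l1 + l2) (h2' : l2 ≤ d + l1) (h3 : d % 2 = (l1 + l2) % 2) :
    GoodK A μ c (l1 + l2) d (serK μ F (fun x y => G1 x y * G2 x y)) := by
  intro t
  obtain ⟨b, hb⟩ : ∃ b, l2 + d = l1 + 2 * b := ⟨(l2 + d - l1) / 2, by omega⟩
  obtain ⟨a, ha⟩ : ∃ a, l1 + l2 = d + 2 * a := ⟨(l1 + l2 - d) / 2, by omega⟩
  have hab : a + b = l2 := by omega
  have hT : l1 + b = d + a := by omega
  have pG2' : PosK A l2 G2 := pG2.mono h h2' (by omega)
  have hF1 := hF t
  rw [if_pos rfl, EL_pd h, J_eq h] at hF1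
  rw [EL_pd h]
  have hpt : ∀ u, (∑ w, (A ^ l1) u w * Real.log (F u w) - Dd A μ l1 u) +
      Dd A μ (l1 + b) u + EL (lam A b a (fun w => (A ^ l1) u w) (fun v => (A ^ d) u v)) G2 ≤
      ∑ v, (A ^ d) u v * Real.log (serK μ F (fun x y => G1 x y * G2 x y) u v) := by
    intro u
    have hc := cmp_walk (A := A) (μ := μ) (c := c) h hT u
    have q1 := ser_pt h (G := fun x y => G1 x y * G2 x y) (d := d) pF
      (fun x y hxy => mul_pos (pG1 x y hxy) (pG2' x y hxy)) nF
      (fun x y => mul_nonneg (nG1 x y) (nG2 x y)) hab hT u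
    rw [EL_mul (lam_nonneg h hc)
      (fun x y hp => pG1 x y (by rw [← hab]; exact (lam_pos h hc hp).2.2))
      (fun x y hp => pG2' x y (by rw [← hab]; exact (lam_pos h hc hp).2.2))] at q1
    have q2 := hG1 b a _ _ hab hc
    linarith
  have key : (∑ x, if c x = t then μ x * ∑ y, (A ^ l1) x y * Real.log (F x y) else 0) -
      (∑ x, if c x = t then μ x * Dd A μ l1 x else 0) +
      (∑ x, if c x = t then μ x * Dd A μ (l1 + b) x else 0) +
      (∑ u, if c u = t then μ u * EL (lam A b a (fun w => (A ^ l1) u w)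
        (fun v => (A ^ d) u v)) G2 else 0) ≤
      ∑ x, if c x = t then μ x * ∑ y, (A ^ d) x y *
        Real.log (serK μ F (fun x y => G1 x y * G2 x y) x y) else 0 := by
    rw [← Finset.sum_sub_distrib, ← Finset.sum_add_distrib, ← Finset.sum_add_distrib]
    refine Finset.sum_le_sum fun x _ => ?_
    split_ifs
    · have := mul_le_mul_of_nonneg_left (hpt x) (h.pos x).le
      linarith
    · simp
  have h5 : 0 ≤ ∑ u, if c u = t then μ u * EL (lam A b a (fun w => (A ^ l1) u w)
        (fun v => (A ^ d) u v)) G2 else 0 := by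
    rw [EL_bridge h hT]
    refine Finset.sum_nonneg fun z _ => ?_
    split_ifs
    · have hc2 : Cmp A c l1 d (fun w => (A ^ b) z w) (fun v => (A ^ a) z v) :=
        cmp_walk (A := A) (μ := μ) (c := c) h (by omega : b + l1 = a + d) z
      exact mul_nonneg (h.pos z).le
        ((QB_nonneg h hc2).trans (hG2 l1 d _ _ rfl hc2))
    · exact le_rfl
  have h4 : (if d = l1 + l2 then J A μ c d t else 0) ≤
      ∑ x, if c x = t then μ x * Dd A μ (l1 + b) x else 0 := by
    split_ifs with he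
    · rw [J_eq h, show l1 + b = d by omega]
    · refine Finset.sum_nonneg fun x _ => ?_
      split_ifs
      · exact mul_nonneg (h.pos x).le (Dd_nonneg h _ x)
      · exact le_rfl
  linarith

theorem GoodK.serL2 {l1 l2 d : ℕ} {F1 F2 G : S → S → ℝ} (hF1 : QK A μ c l1 F1)
    (hF2 : QK A μ c (d + l2) F2) (hG : GoodK A μ c l2 l2 G) (pF1 : PosK A l1 F1)
    (pF2 : PosK A (d + l2) F2) (pG : PosK A l2 G) (nF1 : ∀ x y, 0 ≤ F1 x y)
    (nF2 : ∀ x y, 0 ≤ F2 x y) (nG : ∀ x y, 0 ≤ G x y) (h1 : l2 ≤ d + l1)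
    (h2 : d ≤ l1 + l2) (h2' : l1 ≤ d + l2) (h3 : d % 2 = (l1 + l2) % 2) :
    GoodK A μ c (l1 + l2) d (serK μ (fun x y => F1 x y * F2 x y) G) := by
  have h4 := (GoodK.serR2 h (hG.symm h) hF1.symm hF2.symm (PosK.swap h pG) (PosK.swap h pF1)
    (PosK.swap h pF2) (fun x y => nG y x) (fun x y => nF1 y x) (fun x y => nF2 y x) h1
    (by omega : d ≤ l2 + l1) h2' (by omega)).symm h
  have h5 : (fun x y => serK μ (fun x y => G y x) (fun x y => F1 y x * F2 y x) y x) =
      serK μ (fun x y => F1 x y * F2 x y) G :=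
    serK_swap μ (fun x y => F1 x y * F2 x y) G
  rw [h5, add_comm l2 l1] at h4
  exact h4

end Vale.Agent.P050.SP
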