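import Vale.Agent.P050.R4.H859.WalkLaw

/-!
# P050, walk graphs: the steps in packaged form
-/

namespace Vale.Agent.P050.SP

open Finset Matrix Vale.Agent.P050.Ears Vale.Agent.P050.Lev

/-! ### Sides -/

theorem OKt_append {W : Type} {τ : W → Bool} : ∀ {L : List SP} {e : SP}
    {f : Inn (chn e L) → W} {y v : W} {T : List (ℕ × W)},
    (∀ i, τ (f i) = sdi (chn e L) (τ v) i) → τ y = sh (τ v) (len (chn e L)) → OKt τ y T →
      OKt τ v (jun e L f y ++ T)
  | [], e, f, y, v, T, _, hy, hT => ⟨hy, hT⟩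
  | e' :: L, e, f, y, v, T, hf, hy, hT => by
    have h1 : τ (f (.inl ())) = sh (τ v) (len e) := hf (.inl ())
    refine ⟨h1, ?_⟩
    refine OKt_append (L := L) (e := e') (f := fun i => f (.inr (.inr i)))
      (v := f (.inl ())) ?_ ?_ hT
    · intro i
      rw [h1]
      exact hf (.inr (.inr i))
    · rw [h1, sh_add]
      exact hy

theorem OKt_map {V W : Type} {side : V → Bool} {τ : W → Bool} {g : V → W}
    (hg : ∀ v, τ (g v) = side v) : ∀ (L : List (ℕ × V)) (v : V), OKt side v L →
      OKt τ (g v) (rmap g L)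
  | [], _, _ => trivial
  | (d, w) :: L, v, h => by
    refine ⟨?_, OKt_map hg L w h.2⟩
    simp only [hg]
    exact h.1

theorem ROK_map {V W : Type} {side : V → Bool} {τ : W → Bool} {g : V → W}
    (hg : ∀ v, τ (g v) = side v) {R : WRec V} (h : ROK side R) : ROK τ (R.map g) :=
  ⟨OKt_map hg _ _ h.1, OKt_map hg _ _ h.2⟩

theorem ROK_clone {V : Type} {side : V → Bool} {e : SP} {L : List SP} {a b : V}
    {P Q : List (ℕ × V)} (h : ROK side (P, a, (len (chn e L), b) :: Q)) :
    ROK (attSide side (chn e L) a)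
      (rmap .inl P, .inl a, jun e L .inr (.inl b) ++ rmap .inl Q) := by
  obtain ⟨h1, h2, h3⟩ := h
  have hg : ∀ v, attSide side (chn e L) a (.inl v) = side v := fun _ => rfl
  exact ⟨OKt_map hg P a h1, OKt_append (fun _ => rfl) h2 (OKt_map hg Q b h3)⟩

theorem ROK_hang {V : Type} {side : V → Bool} {e : SP} {L : List SP} {a : V}
    {P Q : List (ℕ × V)} (h : ROK side (P, a, Q)) :
    ROK (penSide side (chn e L) a)
      (rmap .inl P, .inl a, jun e L (fun i => .inr (.inr i)) (.inr (.inl ()))) := by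
  have hg : ∀ v, penSide side (chn e L) a (.inl v) = side v := fun _ => rfl
  refine ⟨OKt_map hg P a h.1, ?_⟩
  have h1 := OKt_append (L := L) (e := e)
    (f := fun i => (.inr (.inr i) : V ⊕ (Unit ⊕ Inn (chn e L))))
    (τ := penSide side (chn e L) a) (y := .inr (.inl ())) (v := .inl a) (T := [])
    (fun _ => rfl) rfl trivial
  rwa [List.append_nil] at h1

theorem simple_chn : ∀ (L : List SP) (e : SP), (∀ t ∈ e :: L, simple t) → simple (chn e L)
  | [], e, h => h e (by simp)
  | e' :: L, e, h => ⟨h e (by simp), simple_chn L e' fun t ht => h t (by simp at ht ⊢; tauto)⟩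

theorem bip_chn : ∀ (L : List SP) (e : SP), (∀ t ∈ e :: L, bip t) → bip (chn e L)
  | [], e, h => h e (by simp)
  | e' :: L, e, h => ⟨h e (by simp), bip_chn L e' fun t ht => h t (by simp at ht ⊢; tauto)⟩

/-! ### Steps -/

variable {S : Type} [Fintype S] [DecidableEq S] {A : Matrix S S ℝ} {μ : S → ℝ} {c : S → Bool}
variable {V : Type} [Fintype V] [DecidableEq V] {H : SimpleGraph V} {side : V → Bool}
variable {π : (V → S) → ℝ} {e : SP} {L : List SP} {a b : V} {P Q : List (ℕ × V)}

/-- A chain of tight parts is attached at two consecutive vertices of a record. -/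
theorem clone_step (h : Rev A μ c) (hs : ∀ t ∈ e :: L, simple t) (hb : ∀ t ∈ e :: L, bip t)
    (hg : ∀ t ∈ e :: L, GoodK A μ c (len t) (len t) (K A μ t)) (hab : a ≠ b)
    (hd : ¬ (direct (chn e L) ∧ H.Adj a b)) (hR : ROK side (P, a, (len (chn e L), b) :: Q))
    (hP : LawOn H side A μ c π) (hm : Marg A μ c side π (P, a, (len (chn e L), b) :: Q)) :
    ∃ π' : (V ⊕ Inn (chn e L) → S) → ℝ,
      LawOn (SP.att H (chn e L) a b) (attSide side (chn e L) a) A μ c π' ∧
      (∀ R : WRec V, Marg A μ c side π R →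
        Marg A μ c (attSide side (chn e L) a) π' (R.map .inl)) ∧
      ∀ P Q, Marg A μ c side π (P, a, (len (chn e L), b) :: Q) →
        Marg A μ c (attSide side (chn e L) a) π'
          (rmap .inl P, .inl a, jun e L .inr (.inl b) ++ rmap .inl Q) := by
  have hc : CP A μ (e :: L) := fun t ht => K_pos h t (hb t ht)
  exact ⟨cloP A μ e L a b π,
    LawOn.clone h (simple_chn L e hs) (bip_chn L e hb) hab hd hR.2.1 hP hc hg hm,
    fun R hR => Marg.clone_old h hP.nonneg hc hm hR, fun P' Q' hm' => Marg.clone_new h hc hm'⟩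

/-- A chain of tight parts is hung at a recorded vertex. -/
theorem hang_step (h : Rev A μ c) (hs : ∀ t ∈ e :: L, simple t) (hb : ∀ t ∈ e :: L, bip t)
    (hg : ∀ t ∈ e :: L, GoodK A μ c (len t) (len t) (K A μ t))
    (hP : LawOn H side A μ c π) (hm : Marg A μ c side π (P, a, Q)) :
    ∃ π' : (V ⊕ (Unit ⊕ Inn (chn e L)) → S) → ℝ,
      LawOn (SP.pen H (chn e L) a) (penSide side (chn e L) a) A μ c π' ∧
      (∀ R : WRec V, Marg A μ c side π R →
        Marg A μ c (penSide side (chn e L) a) π' (R.map .inl)) ∧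
      ∀ P Q, Marg A μ c side π (P, a, Q) →
        Marg A μ c (penSide side (chn e L) a) π'
          (rmap .inl P, .inl a, jun e L (fun i => .inr (.inr i)) (.inr (.inl ()))) := by
  have hc : CP A μ (e :: L) := fun t ht => K_pos h t (hb t ht)
  exact ⟨hanP A μ e L a π,
    LawOn.hangC h (simple_chn L e hs) (bip_chn L e hb) hP hc hg hm,
    fun R hR => Marg.hang_old h hP.nonneg hc hR, fun P' Q' hm' => Marg.hang_new h hc hm'⟩

/-- A part is attached at two consecutive vertices of a record. -/
theorem att_step (h : Rev A μ c) {d : ℕ} (hs : simple e) (hb : bip e) (hle : d ≤ len e)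
    (hpar : d % 2 = len e % 2) (hg : GoodK A μ c (len e) d (K A μ e)) (hab : a ≠ b)
    (hd : ¬ (direct e ∧ H.Adj a b)) (hR : ROK side (P, a, (d, b) :: Q))
    (hP : LawOn H side A μ c π) (hm : Marg A μ c side π (P, a, (d, b) :: Q)) :
    ∃ π' : (V ⊕ Inn e → S) → ℝ,
      LawOn (SP.att H e a b) (attSide side e a) A μ c π' ∧
      ∀ R : WRec V, Marg A μ c side π R → Marg A μ c (attSide side e a) π' (R.map .inl) := by
  have pK : ∀ z, 0 < π z → 0 < K A μ e (z a) (z b) := fun z hz =>
    (K_pos h e hb).mono h hle hpar _ _ (hm.pow_pos h hP.nonneg hz)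
  have pK' : ∀ z, π z ≠ 0 → K A μ e (z a) (z b) ≠ 0 := fun z hz =>
    (pK z (lt_of_le_of_ne (hP.nonneg z) hz.symm)).ne'
  have hside : side b = xor (side a) (decide (len e % 2 = 1)) := by
    have h1 : side b = sh (side a) d := hR.2.1
    rw [h1]
    unfold sh
    rw [hpar]
  refine ⟨attP A μ e a b π, hP.att h hs hb hab hd hside pK ?_, fun R hR => ?_⟩
  · rw [hm.two h (fun x y => Real.log (K A μ e x y))]
    refine (hg.nonneg h (side a)).trans (le_of_eq ?_)
    rw [EL_pd h]
    exact Finset.sum_congr rfl fun x _ => by split_ifs <;> ring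
  · intro F
    have h1 := attP_marg (A := A) (μ := μ) (e := e) (a := a) (b := b) (P := π) pK'
      (fun z => F (R.1.map fun p => z p.2) (z R.2.1) (R.2.2.map fun p => z p.2))
    have h2 := hR F
    rw [← h1] at h2
    simp only [WRec.map, rmap, List.map_map]
    exact h2

end Vale.Agent.P050.SP
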