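import Vale.Agent.P050.R4.H859.Def
import Vale.Agent.P050.R3.H115.RevNum

/-!
# P050, series-parallel graphs: entropy inequalities
-/

namespace Vale.Agent.P050.SP

open Finset Matrix Vale.Agent.P050.Ears

/-- the log sum inequality -/
theorem gibbs {ι : Type*} (s : Finset ι) (q f : ι → ℝ) (hq : ∀ i ∈ s, 0 ≤ q i)
    (hf : ∀ i ∈ s, 0 ≤ f i) (hqf : ∀ i ∈ s, 0 < q i → 0 < f i) :
    ∑ i ∈ s, q i * (Real.log (f i) - Real.log (q i)) ≤
      (∑ i ∈ s, q i) * (Real.log (∑ i ∈ s, f i) - Real.log (∑ i ∈ s, q i)) := by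
  rcases (Finset.sum_nonneg hq).eq_or_lt with h0 | h0
  · have hz : ∀ i ∈ s, q i = 0 := (Finset.sum_eq_zero_iff_of_nonneg hq).1 h0.symm
    rw [← h0, zero_mul]
    apply le_of_eq
    apply Finset.sum_eq_zero
    intro i hi
    rw [hz i hi, zero_mul]
  · set m := ∑ i ∈ s, q i with hm
    set F := ∑ i ∈ s, f i with hF
    obtain ⟨j, hj, hj0⟩ : ∃ j ∈ s, 0 < q j := by
      by_contra hc
      push Not at hc
      have : m ≤ 0 := Finset.sum_nonpos hc
      linarith
    have hF0 : 0 < F := Finset.sum_pos' hf ⟨j, hj, hqf j hj hj0⟩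
    have key : ∀ i ∈ s, q i * (Real.log (f i) - Real.log (q i)) ≤
        q i * (Real.log F - Real.log m) + (f i * (m / F) - q i) := by
      intro i hi
      rcases (hq i hi).eq_or_lt with h1 | h1
      · rw [← h1]
        have := hf i hi
        have : 0 ≤ f i * (m / F) := by positivity
        simpa using this
      · have hfi := hqf i hi h1
        have h2 := Real.log_le_sub_one_of_pos (x := f i * (m / F) / q i) (by positivity)
        rw [Real.log_div (by positivity) h1.ne', Real.log_mul hfi.ne' (by positivity),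
          Real.log_div h0.ne' hF0.ne'] at h2
        have h3 := mul_le_mul_of_nonneg_left h2 h1.le
        have h4 : q i * (f i * (m / F) / q i - 1) = f i * (m / F) - q i := by
          field_simp
        rw [h4] at h3
        linarith
    calc _ ≤ ∑ i ∈ s, (q i * (Real.log F - Real.log m) + (f i * (m / F) - q i)) :=
          Finset.sum_le_sum key
      _ = m * (Real.log F - Real.log m) + (F * (m / F) - m) := by
        rw [Finset.sum_add_distrib, Finset.sum_sub_distrib, ← Finset.sum_mul, ← Finset.sum_mul]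
      _ = m * (Real.log F - Real.log m) := by
        have : F * (m / F) = m := by field_simp
        rw [this]
        ring

/-- Jensen's inequality for a sum of logarithms of sums -/
theorem jensen {X W : Type*} [Fintype X] [Fintype W] (τ f : X → W → ℝ)
    (hτ : ∀ x w, 0 ≤ τ x w) (hf : ∀ x w, 0 ≤ f x w) (hp : ∀ x w, 0 < τ x w → 0 < f x w) :
    ∑ x, ∑ w, τ x w * (Real.log (f x w) - Real.log (τ x w)) +
        ∑ x, (∑ w, τ x w) * Real.log (∑ w, τ x w) ≤
      ∑ x, (∑ w, τ x w) * Real.log (∑ w, f x w) := by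
  rw [← Finset.sum_add_distrib]
  refine Finset.sum_le_sum fun x _ => ?_
  have := gibbs univ (τ x) (f x) (fun w _ => hτ x w) (fun w _ => hf x w) (fun w _ => hp x w)
  linarith [this, mul_sub (∑ w, τ x w) (Real.log (∑ w, f x w)) (Real.log (∑ w, τ x w))]

variable {S : Type*} [Fintype S]

/-- the expectation of `log F` -/
noncomputable def EL (r F : S → S → ℝ) : ℝ := ∑ x, ∑ y, r x y * Real.log (F x y)

/-- the negative entropy -/
noncomputable def E1 (r : S → ℝ) : ℝ := ∑ x, r x * Real.log (r x)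

/-- the series composition of two kernels -/
noncomputable def serK (μ : S → ℝ) (F G : S → S → ℝ) (x y : S) : ℝ :=
  ∑ w, μ w * F x w * G w y

/-- gluing of two laws with a common marginal -/
noncomputable def glue (r q : S → S → ℝ) (om : S → ℝ) (x y : S) : ℝ :=
  ∑ w, r x w * q w y / om w

theorem glue_aux1 {r q : S → S → ℝ} {om : S → ℝ} (h1 : ∀ x w, 0 ≤ r x w)
    (m1 : ∀ w, ∑ x, r x w = om w) (m2 : ∀ w, ∑ y, q w y = om w) (x w : S) :
    ∑ y, r x w * q w y / om w = r x w := by
  rw [← Finset.sum_div, ← Finset.mul_sum, m2]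
  by_cases h0 : om w = 0
  · have : r x w = 0 := by
      have h := m1 w
      rw [h0] at h
      exact (Finset.sum_eq_zero_iff_of_nonneg (fun x _ => h1 x w)).1 h x (mem_univ x)
    rw [this, zero_mul, zero_div]
  · rw [mul_div_assoc, div_self h0, mul_one]

theorem glue_aux2 {r q : S → S → ℝ} {om : S → ℝ} (h2 : ∀ w y, 0 ≤ q w y)
    (m1 : ∀ w, ∑ x, r x w = om w) (m2 : ∀ w, ∑ y, q w y = om w) (w y : S) :
    ∑ x, r x w * q w y / om w = q w y := by
  rw [← Finset.sum_div, ← Finset.sum_mul, m1]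
  by_cases h0 : om w = 0
  · have : q w y = 0 := by
      have h := m2 w
      rw [h0] at h
      exact (Finset.sum_eq_zero_iff_of_nonneg (fun y _ => h2 w y)).1 h y (mem_univ y)
    rw [this, mul_zero, zero_div]
  · rw [mul_comm, mul_div_assoc, div_self h0, mul_one]

/-- the composition inequality -/
theorem comp {μ : S → ℝ} (hμ : ∀ x, 0 < μ x) {r q F G : S → S → ℝ} {om : S → ℝ}
    (h1 : ∀ x w, 0 ≤ r x w) (h2 : ∀ w y, 0 ≤ q w y)
    (m1 : ∀ w, ∑ x, r x w = om w) (m2 : ∀ w, ∑ y, q w y = om w)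
    (f1 : ∀ x w, 0 ≤ F x w) (f2 : ∀ w y, 0 ≤ G w y)
    (p1 : ∀ x w, 0 < r x w → 0 < F x w) (p2 : ∀ w y, 0 < q w y → 0 < G w y) :
    EL (glue r q om) (glue r q om) + E1 om + ∑ w, om w * Real.log (μ w) +
        (EL r F - EL r r) + (EL q G - EL q q) ≤
      EL (glue r q om) (serK μ F G) := by
  have hom : ∀ w, 0 ≤ om w := fun w => by
    rw [← m1 w]
    exact Finset.sum_nonneg fun x _ => h1 x w
  have hτ : ∀ (p : S × S) w, 0 ≤ r p.1 w * q w p.2 / om w := fun p w =>
    div_nonneg (mul_nonneg (h1 _ _) (h2 _ _)) (hom w)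
  have hpos : ∀ (p : S × S) w, 0 < r p.1 w * q w p.2 / om w →
      0 < r p.1 w ∧ 0 < q w p.2 ∧ 0 < om w := by
    intro p w hw
    have a1 : r p.1 w ≠ 0 := by
      intro h0
      rw [h0, zero_mul, zero_div] at hw
      exact lt_irrefl _ hw
    have a2 : q w p.2 ≠ 0 := by
      intro h0
      rw [h0, mul_zero, zero_div] at hw
      exact lt_irrefl _ hw
    have a3 : om w ≠ 0 := by
      intro h0
      rw [h0, div_zero] at hw
      exact lt_irrefl _ hw
    exact ⟨lt_of_le_of_ne (h1 _ _) a1.symm, lt_of_le_of_ne (h2 _ _) a2.symm,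
      lt_of_le_of_ne (hom _) a3.symm⟩
  have J := jensen (X := S × S) (W := S) (fun p w => r p.1 w * q w p.2 / om w)
    (fun p w => μ w * F p.1 w * G w p.2) hτ
    (fun p w => mul_nonneg (mul_nonneg (hμ w).le (f1 _ _)) (f2 _ _))
    (fun p w hw => by
      obtain ⟨a1, a2, _⟩ := hpos p w hw
      exact mul_pos (mul_pos (hμ w) (p1 _ _ a1)) (p2 _ _ a2))
  have e0 : ∀ (p : S × S) w, r p.1 w * q w p.2 / om w *
      (Real.log (μ w * F p.1 w * G w p.2) - Real.log (r p.1 w * q w p.2 / om w)) =
      r p.1 w * q w p.2 / om w * (Real.log (om w) + Real.log (μ w)) +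
      r p.1 w * q w p.2 / om w * (Real.log (F p.1 w) - Real.log (r p.1 w)) +
      r p.1 w * q w p.2 / om w * (Real.log (G w p.2) - Real.log (q w p.2)) := by
    intro p w
    rcases (hτ p w).eq_or_lt with h0 | h0
    · rw [← h0]; ring
    · obtain ⟨a1, a2, a3⟩ := hpos p w h0
      have b1 := p1 _ _ a1
      have b2 := p2 _ _ a2
      have b3 := hμ w
      rw [Real.log_mul (mul_pos b3 b1).ne' b2.ne', Real.log_mul b3.ne' b1.ne',
        Real.log_div (mul_pos a1 a2).ne' a3.ne', Real.log_mul a1.ne' a2.ne']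
      ring
  simp only [e0] at J
  simp only [Fintype.sum_prod_type, Finset.sum_add_distrib] at J
  have s1 : ∑ x, ∑ y, ∑ w, r x w * q w y / om w * (Real.log (om w) + Real.log (μ w)) =
      E1 om + ∑ w, om w * Real.log (μ w) := by
    have : ∀ x, ∑ y, ∑ w, r x w * q w y / om w * (Real.log (om w) + Real.log (μ w)) =
        ∑ w, r x w * (Real.log (om w) + Real.log (μ w)) := by
      intro x
      rw [Finset.sum_comm]
      refine Finset.sum_congr rfl fun w _ => ?_
      rw [← Finset.sum_mul, glue_aux1 h1 m1 m2]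
    simp only [this]
    rw [Finset.sum_comm]
    simp only [← Finset.sum_mul, m1, mul_add, Finset.sum_add_distrib]
    rfl
  have s2 : ∑ x, ∑ y, ∑ w, r x w * q w y / om w * (Real.log (F x w) - Real.log (r x w)) =
      EL r F - EL r r := by
    unfold EL
    rw [← Finset.sum_sub_distrib]
    refine Finset.sum_congr rfl fun x _ => ?_
    rw [Finset.sum_comm, ← Finset.sum_sub_distrib]
    refine Finset.sum_congr rfl fun w _ => ?_
    rw [← Finset.sum_mul, glue_aux1 h1 m1 m2]
    ring
  have s3 : ∑ x, ∑ y, ∑ w, r x w * q w y / om w * (Real.log (G w y) - Real.log (q w y)) =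
      EL q G - EL q q := by
    unfold EL
    rw [← Finset.sum_sub_distrib]
    rw [Finset.sum_comm]
    have : ∀ y, ∑ x, ∑ w, r x w * q w y / om w * (Real.log (G w y) - Real.log (q w y)) =
        ∑ w, q w y * (Real.log (G w y) - Real.log (q w y)) := by
      intro y
      rw [Finset.sum_comm]
      refine Finset.sum_congr rfl fun w _ => ?_
      rw [← Finset.sum_mul, glue_aux2 h2 m1 m2]
    simp only [this]
    rw [Finset.sum_comm]
    refine Finset.sum_congr rfl fun w _ => ?_
    rw [← Finset.sum_sub_distrib]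
    exact Finset.sum_congr rfl fun y _ => by ring
  rw [s1, s2, s3] at J
  have s4 : EL (glue r q om) (glue r q om) = ∑ x, ∑ y, (∑ w, r x w * q w y / om w) *
      Real.log (∑ w, r x w * q w y / om w) := rfl
  have s5 : EL (glue r q om) (serK μ F G) = ∑ x, ∑ y, (∑ w, r x w * q w y / om w) *
      Real.log (∑ w, μ w * F x w * G w y) := rfl
  rw [s4, s5]
  linarith

end Vale.Agent.P050.SP
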