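import Vale.Agent.P050.R4.H859.Class

/-!
# P050, series-parallel graphs: strictly balanced gadgets are as good as paths
-/

namespace Vale.Agent.P050.SP

open Finset Matrix Vale.Agent.P050.Ears

/-- Strictly balanced expressions: parallel composition only for equal lengths. Balanced
gadgets may be hung at the vertices. -/
inductive SBal : SP → Prop
  | edge : SBal .edge
  | ser {a b : SP} : SBal a → SBal b → SBal (.ser a b)
  | par {a b : SP} : SBal a → SBal b → len a = len b → SBal (.par a b)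
  | hang {a b : SP} : SBal a → Balanced b → SBal (.hang a b)
  | hangR {a b : SP} : SBal a → Balanced b → SBal (.hangR a b)

theorem SBal.bal {e : SP} (h : SBal e) : Balanced e := by
  induction h with
  | edge => exact .edge
  | ser _ _ h1 h2 => exact .ser h1 h2
  | par _ _ hl h1 h2 => exact .par h1 h2 hl
  | hang _ hb h1 => exact .hang h1 hb
  | hangR _ hb h1 => exact .hangR h1 hb

variable {S : Type*} [Fintype S] [DecidableEq S]

/-- the kernel `F` is as good as the kernel of the walks of length `l`, for every law of the two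
ends -/
def BK (A : Matrix S S ℝ) (μ : S → ℝ) (l : ℕ) (F : S → S → ℝ) : Prop :=
  ∀ r : S → S → ℝ, (∀ x y, 0 ≤ r x y) → (∀ x y, 0 < r x y → 0 < (A ^ l) x y) →
    0 ≤ EL r (kap A μ l) → EL r (kap A μ l) ≤ EL r F

/-- the law of the point at time `k` of a walk of length `k + m` from `x` to `y` -/
noncomputable def bw (A : Matrix S S ℝ) (k m : ℕ) (x y w : S) : ℝ :=
  (A ^ k) x w * (A ^ m) w y / (A ^ (k + m)) x y

variable {A : Matrix S S ℝ} {μ : S → ℝ} {c : S → Bool} (h : Rev A μ c)

include h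

theorem bw_nonneg (k m : ℕ) (x y w : S) : 0 ≤ bw A k m x y w :=
  div_nonneg (mul_nonneg (h.pow_nonneg _ _ _) (h.pow_nonneg _ _ _)) (h.pow_nonneg _ _ _)

omit h in
theorem bw_sum {k m : ℕ} {x y : S} (hxy : 0 < (A ^ (k + m)) x y) : ∑ w, bw A k m x y w = 1 := by
  unfold bw
  rw [← Finset.sum_div, ← Matrix.mul_apply, ← pow_add, div_self hxy.ne']

theorem bw_pos {k m : ℕ} {x y w : S} (hw : 0 < bw A k m x y w) :
    0 < (A ^ k) x w ∧ 0 < (A ^ m) w y ∧ 0 < (A ^ (k + m)) x y := by
  unfold bw at hw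
  refine ⟨lt_of_le_of_ne (h.pow_nonneg _ _ _) fun h0 => ?_,
    lt_of_le_of_ne (h.pow_nonneg _ _ _) fun h0 => ?_,
    lt_of_le_of_ne (h.pow_nonneg _ _ _) fun h0 => ?_⟩
  · rw [← h0, zero_mul, zero_div] at hw
    exact lt_irrefl _ hw
  · rw [← h0, mul_zero, zero_div] at hw
    exact lt_irrefl _ hw
  · rw [← h0, div_zero] at hw
    exact lt_irrefl _ hw

/-- the logarithm of the bridge law -/
theorem bw_log {k m : ℕ} {x y w : S} (hw : 0 < bw A k m x y w) :
    Real.log (bw A k m x y w) = Real.log (μ w) + Real.log (kap A μ k x w) +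
      Real.log (kap A μ m w y) - Real.log (kap A μ (k + m) x y) := by
  obtain ⟨h1, h2, h3⟩ := bw_pos h hw
  unfold bw kap
  rw [Real.log_div (mul_pos h1 h2).ne' h3.ne', Real.log_mul h1.ne' h2.ne',
    Real.log_div h1.ne' (h.pos w).ne', Real.log_div h2.ne' (h.pos y).ne',
    Real.log_div h3.ne' (h.pos y).ne']
  ring

/-- the second part of the bridge -/
theorem sub2 {k m : ℕ} {x y : S} (hxy : 0 < (A ^ (k + m)) x y) :
    Real.log (kap A μ (k + m) x y) ≤ ∑ w, bw A k m x y w * Real.log (kap A μ m w y) := by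
  have g := gibbs (univ : Finset S) (fun w => bw A k m x y w) (fun w => (A ^ k) x w)
    (fun w _ => bw_nonneg h k m x y w) (fun w _ => h.pow_nonneg _ _ _)
    (fun w _ hw => (bw_pos h hw).1)
  rw [bw_sum hxy, h.pow_row] at g
  simp only [Real.log_one, sub_self, mul_zero] at g
  have e : ∀ w, bw A k m x y w * (Real.log ((A ^ k) x w) - Real.log (bw A k m x y w)) =
      bw A k m x y w * Real.log (kap A μ (k + m) x y) -
        bw A k m x y w * Real.log (kap A μ m w y) := by
    intro w
    rcases (bw_nonneg h k m x y w).eq_or_lt with h0 | h0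
    · rw [← h0]; ring
    · obtain ⟨h1, _, _⟩ := bw_pos h h0
      have e1 : Real.log (kap A μ k x w) = Real.log ((A ^ k) x w) - Real.log (μ w) :=
        Real.log_div h1.ne' (h.pos w).ne'
      rw [bw_log h h0, e1]
      ring
  simp only [e, Finset.sum_sub_distrib, ← Finset.sum_mul] at g
  rw [bw_sum hxy] at g
  linarith

theorem bw_swap (k m : ℕ) (x y w : S) : bw A m k y x w = bw A k m x y w := by
  unfold bw
  have e1 := h.pow_rev k x w
  have e2 := h.pow_rev m w y
  have e3 := h.pow_rev (k + m) x y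
  have hx := (h.pos x).ne'
  have hy := (h.pos y).ne'
  have hw := (h.pos w).ne'
  by_cases h0 : (A ^ (k + m)) x y = 0
  · have h1 : (A ^ (k + m)) y x = 0 := by
      rw [h0, mul_zero] at e3
      exact (mul_eq_zero.1 e3.symm).resolve_left hy
    rw [add_comm m k, h0, h1, div_zero, div_zero]
  · have h1 : (A ^ (k + m)) y x ≠ 0 := by
      intro h1
      rw [h1, mul_zero] at e3
      exact h0 ((mul_eq_zero.1 e3).resolve_left hx)
    rw [add_comm m k, div_eq_div_iff h1 h0]
    have f1 : (A ^ k) x w = μ w * (A ^ k) w x / μ x := by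
      rw [eq_div_iff hx]; linarith
    have f2 : (A ^ m) y w = μ w * (A ^ m) w y / μ y := by
      rw [eq_div_iff hy]; linarith
    have f3 : (A ^ (k + m)) x y = μ y * (A ^ (k + m)) y x / μ x := by
      rw [eq_div_iff hx]; linarith
    rw [f1, f2, f3]
    field_simp

/-- the first part of the bridge -/
theorem sub1 {k m : ℕ} {x y : S} (hxy : 0 < (A ^ (k + m)) x y) :
    Real.log (kap A μ (k + m) x y) ≤ ∑ w, bw A k m x y w * Real.log (kap A μ k x w) := by
  have hyx : 0 < (A ^ (m + k)) y x := by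
    have h1 := h.pow_rev (k + m) x y
    have h2 : 0 < μ y * (A ^ (k + m)) y x := by
      rw [← h1]; exact mul_pos (h.pos x) hxy
    rw [add_comm]
    exact (mul_pos_iff_of_pos_left (h.pos y)).1 h2
  have h1 := sub2 h hyx
  rw [add_comm m k, h.kap_symm (k + m) y x] at h1
  refine h1.trans (le_of_eq (Finset.sum_congr rfl fun w _ => ?_))
  rw [bw_swap h, h.kap_symm k w x]

/-- Jensen's inequality for a series composition, with the bridge -/
theorem ser_bw {k m : ℕ} {F G : S → S → ℝ} (pF : PosK A k F) (pG : PosK A m G)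
    (nF : ∀ x y, 0 ≤ F x y) (nG : ∀ x y, 0 ≤ G x y) {x y : S} (hxy : 0 < (A ^ (k + m)) x y) :
    Real.log (kap A μ (k + m) x y) +
      ∑ w, bw A k m x y w * (Real.log (F x w) - Real.log (kap A μ k x w)) +
      ∑ w, bw A k m x y w * (Real.log (G w y) - Real.log (kap A μ m w y)) ≤
      Real.log (serK μ F G x y) := by
  have g := gibbs (univ : Finset S) (fun w => bw A k m x y w) (fun w => μ w * F x w * G w y)
    (fun w _ => bw_nonneg h k m x y w)
    (fun w _ => mul_nonneg (mul_nonneg (h.pos w).le (nF x w)) (nG w y))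
    (fun w _ hw => by
      obtain ⟨h1, h2, _⟩ := bw_pos h hw
      exact mul_pos (mul_pos (h.pos w) (pF x w h1)) (pG w y h2))
  rw [bw_sum hxy, Real.log_one, one_mul, sub_zero] at g
  refine le_trans (le_of_eq ?_) g
  have e1 : Real.log (kap A μ (k + m) x y) =
      ∑ w, bw A k m x y w * Real.log (kap A μ (k + m) x y) := by
    rw [← Finset.sum_mul, bw_sum hxy, one_mul]
  rw [e1, ← Finset.sum_add_distrib, ← Finset.sum_add_distrib]
  refine Finset.sum_congr rfl fun w _ => ?_
  rcases (bw_nonneg h k m x y w).eq_or_lt with h0 | h0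
  · rw [← h0]; ring
  · obtain ⟨h1, h2, _⟩ := bw_pos h h0
    have b1 := pF x w h1
    have b2 := pG w y h2
    have b3 := h.pos w
    rw [bw_log h h0, Real.log_mul (mul_pos b3 b1).ne' b2.ne', Real.log_mul b3.ne' b1.ne']
    ring

omit [DecidableEq S] h in
theorem EL_sum1 (r : S → S → ℝ) (q : S → S → S → ℝ) (F : S → S → ℝ) :
    EL (fun x w => ∑ y, r x y * q x y w) F =
      ∑ x, ∑ y, r x y * ∑ w, q x y w * Real.log (F x w) := by
  unfold EL
  refine Finset.sum_congr rfl fun x _ => ?_
  simp only [Finset.sum_mul, Finset.mul_sum]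
  rw [Finset.sum_comm]
  exact Finset.sum_congr rfl fun y _ => Finset.sum_congr rfl fun w _ => by ring

omit [DecidableEq S] h in
theorem EL_sum2 (r : S → S → ℝ) (q : S → S → S → ℝ) (F : S → S → ℝ) :
    EL (fun w y => ∑ x, r x y * q x y w) F =
      ∑ x, ∑ y, r x y * ∑ w, q x y w * Real.log (F w y) := by
  unfold EL
  simp only [Finset.sum_mul, Finset.mul_sum]
  rw [Finset.sum_comm]
  have : ∀ y, ∑ w, ∑ x, r x y * q x y w * Real.log (F w y) =
      ∑ x, ∑ w, r x y * (q x y w * Real.log (F w y)) := by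
    intro y
    rw [Finset.sum_comm]
    exact Finset.sum_congr rfl fun x _ => Finset.sum_congr rfl fun w _ => by ring
  simp only [this]
  rw [Finset.sum_comm]

/-- series composition -/
theorem BK.ser {k m : ℕ} {F G : S → S → ℝ} (hF : BK A μ k F) (hG : BK A μ m G)
    (pF : PosK A k F) (pG : PosK A m G) (nF : ∀ x y, 0 ≤ F x y) (nG : ∀ x y, 0 ≤ G x y) :
    BK A μ (k + m) (serK μ F G) := by
  intro r hr hs h0
  set r1 : S → S → ℝ := fun x w => ∑ y, r x y * bw A k m x y w with hr1
  set r2 : S → S → ℝ := fun w y => ∑ x, r x y * bw A k m x y w with hr2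
  have hp1 : ∀ x w, 0 < r1 x w → 0 < (A ^ k) x w := by
    intro x w hw
    refine lt_of_le_of_ne (h.pow_nonneg _ _ _) fun hz => ?_
    have : r1 x w = 0 := Finset.sum_eq_zero fun y _ => by
      unfold bw; rw [← hz]; ring
    linarith
  have hp2 : ∀ w y, 0 < r2 w y → 0 < (A ^ m) w y := by
    intro w y hw
    refine lt_of_le_of_ne (h.pow_nonneg _ _ _) fun hz => ?_
    have : r2 w y = 0 := Finset.sum_eq_zero fun x _ => by
      unfold bw; rw [← hz]; ring
    linarith
  have hn1 : ∀ x w, 0 ≤ r1 x w := fun x w =>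
    Finset.sum_nonneg fun y _ => mul_nonneg (hr x y) (bw_nonneg h k m x y w)
  have hn2 : ∀ w y, 0 ≤ r2 w y := fun w y =>
    Finset.sum_nonneg fun x _ => mul_nonneg (hr x y) (bw_nonneg h k m x y w)
  have hle1 : EL r (kap A μ (k + m)) ≤ EL r1 (kap A μ k) := by
    rw [hr1, EL_sum1]
    refine Finset.sum_le_sum fun x _ => Finset.sum_le_sum fun y _ => ?_
    rcases (hr x y).eq_or_lt with hz | hz
    · rw [← hz, zero_mul, zero_mul]
    · exact mul_le_mul_of_nonneg_left (sub1 h (hs x y hz)) hz.le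
  have hle2 : EL r (kap A μ (k + m)) ≤ EL r2 (kap A μ m) := by
    rw [hr2, EL_sum2]
    refine Finset.sum_le_sum fun x _ => Finset.sum_le_sum fun y _ => ?_
    rcases (hr x y).eq_or_lt with hz | hz
    · rw [← hz, zero_mul, zero_mul]
    · exact mul_le_mul_of_nonneg_left (sub2 h (hs x y hz)) hz.le
  have h1 := hF r1 hn1 hp1 (h0.trans hle1)
  have h2 := hG r2 hn2 hp2 (h0.trans hle2)
  have h3 : EL r (kap A μ (k + m)) + (EL r1 F - EL r1 (kap A μ k)) +
      (EL r2 G - EL r2 (kap A μ m)) ≤ EL r (serK μ F G) := by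
    rw [hr1, hr2, EL_sum1, EL_sum1, EL_sum2, EL_sum2]
    unfold EL
    simp only [← Finset.sum_sub_distrib, ← Finset.sum_add_distrib]
    refine Finset.sum_le_sum fun x _ => Finset.sum_le_sum fun y _ => ?_
    rcases (hr x y).eq_or_lt with hz | hz
    · rw [← hz]; simp
    · have h4 := mul_le_mul_of_nonneg_left (ser_bw h pF pG nF nG (hs x y hz)) hz.le
      refine le_trans (le_of_eq ?_) h4
      simp only [mul_sub, Finset.sum_sub_distrib]
      ring
  linarith

omit h in
/-- parallel composition -/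
theorem BK.par {l : ℕ} {F G : S → S → ℝ} (hF : BK A μ l F) (hG : BK A μ l G)
    (pF : PosK A l F) (pG : PosK A l G) : BK A μ l (fun x y => F x y * G x y) := by
  intro r hr hs h0
  rw [EL_mul hr (fun x y hp => pF x y (hs x y hp)) (fun x y hp => pG x y (hs x y hp))]
  have h1 := hF r hr hs h0
  have h2 := hG r hr hs h0
  linarith

theorem BK.hang {l l2 : ℕ} {F G : S → S → ℝ} (hF : BK A μ l F) (hG : QK A μ c l2 G)
    (pF : PosK A l F) (pG : PosK A l2 G) (nG : ∀ x y, 0 ≤ G x y) :
    BK A μ l (fun x y => F x y * ∑ w, μ w * G x w) := by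
  intro r hr hs h0
  rw [EL_mul hr (fun x y hp => pF x y (hs x y hp)) (fun x y _ => out_pos h pG nG x)]
  have h1 := hF r hr hs h0
  have h2 : 0 ≤ EL r (fun x _ => ∑ w, μ w * G x w) :=
    Finset.sum_nonneg fun x _ => Finset.sum_nonneg fun y _ =>
      mul_nonneg (hr x y) (hG.out h pG nG x)
  linarith

theorem BK.hangR {l l2 : ℕ} {F G : S → S → ℝ} (hF : BK A μ l F) (hG : QK A μ c l2 G)
    (pF : PosK A l F) (pG : PosK A l2 G) (nG : ∀ x y, 0 ≤ G x y) :
    BK A μ l (fun x y => F x y * ∑ w, μ w * G y w) := by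
  intro r hr hs h0
  rw [EL_mul hr (fun x y hp => pF x y (hs x y hp)) (fun x y _ => out_pos h pG nG y)]
  have h1 := hF r hr hs h0
  have h2 : 0 ≤ EL r (fun _ y => ∑ w, μ w * G y w) :=
    Finset.sum_nonneg fun x _ => Finset.sum_nonneg fun y _ =>
      mul_nonneg (hr x y) (hG.out h pG nG y)
  linarith

/-- Strictly balanced gadgets are as good as paths, for every law of the two ends. -/
theorem K_BK {e : SP} (he : SBal e) : BK A μ (len e) (K A μ e) := by
  induction he with
  | edge =>
    intro r _ _ _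
    have : K A μ .edge = kap A μ (len .edge) := by
      funext x y
      simp only [K, kap, len, pow_one]
    rw [this]
  | @ser a b ha hb h1 h2 =>
    exact h1.ser h h2 (K_pos h a ha.bal.bip) (K_pos h b hb.bal.bip) (K_nonneg h a) (K_nonneg h b)
  | @par a b ha hb hl h1 h2 =>
    have h3 : len (.par a b) = len a := by simp only [len, hl, min_self]
    rw [h3]
    rw [← hl] at h2
    exact h1.par h2 (K_pos h a ha.bal.bip) (by rw [hl]; exact K_pos h b hb.bal.bip)
  | @hang a b ha hb h1 =>
    exact h1.hang h (K_bal h hb) (K_pos h a ha.bal.bip) (K_pos h b hb.bip) (K_nonneg h b)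
  | @hangR a b ha hb h1 =>
    exact h1.hangR h (K_bal h hb) (K_pos h a ha.bal.bip) (K_pos h b hb.bip) (K_nonneg h b)

end Vale.Agent.P050.SP
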