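import Vale.Agent.P050.R4.H859.Ker

/-!
# P050, series-parallel graphs: balanced kernels
-/

namespace Vale.Agent.P050.SP

open Finset Matrix Vale.Agent.P050.Ears

variable {S : Type*} [Fintype S] [DecidableEq S]
variable {A : Matrix S S ℝ} {μ : S → ℝ} {c : S → Bool} (h : Rev A μ c)

include h

/-- the kernel of an edge -/
theorem QK_edge : QK A μ c 1 (fun x y => A x y / μ y) := by
  -- the case `b = 1`, `a = 0`
  have main : ∀ rx ry : S → ℝ, Cmp A c 1 0 rx ry →
      QB A μ 1 0 rx ry ≤ EL (lam A 1 0 rx ry) (fun x y => A x y / μ y) := by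
    intro rx ry hc
    have hsg : (fun z => ∑ x, rx x * (A ^ 1) x z) = ry := by
      funext z
      rw [hc.eq z, pow_zero]
      simp [Matrix.one_apply]
    have hl : lam A 1 0 rx ry = fun x y => rx x * A x y := by
      funext x y
      unfold lam glue
      rw [Finset.sum_eq_single y]
      · have hy : (∑ x', rx x' * (A ^ 1) x' y) = ry y := congrFun hsg y
        change rx x * (A ^ 1) x y * (ry y * (A ^ 0) y y) / (∑ x', rx x' * (A ^ 1) x' y) = _
        rw [hy, pow_one, pow_zero, Matrix.one_apply_eq, mul_one]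
        by_cases h0 : ry y = 0
        · have h1 : rx x * A x y = 0 := by
            have h2 : ∑ x', rx x' * (A ^ 1) x' y = 0 := by rw [hy, h0]
            rw [pow_one] at h2
            exact (Finset.sum_eq_zero_iff_of_nonneg
              (fun x _ => mul_nonneg (hc.nx x) (h.nonneg x y))).1 h2 x (mem_univ x)
          rw [h1, zero_mul, zero_div]
        · rw [mul_div_assoc, div_self h0, mul_one]
      · intro z _ hz
        change rx x * (A ^ 1) x z * (ry y * (A ^ 0) y z) / _ = 0
        rw [pow_zero, Matrix.one_apply_ne hz.symm, mul_zero, mul_zero, zero_div]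
      · intro hy; exact absurd (mem_univ y) hy
    have hE : EL (fun x y => rx x * A x y) (fun x y => rx x * A x y) =
        E1 rx + EL (fun x y => rx x * A x y) (fun x y => A x y) := by
      have t1 : ∀ x y, rx x * A x y * Real.log (rx x * A x y) =
          rx x * A x y * Real.log (rx x) + rx x * A x y * Real.log (A x y) := by
        intro x y
        by_cases h1 : rx x = 0
        · rw [h1]; ring
        by_cases h2 : A x y = 0
        · rw [h2]; ring
        rw [Real.log_mul h1 h2]; ring
      unfold EL E1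
      simp only [t1, Finset.sum_add_distrib]
      congr 1
      refine Finset.sum_congr rfl fun x _ => ?_
      rw [← Finset.sum_mul, ← Finset.mul_sum, h.row, mul_one]
    have hF : EL (fun x y => rx x * A x y) (fun x y => A x y / μ y) =
        EL (fun x y => rx x * A x y) (fun x y => A x y) - ∑ z, ry z * Real.log (μ z) := by
      have t1 : ∀ x y, rx x * A x y * Real.log (A x y / μ y) =
          rx x * A x y * Real.log (A x y) - rx x * A x y * Real.log (μ y) := by
        intro x y
        by_cases h2 : A x y = 0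
        · rw [h2]; ring
        rw [Real.log_div h2 (h.pos y).ne']; ring
      unfold EL
      simp only [t1, Finset.sum_sub_distrib]
      congr 1
      rw [Finset.sum_comm]
      refine Finset.sum_congr rfl fun y _ => ?_
      rw [← Finset.sum_mul]
      congr 1
      have := congrFun hsg y
      rw [pow_one] at this
      exact this
    have hz : ∀ z, ∑ x, rx x * (A ^ 1) x z = ry z := fun z => congrFun hsg z
    unfold QB
    rw [hsg, hl, hE, hF]
    simp only [hz]
    linarith
  intro b a rx ry hl hc
  rcases Nat.eq_zero_or_pos a with ha | ha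
  · subst ha
    have hb : b = 1 := by omega
    subst hb
    exact main rx ry hc
  · have ha' : a = 1 := by omega
    have hb : b = 0 := by omega
    subst ha' hb
    have h1 := main ry rx hc.symm
    rw [hc.QB_swap, hc.lam_swap] at h1
    refine h1.trans (le_of_eq ?_)
    rw [← EL_swap (lam A 0 1 rx ry) (fun x y => A x y / μ y)]
    unfold EL
    refine Finset.sum_congr rfl fun x _ => Finset.sum_congr rfl fun y _ => ?_
    congr 2
    rw [div_eq_div_iff (h.pos _).ne' (h.pos _).ne']
    have := h.rev x y
    linarith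

/-- parallel composition of balanced kernels of the same length -/
theorem QK.par {l : ℕ} {F G : S → S → ℝ} (hF : QK A μ c l F) (hG : QK A μ c l G)
    (pF : PosK A l F) (pG : PosK A l G) : QK A μ c l (fun x y => F x y * G x y) := by
  intro b a rx ry hl hc
  rw [EL_mul (lam_nonneg h hc) (fun x y hp => pF x y (by rw [← hl]; exact (lam_pos h hc hp).2.2))
    (fun x y hp => pG x y (by rw [← hl]; exact (lam_pos h hc hp).2.2))]
  have h1 := hF b a rx ry hl hc
  have h2 := hG b a rx ry hl hc
  have h3 := QB_nonneg h hc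
  linarith

/-- series composition, the middle vertex is on the walk from the first terminal -/
theorem QK.ser_aux {l1 l2 : ℕ} {F G : S → S → ℝ} (hF : QK A μ c l1 F) (hG : QK A μ c l2 G)
    (pF : PosK A l1 F) (pG : PosK A l2 G) (nF : ∀ x y, 0 ≤ F x y) (nG : ∀ x y, 0 ≤ G x y)
    (b a : ℕ) (rx ry : S → ℝ) (hl : a + (l1 + b) = l1 + l2)
    (hc : Cmp A c (l1 + b) a rx ry) :
    QB A μ (l1 + b) a rx ry ≤ EL (lam A (l1 + b) a rx ry) (serK μ F G) := by
  set om : S → ℝ := fun w => ∑ x, rx x * (A ^ l1) x w with hom
  have hsg : ∀ z, ∑ w, om w * (A ^ b) w z = ∑ x, rx x * (A ^ (l1 + b)) x z := by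
    intro z
    simp only [hom, Finset.sum_mul]
    rw [Finset.sum_comm]
    refine Finset.sum_congr rfl fun x _ => ?_
    rw [pow_add, Matrix.mul_apply, Finset.mul_sum]
    exact Finset.sum_congr rfl fun w _ => by ring
  have hc1 : Cmp A c l1 0 rx om := by
    refine ⟨hc.nx, fun w => ?_, hc.sx, ?_, fun z => ?_⟩
    · exact Finset.sum_nonneg fun x _ => mul_nonneg (hc.nx x) (h.pow_nonneg l1 x w)
    · obtain ⟨s, hs⟩ := hc.sx
      refine ⟨xor s (decide (l1 % 2 = 1)), fun z hz => Finset.sum_eq_zero fun x _ => ?_⟩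
      by_cases hx : c x = s
      · rw [h.pow_alt l1 x z (by rw [hx]; exact hz), mul_zero]
      · rw [hs x hx, zero_mul]
    · rw [pow_zero]
      simp [Matrix.one_apply, hom]
  have hc2 : Cmp A c b a om ry := by
    refine ⟨hc1.ny, hc.ny, hc1.sy, hc.sy, fun z => ?_⟩
    rw [hsg, hc.eq z]
  have q1 := hF l1 0 rx om (by omega) hc1
  have q2 := hG b a om ry (by omega) hc2
  -- the law of the first part
  have hl1 : lam A l1 0 rx om = fun x w => rx x * (A ^ l1) x w := by
    funext x y
    unfold lam glue
    rw [Finset.sum_eq_single y]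
    · change rx x * (A ^ l1) x y * (om y * (A ^ 0) y y) / om y = _
      rw [pow_zero, Matrix.one_apply_eq, mul_one]
      by_cases h0 : om y = 0
      · have h1 : rx x * (A ^ l1) x y = 0 :=
          (Finset.sum_eq_zero_iff_of_nonneg
            (fun x _ => mul_nonneg (hc.nx x) (h.pow_nonneg l1 x y))).1 h0 x (mem_univ x)
        rw [h1, zero_mul, zero_div]
      · rw [mul_div_assoc, div_self h0, mul_one]
    · intro z _ hz
      change rx x * (A ^ l1) x z * (om y * (A ^ 0) y z) / _ = 0
      rw [pow_zero, Matrix.one_apply_ne hz.symm, mul_zero, mul_zero, zero_div]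
    · intro hy; exact absurd (mem_univ y) hy
  -- gluing
  have hglue : glue (fun x w => rx x * (A ^ l1) x w) (lam A b a om ry) om =
      lam A (l1 + b) a rx ry := by
    funext x y
    unfold lam glue
    have t1 : ∀ w, rx x * (A ^ l1) x w * (∑ z, om w * (A ^ b) w z * (ry y * (A ^ a) y z) /
        (∑ x', om x' * (A ^ b) x' z)) / om w =
        ∑ z, rx x * ((A ^ l1) x w * (A ^ b) w z) * (ry y * (A ^ a) y z) /
        (∑ x', rx x' * (A ^ (l1 + b)) x' z) := by
      intro w
      rw [Finset.mul_sum, Finset.sum_div]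
      refine Finset.sum_congr rfl fun z _ => ?_
      rw [hsg z]
      by_cases h0 : om w = 0
      · have h1 : rx x * (A ^ l1) x w = 0 :=
          (Finset.sum_eq_zero_iff_of_nonneg
            (fun x _ => mul_nonneg (hc.nx x) (h.pow_nonneg l1 x w))).1 h0 x (mem_univ x)
        rw [← mul_assoc (rx x), h1]
        simp
      · field_simp
    change ∑ w, rx x * (A ^ l1) x w * (∑ z, om w * (A ^ b) w z * (ry y * (A ^ a) y z) /
        (∑ x', om x' * (A ^ b) x' z)) / om w = ∑ z, rx x * (A ^ (l1 + b)) x z *
        (ry y * (A ^ a) y z) / (∑ x', rx x' * (A ^ (l1 + b)) x' z)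
    simp only [t1]
    rw [Finset.sum_comm]
    refine Finset.sum_congr rfl fun z _ => ?_
    rw [← Finset.sum_div, ← Finset.sum_mul, ← Finset.mul_sum, pow_add, Matrix.mul_apply]
  have C := comp h.pos (r := fun x w => rx x * (A ^ l1) x w) (q := lam A b a om ry)
    (F := F) (G := G) (om := om)
    (fun x w => mul_nonneg (hc.nx x) (h.pow_nonneg l1 x w)) (lam_nonneg h hc2)
    (fun w => rfl) (lam_left h hc2) nF nG
    (fun x w hp => pF x w (by
      refine lt_of_le_of_ne (h.pow_nonneg l1 x w) fun h0 => ?_
      rw [← h0, mul_zero] at hp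
      exact lt_irrefl _ hp))
    (fun w y hp => pG w y (by
      have := (lam_pos h hc2 hp).2.2
      rwa [show a + b = l2 by omega] at this))
  rw [hglue] at C
  have hom' : (fun z => ∑ x, rx x * (A ^ l1) x z) = om := rfl
  unfold QB at q1 q2 ⊢
  rw [hl1, hom'] at q1
  simp only [hsg] at q2
  have e1 : ∑ z, (∑ x, rx x * (A ^ l1) x z) * Real.log (μ z) = ∑ z, om z * Real.log (μ z) := rfl
  rw [e1] at q1
  linarith

/-- series composition of balanced kernels -/
theorem QK.ser {l1 l2 : ℕ} {F G : S → S → ℝ} (hF : QK A μ c l1 F) (hG : QK A μ c l2 G)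
    (pF : PosK A l1 F) (pG : PosK A l2 G) (nF : ∀ x y, 0 ≤ F x y) (nG : ∀ x y, 0 ≤ G x y) :
    QK A μ c (l1 + l2) (serK μ F G) := by
  intro b a rx ry hl hc
  rcases Nat.le_total l1 b with hb | hb
  · obtain ⟨b', rfl⟩ := Nat.exists_eq_add_of_le hb
    exact hF.ser_aux h hG pF pG nF nG b' a rx ry hl hc
  · obtain ⟨a', rfl⟩ : ∃ a', a = l2 + a' := ⟨a - l2, by omega⟩
    have hsw : ∀ {l : ℕ} {F : S → S → ℝ}, PosK A l F → PosK A l (fun x y => F y x) := by
      intro l F hp x y hxy
      refine hp y x ?_
      have h1 := h.pow_rev l x y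
      have h2 : 0 < μ y * (A ^ l) y x := by
        rw [← h1]; exact mul_pos (h.pos x) hxy
      exact (mul_pos_iff_of_pos_left (h.pos y)).1 h2
    have h1 := hG.symm.ser_aux h hF.symm (hsw pG) (hsw pF) (fun x y => nG y x)
      (fun x y => nF y x) a' b ry rx (by omega) hc.symm
    rw [hc.QB_swap, hc.lam_swap] at h1
    refine h1.trans (le_of_eq ?_)
    rw [← EL_swap (lam A b (l2 + a') rx ry) (serK μ F G)]
    unfold EL serK
    refine Finset.sum_congr rfl fun x _ => Finset.sum_congr rfl fun y _ => ?_
    congr 2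
    exact Finset.sum_congr rfl fun w _ => by ring

end Vale.Agent.P050.SP
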