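import Vale.Agent.P050.R4.H859.CopyLaw

/-!
# P050, frames: the law of a copy
-/

namespace Vale.Agent.P050.SP

open Finset Matrix Vale.Agent.P050.Ears Vale.Agent.P050.Lev

variable {S : Type} [Fintype S] [DecidableEq S] {A : Matrix S S ℝ} {μ : S → ℝ} {c : S → Bool}
variable {V : Type} [Fintype V] [DecidableEq V] {side : V → Bool} {P : (V → S) → ℝ}
variable {N : Type} [Fintype N] [DecidableEq N]
variable {g : N → V} {ρ : V → V ⊕ N} {U : Set V} {f : (V → S) → ℝ}

theorem sub_le_mul_log_sub {a b : ℝ} (ha : 0 ≤ a) (hb : 0 ≤ b) (hab : a ≠ 0 → b ≠ 0) :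
    a - b ≤ a * (Real.log a - Real.log b) := by
  rcases ha.eq_or_lt with h0 | h0
  · rw [← h0, zero_mul]; linarith
  · have hb' : 0 < b := lt_of_le_of_ne hb (hab h0.ne').symm
    have h1 := Real.one_sub_inv_le_log_of_pos (div_pos h0 hb')
    rw [Real.log_div h0.ne' hb'.ne', inv_div] at h1
    have h2 := mul_le_mul_of_nonneg_left h1 h0.le
    have h3 : a * (1 - b / a) = a - b := by
      rw [mul_sub, mul_one, mul_div_cancel₀ _ h0.ne']
    linarith

/-- the product measure and the renamed vertices -/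
theorem mus_rho (h : Rev A μ c) (hg : ∀ n, ρ (g n) = .inr n)
    (hρ : ∀ v, (∀ n, g n ≠ v) → ρ v = .inl v) (Ψ : (V → S) → ℝ) :
    ∑ z : V ⊕ N → S, mus (Sum.elim side fun n => side (g n)) μ c z * Ψ (fun v => z (ρ v)) =
      ∑ z, mus side μ c z * Ψ z := by
  rw [sum_arrow, resample h side (clone_inj hg) Ψ]
  refine Finset.sum_congr rfl fun z _ => ?_
  rw [Finset.mul_sum]
  refine Finset.sum_congr rfl fun y _ => ?_
  rw [mus_sumElim, clone_extend hg hρ]
  ring

theorem ext_off (z : V → S) (y : N → S) {v : V} (hv : ∀ n, g n ≠ v) :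
    Function.extend g y z v = z v :=
  Function.extend_apply' _ _ _ fun ⟨n, hn⟩ => hv n hn

/-- the total weight of the cloned vertices -/
theorem zwG_rho (hg : ∀ n, ρ (g n) = .inr n) (hρ : ∀ v, (∀ n, g n ≠ v) → ρ v = .inl v)
    (z : V → S) : zwG μ c (fun n => side (g n)) (fun z => f fun v => z (ρ v)) z =
      ∑ y : N → S, mus (fun n => side (g n)) μ c y * f (Function.extend g y z) := by
  unfold zwG
  refine Finset.sum_congr rfl fun y _ => ?_
  beta_reduce
  rw [clone_extend hg hρ]

/-- functions of the kept vertices -/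
def DepK (g : N → V) (U : Set V) (F : (V → S) → ℝ) : Prop :=
  ∀ z z' : V → S, (∀ v ∈ U, (∀ n, g n ≠ v) → z v = z' v) → F z = F z'

theorem DepK.dep {F : (V → S) → ℝ} (hF : DepK g U F) : Dep U F :=
  fun z z' hz => hF z z' fun v hv _ => hz v hv

theorem ext_dep (hi : Function.Injective g) {F : (V → S) → ℝ} (hF : Dep U F)
    {z z' : V → S} (hz : ∀ v ∈ U, (∀ n, g n ≠ v) → z v = z' v) (y : N → S) :
    F (Function.extend g y z) = F (Function.extend g y z') := by
  refine hF _ _ fun v hv => ?_
  by_cases hn : ∃ n, g n = v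
  · obtain ⟨n, rfl⟩ := hn
    rw [hi.extend_apply, hi.extend_apply]
  · push Not at hn
    rw [ext_off z y hn, ext_off z' y hn]
    exact hz v hv hn

theorem zwG_rho_dep (hg : ∀ n, ρ (g n) = .inr n) (hρ : ∀ v, (∀ n, g n ≠ v) → ρ v = .inl v)
    (hf : Dep U f) :
    DepK g U (zwG μ c (fun n => side (g n)) fun z => f fun v => z (ρ v)) := by
  intro z z' hz
  rw [zwG_rho hg hρ, zwG_rho hg hρ]
  exact Finset.sum_congr rfl fun y _ => by rw [ext_dep (clone_inj hg) hf hz y]

/-- the law of the kept vertices -/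
theorem margK (h : Rev A μ c) (hg : ∀ n, ρ (g n) = .inr n)
    (hρ : ∀ v, (∀ n, g n ≠ v) → ρ v = .inl v) (hm : MargF μ c side P U f)
    {G : (V → S) → ℝ} (hG : DepK g U G) :
    ∑ z, P z * G z = ∑ z, mus side μ c z *
      (zwG μ c (fun n => side (g n)) (fun z => f fun v => z (ρ v)) z * G z) := by
  rw [hm G hG.dep, resample h side (clone_inj hg) fun z => f z * G z]
  refine Finset.sum_congr rfl fun z _ => ?_
  rw [zwG_rho hg hρ, Finset.sum_mul]
  congr 1
  refine Finset.sum_congr rfl fun y _ => ?_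
  have h1 : G (Function.extend g y z) = G z := hG _ _ fun v _ hn => ext_off z y hn
  rw [h1]
  ring

theorem zwG_rho_ne (h : Rev A μ c) (hg : ∀ n, ρ (g n) = .inr n)
    (hρ : ∀ v, (∀ n, g n ≠ v) → ρ v = .inl v) (hP : ∀ z, 0 ≤ P z) (hf : Dep U f)
    (hm : MargF μ c side P U f) (z : V → S) (hz : P z ≠ 0) :
    zwG μ c (fun n => side (g n)) (fun z => f fun v => z (ρ v)) z ≠ 0 := by
  classical
  intro h0
  have h1 := margK h hg hρ hm
    (G := fun z => if zwG μ c (fun n => side (g n)) (fun z => f fun v => z (ρ v)) z = 0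
      then 1 else 0) (fun z z' hz => by beta_reduce; rw [zwG_rho_dep hg hρ hf z z' hz])
  have h2 : ∑ z, mus side μ c z * (zwG μ c (fun n => side (g n))
      (fun z => f fun v => z (ρ v)) z *
      (if zwG μ c (fun n => side (g n)) (fun z => f fun v => z (ρ v)) z = 0
        then (1 : ℝ) else 0)) = 0 := by
    refine Finset.sum_eq_zero fun z _ => ?_
    split_ifs with h3
    · rw [h3]; ring
    · ring
  rw [h2] at h1
  have h4 := (Finset.sum_eq_zero_iff_of_nonneg fun z' _ => mul_nonneg (hP z')
    (by split_ifs <;> norm_num)).1 h1 z (mem_univ z)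
  rw [if_pos h0, mul_one] at h4
  exact hz h4

/-- the law of the copy -/
theorem marg_copy (h : Rev A μ c) (hg : ∀ n, ρ (g n) = .inr n)
    (hρ : ∀ v, (∀ n, g n ≠ v) → ρ v = .inl v) (f0 : ∀ z, 0 ≤ f z) (hf : Dep U f)
    (hm : MargF μ c side P U f) {G : (V → S) → ℝ} (hG : Dep U G) :
    ∑ z, extG μ c (fun n => side (g n)) (fun z => f fun v => z (ρ v)) P z *
      G (fun v => z (ρ v)) = ∑ z, P z * G z := by
  have hi := clone_inj hg
  rw [extG_sum']
  have hH : DepK g U fun z => ∑ y, mus (fun n => side (g n)) μ c y *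
      (f fun v => Sum.elim z y (ρ v)) /
        zwG μ c (fun n => side (g n)) (fun z => f fun v => z (ρ v)) z *
          G (fun v => Sum.elim z y (ρ v)) := by
    intro z z' hz
    refine Finset.sum_congr rfl fun y _ => ?_
    rw [zwG_rho_dep hg hρ hf z z' hz]
    simp only [clone_extend hg hρ]
    rw [ext_dep hi hf hz y, ext_dep hi hG hz y]
  rw [margK h hg hρ hm hH, hm G hG, resample h side hi fun z => f z * G z]
  refine Finset.sum_congr rfl fun z _ => ?_
  congr 1
  rw [Finset.mul_sum]
  simp only [clone_extend hg hρ]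
  by_cases h0 : zwG μ c (fun n => side (g n)) (fun z => f fun v => z (ρ v)) z = 0
  · rw [zwG_rho hg hρ] at h0
    have h2 := fun y => (Finset.sum_eq_zero_iff_of_nonneg fun y' _ =>
      mul_nonneg (mus_nonneg h (fun n => side (g n)) y') (f0 _)).1 h0 y (mem_univ y)
    refine Finset.sum_congr rfl fun y _ => ?_
    have h3 : mus (fun n => side (g n)) μ c y *
        (f (Function.extend g y z) * G (Function.extend g y z)) = 0 := by
      rw [← mul_assoc, h2 y, zero_mul]
    rw [h3, zwG_rho hg hρ, h0, zero_mul]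
  · refine Finset.sum_congr rfl fun y _ => ?_
    field_simp

/-- **Copies.** A balanced set `U` with the weight `w₁ * e` is copied; `e` is a weight of total
mass one on the kept vertices. -/
theorem LawW.copy (h : Rev A μ c) (hg : ∀ n, ρ (g n) = .inr n)
    (hρ : ∀ v, (∀ n, g n ≠ v) → ρ v = .inl v) {W w₁ e : (V → S) → ℝ}
    (hP : LawW W side μ c P) (hB : BalW μ c side P U fun z => w₁ z * e z)
    (w0 : ∀ z, 0 ≤ w₁ z) (e0 : ∀ z, 0 ≤ e z) (hw : Dep U w₁) (he : DepK g U e)
    (hm : ∑ z, mus side μ c z * e z ≤ 1) :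
    ∃ P' : (V ⊕ N → S) → ℝ,
      LawW (fun z => W (fun v => z (.inl v)) * w₁ (fun v => z (ρ v)))
        (Sum.elim side fun n => side (g n)) μ c P' ∧
      (∀ G : (V → S) → ℝ, ∑ z, P' z * G (fun v => z (.inl v)) = ∑ z, P z * G z) ∧
      ∀ G : (V → S) → ℝ, Dep U G → ∑ z, P' z * G (fun v => z (ρ v)) = ∑ z, P z * G z := by
  obtain ⟨f, f0, fd, fm, fs, fb⟩ := hB
  have hZ := zwG_rho_ne h hg hρ hP.nonneg fd fm
  have hP1 : ∀ G : (V → S) → ℝ, Dep U G →
      ∑ z, extG μ c (fun n => side (g n)) (fun z => f fun v => z (ρ v)) P z *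
        G (fun v => z (ρ v)) = ∑ z, P z * G z := fun G hG => marg_copy h hg hρ f0 fd fm hG
  -- the support
  have spt : ∀ z : V ⊕ N → S,
      0 < extG μ c (fun n => side (g n)) (fun z => f fun v => z (ρ v)) P z →
      w₁ (fun v => z (ρ v)) * e (fun v => z (ρ v)) ≠ 0 := by
    intro z hz
    obtain ⟨p1, p2, p3, _⟩ := extG_pos h (fun z => f0 _) hP.nonneg hz
    refine fs _ (mul_ne_zero ?_ p3)
    have q1 : mus side μ c (fun v => z (.inl v)) ≠ 0 := by
      intro h0
      have := hP.supp _ p1
      rw [h0, zero_mul] at this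
      exact lt_irrefl _ this
    intro h0
    unfold mus at h0
    obtain ⟨v, _, hv⟩ := Finset.prod_eq_zero_iff.1 h0
    by_cases hn : ∃ n, g n = v
    · obtain ⟨n, rfl⟩ := hn
      beta_reduce at hv
      rw [hg] at hv
      exact p2 (Finset.prod_eq_zero (mem_univ n) hv)
    · push Not at hn
      beta_reduce at hv
      rw [hρ v hn] at hv
      exact q1 (Finset.prod_eq_zero (mem_univ v) hv)
  refine ⟨extG μ c (fun n => side (g n)) (fun z => f fun v => z (ρ v)) P,
    hP.extD h (fun z => f0 _) (fun z => w0 _) hZ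
      (fun z hz => left_ne_zero_of_mul (spt z hz)) ?_, fun G => extG_sum hZ G, hP1⟩
  -- the entropy balance
  have h1 : Dep U fun z => Real.log (w₁ z) - Real.log (f z) := fun z z' hz => by
    beta_reduce
    rw [hw z z' hz, fd z z' hz]
  rw [hP1 _ h1]
  have hlogf : Dep U fun z => Real.log (w₁ z * e z) - Real.log (f z) := fun z z' hz => by
    beta_reduce
    rw [hw z z' hz, fd z z' hz, he.dep z z' hz]
  have h2 : 0 ≤ ∑ z, P z * (Real.log (w₁ z * e z) - Real.log (f z)) := by
    rw [fm _ hlogf]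
    exact fb
  -- Gibbs
  have h3 : 0 ≤ ∑ z, P z *
      (Real.log (zwG μ c (fun n => side (g n)) (fun z => f fun v => z (ρ v)) z) -
        Real.log (e z)) := by
    have hd : DepK g U fun z =>
        Real.log (zwG μ c (fun n => side (g n)) (fun z => f fun v => z (ρ v)) z) -
          Real.log (e z) := fun z z' hz => by
      beta_reduce
      rw [zwG_rho_dep hg hρ fd z z' hz, he z z' hz]
    rw [margK h hg hρ fm hd]
    have h4 := margK h hg hρ fm (G := fun _ => 1) fun _ _ _ => rfl
    simp only [mul_one, hP.sum] at h4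
    have h5 : 0 ≤ ∑ z, mus side μ c z *
        (zwG μ c (fun n => side (g n)) (fun z => f fun v => z (ρ v)) z - e z) := by
      simp only [mul_sub, Finset.sum_sub_distrib]
      rw [← h4]
      linarith
    refine h5.trans (Finset.sum_le_sum fun z _ => ?_)
    by_cases hz : mus side μ c z = 0
    · rw [hz, zero_mul, zero_mul]
    · refine mul_le_mul_of_nonneg_left (sub_le_mul_log_sub
        (zwG_nonneg h (fun z => f0 _) z) (e0 z) fun hZ0 => ?_) (mus_nonneg h _ _)
      rw [zwG_rho hg hρ] at hZ0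
      obtain ⟨y, _, hy⟩ := Finset.exists_ne_zero_of_sum_ne_zero hZ0
      have h6 : e (Function.extend g y z) = e z := he _ _ fun v _ hn => ext_off z y hn
      rw [← h6]
      refine right_ne_zero_of_mul (fs _ (mul_ne_zero ?_ (right_ne_zero_of_mul hy)))
      have q2 := left_ne_zero_of_mul hy
      intro h0
      unfold mus at h0
      obtain ⟨v, _, hv⟩ := Finset.prod_eq_zero_iff.1 h0
      by_cases hn : ∃ n, g n = v
      · obtain ⟨n, rfl⟩ := hn
        rw [(clone_inj hg).extend_apply] at hv
        exact q2 (Finset.prod_eq_zero (mem_univ n) hv)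
      · push Not at hn
        rw [ext_off z y hn] at hv
        exact hz (Finset.prod_eq_zero (mem_univ v) hv)
  have h7 : ∑ z, P z *
      Real.log (zwG μ c (fun n => side (g n)) (fun z => f fun v => z (ρ v)) z) +
      ∑ z, P z * (Real.log (w₁ z) - Real.log (f z)) =
      ∑ z, P z * (Real.log (zwG μ c (fun n => side (g n)) (fun z => f fun v => z (ρ v)) z) -
        Real.log (e z)) +
      ∑ z, P z * (Real.log (w₁ z * e z) - Real.log (f z)) := by
    rw [← Finset.sum_add_distrib, ← Finset.sum_add_distrib]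
    refine Finset.sum_congr rfl fun z _ => ?_
    by_cases hz : P z = 0
    · rw [hz]; ring
    · have h8 : w₁ z * e z ≠ 0 := by
        by_contra h8
        have h9 := fm (fun z => if w₁ z * e z = 0 then 1 else 0) fun z z' hz => by
          beta_reduce
          rw [hw z z' hz, he.dep z z' hz]
        have h10 : ∑ z, mus side μ c z * (f z * (if w₁ z * e z = 0 then (1 : ℝ) else 0)) =
            0 := by
          refine Finset.sum_eq_zero fun z _ => ?_
          split_ifs with h11
          · by_contra h12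
            refine fs z (fun h13 => h12 ?_) h11
            rw [mul_one, h13]
          · ring
        rw [h10] at h9
        have h4 := (Finset.sum_eq_zero_iff_of_nonneg fun z' _ => mul_nonneg (hP.nonneg z')
          (by split_ifs <;> norm_num)).1 h9 z (mem_univ z)
        rw [if_pos h8, mul_one] at h4
        exact hz h4
      rw [Real.log_mul (left_ne_zero_of_mul h8) (right_ne_zero_of_mul h8)]
      ring
  rw [h7]
  exact add_nonneg h3 h2

end Vale.Agent.P050.SP
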