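import Vale.Agent.P050.R3.H257.Base

/-!
# P050, series-parallel graphs: expressions, the class of the theorem, kernels
-/

namespace Vale.Agent.P050.SP

open Finset Matrix Vale.Agent.P050.Ears

/-- Series-parallel expressions: a graph with two terminals, built from one edge by series
composition `ser a b` (the second terminal of `a` is glued to the first terminal of `b`),
parallel composition `par a b` (first terminals glued, second terminals glued) and hanging:
in `hang a b` (`hangR a b`) the first terminal of `b` is glued to the first (second) terminal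
of `a`, and the terminals are those of `a`. -/
inductive SP : Type
  | edge : SP
  | ser (a b : SP) : SP
  | par (a b : SP) : SP
  | hang (a b : SP) : SP
  | hangR (a b : SP) : SP

/-- the distance between the two terminals -/
def len : SP → ℕ
  | .edge => 1
  | .ser a b => len a + len b
  | .par a b => min (len a) (len b)
  | .hang a _ => len a
  | .hangR a _ => len a

/-- all cycles are even: the two parts of a parallel composition have lengths of one parity -/
def bip : SP → Prop
  | .edge => True
  | .ser a b => bip a ∧ bip b
  | .par a b => bip a ∧ bip b ∧ len a % 2 = len b % 2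
  | .hang a b => bip a ∧ bip b
  | .hangR a b => bip a ∧ bip b

/-- the two terminals are joined by an edge -/
def direct : SP → Prop
  | .edge => True
  | .ser _ _ => False
  | .par a b => direct a ∨ direct b
  | .hang a _ => direct a
  | .hangR a _ => direct a

/-- there are no double edges -/
def simple : SP → Prop
  | .edge => True
  | .ser a b => simple a ∧ simple b
  | .par a b => simple a ∧ simple b ∧ ¬ (direct a ∧ direct b)
  | .hang a b => simple a ∧ simple b
  | .hangR a b => simple a ∧ simple b

/-- Balanced expressions: parallel composition is allowed for two balanced expressions of the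
same length, and for a balanced expression of length one with a balanced expression of any odd
length. So, up to what is attached to edges and hung at vertices, all paths from the first to the
second terminal have the same length. -/
inductive Balanced : SP → Prop
  | edge : Balanced .edge
  | ser {a b : SP} : Balanced a → Balanced b → Balanced (.ser a b)
  | par {a b : SP} : Balanced a → Balanced b → len a = len b → Balanced (.par a b)
  | load {a b : SP} : Balanced a → Balanced b → len a = 1 → len b % 2 = 1 →
      Balanced (.par a b)
  | hang {a b : SP} : Balanced a → Balanced b → Balanced (.hang a b)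
  | hangR {a b : SP} : Balanced a → Balanced b → Balanced (.hangR a b)

/-- `Good e d`: the terminals of `e` may be put at distance `d` in a larger graph. -/
inductive Good : SP → ℕ → Prop
  | bal {e : SP} {d : ℕ} : Balanced e → d ≤ len e → d % 2 = len e % 2 → Good e d
  | par {a b : SP} {d : ℕ} : Good a d → Good b d → Good (.par a b) d
  | serR {a b : SP} {d : ℕ} : Good a (len a) → Balanced b → len a ≤ d + len b →
      d ≤ len a + len b → d % 2 = (len a + len b) % 2 → Good (.ser a b) d
  | serL {a b : SP} {d : ℕ} : Balanced a → Good b (len b) → len b ≤ d + len a →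
      d ≤ len a + len b → d % 2 = (len a + len b) % 2 → Good (.ser a b) d
  | chain {a b : SP} : Good a (len a) → Good b (len b) → Good (.ser a b) (len a + len b)
  | longR {a b : SP} {d : ℕ} : Good a (d + len b) → Good b (len b) → Good (.ser a b) d
  | longL {a b : SP} {d : ℕ} : Good a (len a) → Good b (d + len a) → Good (.ser a b) d
  | hang {a b : SP} {d : ℕ} : Good a d → Good b (len b) → Good (.hang a b) d
  | hangR {a b : SP} {d : ℕ} : Good a d → Good b (len b) → Good (.hangR a b) d

/-- The class of the theorem in its simplest form: of the two parts of a series composition at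
least one is balanced. -/
inductive Nice : SP → Prop
  | edge : Nice .edge
  | par {a b : SP} : Nice a → Nice b → len a % 2 = len b % 2 → Nice (.par a b)
  | serR {a b : SP} : Nice a → Balanced b → Nice (.ser a b)
  | serL {a b : SP} : Balanced a → Nice b → Nice (.ser a b)
  | hang {a b : SP} : Nice a → Nice b → Nice (.hang a b)
  | hangR {a b : SP} : Nice a → Nice b → Nice (.hangR a b)

/-- the kernel of an expression: the weighted number of maps with given images of the
terminals -/
noncomputable def K {S : Type*} [Fintype S] (A : Matrix S S ℝ) (μ : S → ℝ) : SP → S → S → ℝ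
  | .edge, x, y => A x y / μ y
  | .ser a b, x, y => ∑ w, μ w * K A μ a x w * K A μ b w y
  | .par a b, x, y => K A μ a x y * K A μ b x y
  | .hang a b, x, y => K A μ a x y * ∑ w, μ w * K A μ b x w
  | .hangR a b, x, y => K A μ a x y * ∑ w, μ w * K A μ b y w

theorem len_pos : ∀ e : SP, 1 ≤ len e
  | .edge => le_refl 1
  | .ser a b => by
    have := len_pos a
    simp only [len]
    omega
  | .par a b => by
    have h1 := len_pos a
    have h2 := len_pos b
    simp only [len]
    omega
  | .hang a _ => len_pos a
  | .hangR a _ => len_pos a

theorem Good.le {e : SP} {d : ℕ} (h : Good e d) : d ≤ len e ∧ d % 2 = len e % 2 := by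
  induction h with
  | bal _ h1 h2 => exact ⟨h1, h2⟩
  | par _ _ h1 h2 => simp only [len]; omega
  | serR _ _ _ h2 h3 _ => exact ⟨h2, h3⟩
  | serL _ _ _ h2 h3 _ => exact ⟨h2, h3⟩
  | chain _ _ _ _ => exact ⟨le_refl _, rfl⟩
  | longR _ _ h1 h2 => simp only [len]; omega
  | longL _ _ h1 h2 => simp only [len]; omega
  | hang _ _ h1 _ => exact h1
  | hangR _ _ h1 _ => exact h1

theorem Balanced.bip {e : SP} (h : Balanced e) : SP.bip e := by
  induction h with
  | edge => trivial
  | ser _ _ h1 h2 => exact ⟨h1, h2⟩
  | par _ _ h h1 h2 => exact ⟨h1, h2, by rw [h]⟩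
  | load _ _ h h' h1 h2 => exact ⟨h1, h2, by rw [h, h']⟩
  | hang _ _ h1 h2 => exact ⟨h1, h2⟩
  | hangR _ _ h1 h2 => exact ⟨h1, h2⟩

theorem Good.bip {e : SP} {d : ℕ} (h : Good e d) : SP.bip e := by
  induction h with
  | bal h _ _ => exact h.bip
  | par ha hb h1 h2 => exact ⟨h1, h2, by rw [← ha.le.2, ← hb.le.2]⟩
  | serR _ hb _ _ _ h1 => exact ⟨h1, hb.bip⟩
  | serL ha _ _ _ _ h1 => exact ⟨ha.bip, h1⟩
  | chain _ _ h1 h2 => exact ⟨h1, h2⟩
  | longR _ _ h1 h2 => exact ⟨h1, h2⟩
  | longL _ _ h1 h2 => exact ⟨h1, h2⟩
  | hang _ _ h1 h2 => exact ⟨h1, h2⟩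
  | hangR _ _ h1 h2 => exact ⟨h1, h2⟩

theorem Nice.good {e : SP} (h : Nice e) : ∀ d, d ≤ len e → d % 2 = len e % 2 → Good e d := by
  induction h with
  | edge => exact fun d h1 h2 => .bal .edge h1 h2
  | par _ _ h h1 h2 =>
    intro d hd hp
    simp only [len] at hd hp
    exact .par (h1 d (by omega) (by omega)) (h2 d (by omega) (by omega))
  | @serR a b _ hb h1 =>
    intro d hd hp
    simp only [len] at hd hp
    rcases Nat.le_total (len a) (d + len b) with h | h
    · exact .serR (h1 _ le_rfl rfl) hb h hd hp
    · exact .longR (h1 _ h (by omega)) (.bal hb le_rfl rfl)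
  | @serL a b ha _ h1 =>
    intro d hd hp
    simp only [len] at hd hp
    rcases Nat.le_total (len b) (d + len a) with h | h
    · exact .serL ha (h1 _ le_rfl rfl) h hd hp
    · exact .longL (.bal ha le_rfl rfl) (h1 _ h (by omega))
  | @hang a b _ _ h1 h2 => exact fun d hd hp => .hang (h1 d hd hp) (h2 _ le_rfl rfl)
  | @hangR a b _ _ h1 h2 => exact fun d hd hp => .hangR (h1 d hd hp) (h2 _ le_rfl rfl)

end Vale.Agent.P050.SP
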