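import Vale.Agent.P050.R4.H153.Frame
import Vale.Agent.P050.R4.H345.FrDer

/-!
# P050, frames: the edges of a frame are replaced by parts
-/

namespace Vale.Agent.P050.SP

open Finset Matrix Vale.Agent.P050.Ears Vale.Agent.P050.Lev

section law

variable {S : Type} [Fintype S] [DecidableEq S] {A : Matrix S S ℝ} {μ : S → ℝ} {c : S → Bool}
variable {V : Type} [Fintype V] [DecidableEq V] {H : SimpleGraph V} {side : V → Bool}
variable {P : (V → S) → ℝ}

/-- A law of the maps with nonnegative entropy balance, with respect to the weight `W`. -/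
structure LawW (W P : (V → S) → ℝ) : Prop where
  nonneg : ∀ z, 0 ≤ P z
  sum : ∑ z, P z = 1
  supp : ∀ z, 0 < P z → 0 < W z
  ent : 0 ≤ ∑ z, P z * (Real.log (W z) - Real.log (P z))

/-- A factor `ℓ` of the weight is replaced by a part `e`. -/
theorem LawW.rep (h : Rev A μ c) {W W₂ ℓ : (V → S) → ℝ} {e : SP} {a b : V}
    {W' : (V ⊕ Inn e → S) → ℝ} (hP : LawW W P) (hW : ∀ z, W z = ℓ z * W₂ z)
    (hℓ : ∀ z, 0 ≤ ℓ z)
    (hW' : ∀ z, W' z = W₂ (fun v => z (.inl v)) *
      inW A μ e (z (.inl a)) (z (.inl b)) (fun i => z (.inr i)))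
    (pK : ∀ z, 0 < P z → 0 < K A μ e (z a) (z b))
    (hK : ∑ z, P z * Real.log (ℓ z) ≤ ∑ z, P z * Real.log (K A μ e (z a) (z b))) :
    LawW W' (attP A μ e a b P) := by
  have pK' : ∀ z, P z ≠ 0 → K A μ e (z a) (z b) ≠ 0 := fun z hz =>
    (pK z (lt_of_le_of_ne (hP.nonneg z) hz.symm)).ne'
  have p2 : ∀ z, 0 < P z → 0 < ℓ z ∧ 0 < W₂ z := by
    intro z hz
    have h1 := hP.supp z hz
    rw [hW] at h1
    have h2 : 0 < ℓ z := by
      rcases (hℓ z).eq_or_lt with h0 | h0
      · rw [← h0, zero_mul] at h1; exact absurd h1 (lt_irrefl _)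
      · exact h0
    exact ⟨h2, (mul_pos_iff_of_pos_left h2).1 h1⟩
  refine ⟨fun z => ?_, ?_, fun z hz => ?_, ?_⟩
  · exact mul_nonneg (hP.nonneg _) (div_nonneg (inW_nonneg h _ _ _ _) (K_nonneg h e _ _))
  · have h1 := attP_marg (A := A) (μ := μ) (e := e) (a := a) (b := b) pK' (fun _ => 1)
    simp only [mul_one] at h1
    rw [h1, hP.sum]
  · obtain ⟨h1, h2, _⟩ := attP_pos h hP.nonneg hz
    rw [hW']
    exact mul_pos (p2 _ h1).2 h2
  · have h1 := attP_marg (A := A) (μ := μ) (e := e) (a := a) (b := b) pK' (fun z =>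
      Real.log (W z) - Real.log (P z) - Real.log (ℓ z) + Real.log (K A μ e (z a) (z b)))
    have h2 : ∑ z : V ⊕ Inn e → S, attP A μ e a b P z *
        (Real.log (W' z) - Real.log (attP A μ e a b P z)) =
        ∑ z : V ⊕ Inn e → S, attP A μ e a b P z *
          (Real.log (W (fun v => z (.inl v))) - Real.log (P (fun v => z (.inl v))) -
            Real.log (ℓ (fun v => z (.inl v))) +
            Real.log (K A μ e (z (.inl a)) (z (.inl b)))) := by
      refine Finset.sum_congr rfl fun z _ => ?_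
      have hn : 0 ≤ attP A μ e a b P z :=
        mul_nonneg (hP.nonneg _) (div_nonneg (inW_nonneg h _ _ _ _) (K_nonneg h e _ _))
      rcases hn.eq_or_lt with h0 | h0
      · rw [← h0, zero_mul, zero_mul]
      · obtain ⟨q1, q2, q3⟩ := attP_pos h hP.nonneg h0
        congr 1
        rw [hW', hW, Real.log_mul (p2 _ q1).2.ne' q2.ne',
          Real.log_mul (p2 _ q1).1.ne' (p2 _ q1).2.ne']
        unfold attP
        rw [Real.log_mul q1.ne' (div_pos q2 q3).ne', Real.log_div q2.ne' q3.ne']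
        ring
    rw [h2, h1]
    have h3 : ∑ z, P z * (Real.log (W z) - Real.log (P z) - Real.log (ℓ z) +
        Real.log (K A μ e (z a) (z b))) =
        ∑ z, P z * (Real.log (W z) - Real.log (P z)) - ∑ z, P z * Real.log (ℓ z) +
          ∑ z, P z * Real.log (K A μ e (z a) (z b)) := by
      rw [← Finset.sum_sub_distrib, ← Finset.sum_add_distrib]
      exact Finset.sum_congr rfl fun z _ => by ring
    rw [h3]
    have := hP.ent
    linarith

/-- the weight of a graph and the edges which are still to be replaced -/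
noncomputable def wv (H : SimpleGraph V) (L : Multiset (V × ℕ × V)) (side : V → Bool)
    (A : Matrix S S ℝ) (μ : S → ℝ) (c : S → Bool) (z : V → S) : ℝ :=
  wt H side A μ c z * kapE A μ L z

theorem wt_bot (z : V → S) : wt (⊥ : SimpleGraph V) side A μ c z = mus side μ c z := by
  classical
  unfold wt mus
  have h1 : sideEdges (⊥ : SimpleGraph V) side = ∅ := by
    ext p
    simp [sideEdges]
  rw [h1, Finset.prod_empty, mul_one]
  by_cases h2 : ∀ v, c (z v) = side v
  · rw [if_pos h2]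
    exact Finset.prod_congr rfl fun v _ => by rw [if_pos (h2 v)]
  · rw [if_neg h2]
    push Not at h2
    obtain ⟨v, hv⟩ := h2
    exact (Finset.prod_eq_zero (mem_univ v) (if_neg hv)).symm

theorem LawF.toW {L : Multiset (V × ℕ × V)} (hP : LawF L side A μ c P) :
    LawW (wv (⊥ : SimpleGraph V) L side A μ c) P := by
  have h1 : ∀ z, wv (⊥ : SimpleGraph V) L side A μ c z = mus side μ c z * kapE A μ L z :=
    fun z => by unfold wv; rw [wt_bot]
  exact ⟨hP.nonneg, hP.sum, fun z hz => by rw [h1]; exact hP.supp z hz, by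
    simp only [h1]; exact hP.ent⟩

theorem LawW.toLawOn (hP : LawW (wv H 0 side A μ c) P) : LawOn H side A μ c P := by
  have h1 : ∀ z, wv H 0 side A μ c z = wt H side A μ c z := fun z => by
    unfold wv; rw [kapE_zero, mul_one]
  exact ⟨hP.nonneg, hP.sum, fun z hz => by rw [← h1]; exact hP.supp z hz, by
    simp only [← h1]; exact hP.ent⟩

end law

/-- the inductive statement -/
structure VOK {V : Type} (H : SimpleGraph V) (L : Multiset (V × ℕ × V))
    (D : V → V → ℕ → Prop) (iF : Fintype V) (iD : DecidableEq V) (side : V → Bool) : Prop where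
  proper : ∀ u v, H.Adj u v → side u ≠ side v
  dist : ∀ u v n, u ≠ v → D u v n → side v = sh (side u) n
  full : ∀ u v : V, u ≠ v → (∃ w, H.Adj u w) ∨ ∃ p ∈ L, p.1 = u ∨ p.2.2 = u
  law : ∀ (S : Type) [Fintype S] [DecidableEq S] (A : Matrix S S ℝ) (μ : S → ℝ) (c : S → Bool),
    Rev A μ c → ∃ P : (V → S) → ℝ, LawW (wv H L side A μ c) P ∧
      ∀ u v n, u ≠ v → D u v n → MargD A μ c P u v n (side u)

/-- every vertex of a frame with at least two vertices is an end of an edge -/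
def HasE {V : Type} (L : Multiset (V × ℕ × V)) (u : V) : Prop := ∃ p ∈ L, p.1 = u ∨ p.2.2 = u

theorem HasE.map {V W : Type} {L : Multiset (V × ℕ × V)} {u : V} (f : V → W) (h : HasE L u) :
    HasE (L.map (emap f)) (f u) := by
  obtain ⟨p, hp, h1⟩ := h
  refine ⟨emap f p, Multiset.mem_map_of_mem _ hp, ?_⟩
  rcases h1 with h1 | h1
  · exact Or.inl (by rw [← h1]; rfl)
  · exact Or.inr (by rw [← h1]; rfl)

theorem HasE.cons {V : Type} {L : Multiset (V × ℕ × V)} {u : V} {q : V × ℕ × V}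
    (h : HasE L u) : HasE (q ::ₘ L) u := by
  obtain ⟨p, hp, h1⟩ := h
  exact ⟨p, Multiset.mem_cons_of_mem hp, h1⟩

theorem HasE.addL {V : Type} {L L' : Multiset (V × ℕ × V)} {u : V}
    (h : HasE L u) : HasE (L + L') u := by
  obtain ⟨p, hp, h1⟩ := h
  exact ⟨p, Multiset.mem_add.2 (Or.inl hp), h1⟩

/-- the ends of the edges of `E` -/
theorem TDer.ends {V : Type} {r r' : Set V × Multiset (V × ℕ × V)} (t : TDer r r') :
    ∀ p ∈ r'.2, (∃ q ∈ r.2, q.1 = p.1 ∨ q.2.2 = p.1) ∧ ∃ q ∈ r.2, q.1 = p.2.2 ∨ q.2.2 = p.2.2 := by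
  induction t with
  | refl r => exact fun p hp => ⟨⟨p, hp, Or.inl rfl⟩, ⟨p, hp, Or.inr rfl⟩⟩
  | trans _ _ h1 h2 =>
    intro p hp
    obtain ⟨⟨q, hq, a1⟩, ⟨q', hq', a2⟩⟩ := h2 p hp
    constructor
    · rcases a1 with a1 | a1
      · rw [← a1]; exact (h1 q hq).1
      · rw [← a1]; exact (h1 q hq).2
    · rcases a2 with a2 | a2
      · rw [← a2]; exact (h1 q' hq').1
      · rw [← a2]; exact (h1 q' hq').2
  | @flip U u v d E =>
    intro p hp
    rcases Multiset.mem_cons.1 hp with rfl | hp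
    · exact ⟨⟨_, Multiset.mem_cons_self _ _, Or.inr rfl⟩, ⟨_, Multiset.mem_cons_self _ _, Or.inl rfl⟩⟩
    · exact ⟨⟨p, Multiset.mem_cons_of_mem hp, Or.inl rfl⟩, ⟨p, Multiset.mem_cons_of_mem hp, Or.inr rfl⟩⟩
  | prune _ _ =>
    intro p hp
    exact ⟨⟨p, Multiset.mem_cons_of_mem hp, Or.inl rfl⟩, ⟨p, Multiset.mem_cons_of_mem hp, Or.inr rfl⟩⟩
  | @smooth U u v w d d' E _ _ _ =>
    intro p hp
    rcases Multiset.mem_cons.1 hp with rfl | hp
    · exact ⟨⟨_, Multiset.mem_cons_self _ _, Or.inl rfl⟩,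
        ⟨_, Multiset.mem_cons_of_mem (Multiset.mem_cons_self _ _), Or.inr rfl⟩⟩
    · exact ⟨⟨p, Multiset.mem_cons_of_mem (Multiset.mem_cons_of_mem hp), Or.inl rfl⟩,
        ⟨p, Multiset.mem_cons_of_mem (Multiset.mem_cons_of_mem hp), Or.inr rfl⟩⟩

theorem Frame.hasE {V : Type} {L : Multiset (V × ℕ × V)}
    {R : Set (Set V × Multiset (V × ℕ × V))} (h : Frame L R) :
    (∀ u v : V, u ≠ v → HasE L u) ∧ ∀ r ∈ R, ∀ p ∈ r.2, HasE L p.1 ∧ HasE L p.2.2 := by
  induction h with
  | point =>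
    refine ⟨fun u v huv => absurd (Subsingleton.elim u v) huv, fun r hr p hp => ?_⟩
    obtain rfl : r = (Set.univ, 0) := hr
    exact absurd hp (Multiset.notMem_zero p)
  | @weak V L R R' _ hR ih =>
    refine ⟨ih.1, fun r' hr' p hp => ?_⟩
    obtain ⟨r, hr, t⟩ := hR r' hr'
    obtain ⟨⟨q, hq, a1⟩, ⟨q', hq', a2⟩⟩ := t.ends p hp
    constructor
    · rcases a1 with a1 | a1
      · rw [← a1]; exact (ih.2 r hr q hq).1
      · rw [← a1]; exact (ih.2 r hr q hq).2
    · rcases a2 with a2 | a2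
      · rw [← a2]; exact (ih.2 r hr q' hq').1
      · rw [← a2]; exact (ih.2 r hr q' hq').2
  | @pen V L R U E a d _ _ _ _ ih =>
    have hnew : HasE ((.inl a, d, .inr ()) ::ₘ L.map (emap (.inl : V → V ⊕ Unit))) (.inr ()) :=
      ⟨_, Multiset.mem_cons_self _ _, Or.inr rfl⟩
    have ha : HasE ((.inl a, d, .inr ()) ::ₘ L.map (emap (.inl : V → V ⊕ Unit))) (.inl a) :=
      ⟨_, Multiset.mem_cons_self _ _, Or.inl rfl⟩
    constructor
    · rintro (u | ⟨⟩) v _
      · by_cases hu : u = a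
        · rw [hu]; exact ha
        · exact ((ih.1 u a hu).map _).cons
      · exact hnew
    · rintro r (⟨r₀, h0, rfl⟩ | ⟨U', E', h0, _, rfl⟩) p hp
      · obtain ⟨q, hq, rfl⟩ := Multiset.mem_map.1 hp
        exact ⟨((ih.2 r₀ h0 q hq).1.map _).cons, ((ih.2 r₀ h0 q hq).2.map _).cons⟩
      · rcases Multiset.mem_cons.1 hp with rfl | hp
        · exact ⟨ha, hnew⟩
        · obtain ⟨q, hq, rfl⟩ := Multiset.mem_map.1 hp
          exact ⟨((ih.2 _ h0 q hq).1.map _).cons, ((ih.2 _ h0 q hq).2.map _).cons⟩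
  | @clone V N L R U E g ρ _ hUE _ hg hρ hρ' ih =>
    have hclo : ∀ n, HasE (L.map (emap .inl) + E.map (emap ρ)) (.inr n : V ⊕ N) := by
      intro n
      obtain ⟨p, hp, h1⟩ := hg n
      refine ⟨emap ρ p, Multiset.mem_add.2 (Or.inr (Multiset.mem_map_of_mem _ hp)), ?_⟩
      rcases h1 with h1 | h1
      · exact Or.inl (by change ρ p.1 = _; rw [h1, hρ])
      · exact Or.inr (by change ρ p.2.2 = _; rw [h1, hρ])
    have hgn : ∀ n, HasE L (g n) := by
      intro n
      obtain ⟨p, hp, h1⟩ := hg n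
      rcases h1 with h1 | h1
      · rw [← h1]; exact (ih.2 _ hUE p hp).1
      · rw [← h1]; exact (ih.2 _ hUE p hp).2
    constructor
    · rintro (u | n) v huv
      · by_cases hu : ∃ n, g n = u
        · obtain ⟨n, rfl⟩ := hu
          exact ((hgn n).map _).addL
        · push Not at hu
          rcases v with v | n
          · exact ((ih.1 u v fun h0 => huv (by rw [h0])).map _).addL
          · exact ((ih.1 u (g n) (hu n).symm).map _).addL
      · exact hclo n
    · rintro r (⟨r₀, h0, rfl⟩ | ⟨U', E', h0, _, hE', rfl⟩) p hp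
      · obtain ⟨q, hq, rfl⟩ := Multiset.mem_map.1 hp
        exact ⟨((ih.2 r₀ h0 q hq).1.map _).addL, ((ih.2 r₀ h0 q hq).2.map _).addL⟩
      · obtain ⟨q, hq, rfl⟩ := Multiset.mem_map.1 hp
        have key : ∀ u, HasE L u → HasE (L.map (emap .inl) + E.map (emap ρ)) (ρ u) := by
          intro u hu
          by_cases hu' : ∃ n, g n = u
          · obtain ⟨n, rfl⟩ := hu'
            rw [hρ]; exact hclo n
          · push Not at hu'
            rw [hρ' u hu']; exact (hu.map _).addL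
        exact ⟨key _ (ih.2 _ h0 q hq).1, key _ (ih.2 _ h0 q hq).2⟩
  | @sub V L R u w d d' _ _ _ ih =>
    have hm : HasE ((.inl u, d, .inr ()) ::ₘ (.inr (), d', .inl w) ::ₘ
        L.map (emap (.inl : V → V ⊕ Unit))) (.inr ()) :=
      ⟨_, Multiset.mem_cons_self _ _, Or.inr rfl⟩
    have key : ∀ x, HasE ((u, d + d', w) ::ₘ L) x →
        HasE ((.inl u, d, .inr ()) ::ₘ (.inr (), d', .inl w) ::ₘ
          L.map (emap (.inl : V → V ⊕ Unit))) (.inl x) := by
      rintro x ⟨p, hp, h1⟩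
      rcases Multiset.mem_cons.1 hp with rfl | hp
      · rcases h1 with h1 | h1
        · exact ⟨_, Multiset.mem_cons_self _ _, Or.inl (by change Sum.inl u = _; rw [← h1])⟩
        · exact ⟨_, Multiset.mem_cons_of_mem (Multiset.mem_cons_self _ _),
            Or.inr (by change Sum.inl w = _; rw [← h1])⟩
      · exact ((HasE.map Sum.inl ⟨p, hp, h1⟩).cons).cons
    constructor
    · rintro (x | ⟨⟩) v hxv
      · rcases v with v | ⟨⟩
        · exact key x (ih.1 x v fun h0 => hxv (by rw [h0]))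
        · by_cases hx : x = u
          · rw [hx]; exact ⟨_, Multiset.mem_cons_self _ _, Or.inl rfl⟩
          · exact key x (ih.1 x u hx)
      · exact hm
    · rintro r (⟨r₀, h0, rfl⟩ | ⟨U', E', h0, _, _, rfl⟩) p hp
      · obtain ⟨q, hq, rfl⟩ := Multiset.mem_map.1 hp
        exact ⟨key _ (ih.2 r₀ h0 q hq).1, key _ (ih.2 r₀ h0 q hq).2⟩
      · rcases Multiset.mem_cons.1 hp with rfl | hp
        · exact ⟨⟨_, Multiset.mem_cons_self _ _, Or.inl rfl⟩, hm⟩
        · rcases Multiset.mem_cons.1 hp with rfl | hp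
          · exact ⟨hm, ⟨_, Multiset.mem_cons_of_mem (Multiset.mem_cons_self _ _), Or.inr rfl⟩⟩
          · obtain ⟨q, hq, rfl⟩ := Multiset.mem_map.1 hp
            exact ⟨key _ (ih.2 _ h0 q (Multiset.mem_cons_of_mem hq)).1,
              key _ (ih.2 _ h0 q (Multiset.mem_cons_of_mem hq)).2⟩

end Vale.Agent.P050.SP
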