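import Vale.Agent.P050.R4.H859.CopyStep

/-!
# P050, frames: the law of two frames glued together
-/

namespace Vale.Agent.P050.SP

open Finset Matrix Vale.Agent.P050.Ears Vale.Agent.P050.Lev

variable {S : Type} [Fintype S] [DecidableEq S] {A : Matrix S S ℝ} {μ : S → ℝ} {c : S → Bool}
variable {V : Type} [Fintype V] [DecidableEq V] {side : V → Bool} {P : (V → S) → ℝ}
variable {V' : Type} [Fintype V'] [DecidableEq V'] {side' : V' → Bool} {P' : (V' → S) → ℝ}
variable {N : Type} [Fintype N] [DecidableEq N]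
variable {g : N → V'} {τ : V' → V} {ρ : V' → V ⊕ N}

/-- **Gluing.** The law `P'` on the vertices `V'` is glued to the law `P` on the vertices `V`; the
vertices `g n` are new, the other ones are identified by `τ`, and their laws agree. -/
theorem LawW.glue (h : Rev A μ c) (hg : ∀ n, ρ (g n) = .inr n)
    (hρ : ∀ v, (∀ n, g n ≠ v) → ρ v = .inl (τ v)) {W : (V → S) → ℝ} {w₁ e : (V' → S) → ℝ}
    (hP : LawW W side μ c P) (hP' : LawW (fun x => w₁ x * e x) side' μ c P')
    (hK : ∀ G : (V' → S) → ℝ, DepK g Set.univ G →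
      ∑ z, P z * G (fun v => z (τ v)) = ∑ x, P' x * G x)
    (w0 : ∀ x, 0 ≤ w₁ x) (e0 : ∀ x, 0 ≤ e x) (he : DepK g Set.univ e)
    (hm : ∑ x, mus side' μ c x * e x ≤ 1) :
    ∃ Q : (V ⊕ N → S) → ℝ,
      LawW (fun z => W (fun v => z (.inl v)) * w₁ (fun v => z (ρ v)))
        (Sum.elim side fun n => side' (g n)) μ c Q ∧
      (∀ G : (V → S) → ℝ, ∑ z, Q z * G (fun v => z (.inl v)) = ∑ z, P z * G z) ∧
      ∀ G : (V' → S) → ℝ, ∑ z, Q z * G (fun v => z (ρ v)) = ∑ x, P' x * G x := by
  classical
  have hi : Function.Injective g := fun n m hnm => by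
    have h1 : (.inr n : V ⊕ N) = .inr m := by rw [← hg n, ← hg m, hnm]
    exact Sum.inr.inj h1
  -- the standard renaming
  let ρ₀ : V' → V' ⊕ N := fun v => if hv : ∃ n, g n = v then .inr hv.choose else .inl v
  have hg₀ : ∀ n, ρ₀ (g n) = .inr n := by
    intro n
    have hv : ∃ m, g m = g n := ⟨n, rfl⟩
    change (if hv : ∃ m, g m = g n then (Sum.inr hv.choose : V' ⊕ N) else .inl (g n)) = _
    rw [dif_pos hv, hi hv.choose_spec]
  have hρ₀ : ∀ v, (∀ n, g n ≠ v) → ρ₀ v = .inl v := by
    intro v hv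
    exact dif_neg fun ⟨n, hn⟩ => hv n hn
  have ext : ∀ (z : V → S) (y : N → S), (fun v => Sum.elim z y (ρ v)) =
      Function.extend g y (fun v => z (τ v)) := by
    intro z y
    funext v
    by_cases hv : ∃ n, g n = v
    · obtain ⟨n, rfl⟩ := hv
      rw [hg, hi.extend_apply]; rfl
    · rw [Function.extend_apply' _ _ _ hv]
      push Not at hv
      rw [hρ v hv]; rfl
  obtain ⟨f, f0, fd, fm, fs, fb⟩ := BalW.univ h hP'
  have fd' : Dep Set.univ f := fd
  let Zf : (V' → S) → ℝ := zwG μ c (fun n => side' (g n)) fun z => f fun v => z (ρ₀ v)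
  have hZf : ∀ z : V → S, zwG μ c (fun n => side' (g n)) (fun w => f fun v => w (ρ v)) z =
      Zf fun v => z (τ v) := by
    intro z
    change _ = zwG μ c (fun n => side' (g n)) (fun z => f fun v => z (ρ₀ v)) _
    rw [zwG_rho hg₀ hρ₀]
    unfold zwG
    refine Finset.sum_congr rfl fun y _ => ?_
    beta_reduce
    rw [ext]
  have dZf : DepK g Set.univ Zf := zwG_rho_dep hg₀ hρ₀ fd'
  have nZf : ∀ x, P' x ≠ 0 → Zf x ≠ 0 := zwG_rho_ne h hg₀ hρ₀ hP'.nonneg fd' fm
  -- facts which hold almost surely for `P'` hold for `P`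
  have as : ∀ p : (V' → S) → Prop, (∀ x x' : V' → S, (∀ v, (∀ n, g n ≠ v) → x v = x' v) →
      (p x ↔ p x')) → (∀ x, P' x ≠ 0 → p x) → ∀ z, P z ≠ 0 → p fun v => z (τ v) := by
    intro p hp hP1 z hz
    by_contra hcon
    have h1 := hK (fun x => if p x then 0 else 1) fun x x' hx => by
      beta_reduce
      have := hp x x' fun v hv => hx v (Set.mem_univ v) hv
      by_cases h2 : p x
      · rw [if_pos h2, if_pos (this.1 h2)]
      · rw [if_neg h2, if_neg fun h3 => h2 (this.2 h3)]
    have h2 : ∑ x, P' x * (if p x then (0 : ℝ) else 1) = 0 := by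
      refine Finset.sum_eq_zero fun x _ => ?_
      by_cases h3 : P' x = 0
      · rw [h3, zero_mul]
      · rw [if_pos (hP1 x h3), mul_zero]
    rw [h2] at h1
    have h4 := (Finset.sum_eq_zero_iff_of_nonneg fun z' _ => mul_nonneg (hP.nonneg z')
      (by split_ifs <;> norm_num)).1 h1 z (mem_univ z)
    rw [if_neg hcon, mul_one] at h4
    exact hz h4
  have hZ : ∀ z, P z ≠ 0 →
      zwG μ c (fun n => side' (g n)) (fun w => f fun v => w (ρ v)) z ≠ 0 := by
    intro z hz
    rw [hZf]
    exact as (fun x => Zf x ≠ 0) (fun x x' hx => by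
      rw [dZf x x' fun v _ hv => hx v hv]) nZf z hz
  have musP' : ∀ x, P' x ≠ 0 → ∀ v, c (x v) = side' v := by
    intro x hx v
    refine mus_side (μ := μ) (fun h0 => ?_) v
    have h1 := hP'.supp x (lt_of_le_of_ne (hP'.nonneg x) hx.symm)
    rw [h0, zero_mul] at h1
    exact lt_irrefl _ h1
  have sideP : ∀ z, P z ≠ 0 → ∀ v, (∀ n, g n ≠ v) → c (z (τ v)) = side' v := by
    intro z hz v hv
    exact as (fun x => c (x v) = side' v) (fun x x' hx => by rw [hx v hv])
      (fun x hx => musP' x hx v) z hz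
  -- the law of the second frame
  have hQ2 : ∀ G : (V' → S) → ℝ,
      ∑ z, extG μ c (fun n => side' (g n)) (fun w => f fun v => w (ρ v)) P z *
        G (fun v => z (ρ v)) = ∑ x, P' x * G x := by
    intro G
    have h1 := marg_copy (G := G) h hg₀ hρ₀ f0 fd' fm fun x x' hx => by
      rw [funext fun v => hx v (Set.mem_univ v)]
    rw [extG_sum'] at h1
    rw [extG_sum', ← h1]
    have hd : DepK g Set.univ fun x => ∑ y, mus (fun n => side' (g n)) μ c y *
        (f fun v => Sum.elim x y (ρ₀ v)) / Zf x * G (fun v => Sum.elim x y (ρ₀ v)) := by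
      intro x x' hx
      refine Finset.sum_congr rfl fun y _ => ?_
      rw [dZf x x' hx]
      simp only [clone_extend hg₀ hρ₀]
      have h2 : Function.extend g y x = Function.extend g y x' := by
        funext v
        by_cases hn : ∃ n, g n = v
        · obtain ⟨n, rfl⟩ := hn
          rw [hi.extend_apply, hi.extend_apply]
        · push Not at hn
          rw [ext_off x y hn, ext_off x' y hn]
          exact hx v (Set.mem_univ v) hn
      rw [h2]
    rw [← hK _ hd]
    refine Finset.sum_congr rfl fun z _ => ?_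
    congr 1
    refine Finset.sum_congr rfl fun y _ => ?_
    rw [hZf]
    simp only [clone_extend hg₀ hρ₀, ext]
  -- the support
  have spt : ∀ z : V ⊕ N → S,
      0 < extG μ c (fun n => side' (g n)) (fun w => f fun v => w (ρ v)) P z →
      w₁ (fun v => z (ρ v)) * e (fun v => z (ρ v)) ≠ 0 := by
    intro z hz
    obtain ⟨p1, p2, p3, _⟩ := extG_pos h (fun z => f0 _) hP.nonneg hz
    refine fs _ (mul_ne_zero ?_ p3)
    intro h0
    unfold mus at h0
    obtain ⟨v, _, hv⟩ := Finset.prod_eq_zero_iff.1 h0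
    beta_reduce at hv
    by_cases hn : ∃ n, g n = v
    · obtain ⟨n, rfl⟩ := hn
      rw [hg] at hv
      exact p2 (Finset.prod_eq_zero (mem_univ n) hv)
    · push Not at hn
      rw [hρ v hn, if_pos (sideP _ p1.ne' v hn)] at hv
      exact (h.pos _).ne' hv
  refine ⟨extG μ c (fun n => side' (g n)) (fun w => f fun v => w (ρ v)) P,
    hP.extD h (fun z => f0 _) (fun z => w0 _) hZ
      (fun z hz => left_ne_zero_of_mul (spt z hz)) ?_, fun G => extG_sum hZ G, hQ2⟩
  -- the entropy balance
  rw [hQ2 fun x => Real.log (w₁ x) - Real.log (f x)]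
  have e1 : ∑ z, P z * Real.log (zwG μ c (fun n => side' (g n))
      (fun w => f fun v => w (ρ v)) z) = ∑ x, P' x * Real.log (Zf x) := by
    rw [← hK (fun x => Real.log (Zf x)) fun x x' hx => by
      beta_reduce
      rw [dZf x x' hx]]
    exact Finset.sum_congr rfl fun z _ => by rw [hZf]
  rw [e1]
  have h2 : 0 ≤ ∑ x, P' x * (Real.log (w₁ x * e x) - Real.log (f x)) := by
    rw [fm _ fun x x' hx => by rw [funext fun v => hx v (Set.mem_univ v)]]
    exact fb
  have h3 : 0 ≤ ∑ x, P' x * (Real.log (Zf x) - Real.log (e x)) := by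
    have hd : DepK g Set.univ fun x => Real.log (Zf x) - Real.log (e x) := fun x x' hx => by
      beta_reduce
      rw [dZf x x' hx, he x x' hx]
    rw [margK h hg₀ hρ₀ fm hd]
    have h4 := margK h hg₀ hρ₀ fm (G := fun _ => 1) fun _ _ _ => rfl
    simp only [mul_one, hP'.sum] at h4
    have h5 : 0 ≤ ∑ x, mus side' μ c x * (Zf x - e x) := by
      simp only [mul_sub, Finset.sum_sub_distrib]
      change 0 ≤ ∑ x, mus side' μ c x *
        zwG μ c (fun n => side' (g n)) (fun z => f fun v => z (ρ₀ v)) x - _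
      rw [← h4]
      linarith
    refine h5.trans (Finset.sum_le_sum fun x _ => ?_)
    by_cases hz : mus side' μ c x = 0
    · rw [hz, zero_mul, zero_mul]
    · refine mul_le_mul_of_nonneg_left (sub_le_mul_log_sub
        (zwG_nonneg h (fun z => f0 _) x) (e0 x) fun hZ0 => ?_) (mus_nonneg h _ _)
      change zwG μ c (fun n => side' (g n)) (fun z => f fun v => z (ρ₀ v)) x ≠ 0 at hZ0
      rw [zwG_rho hg₀ hρ₀] at hZ0
      obtain ⟨y, _, hy⟩ := Finset.exists_ne_zero_of_sum_ne_zero hZ0
      have h6 : e (Function.extend g y x) = e x := he _ _ fun v _ hn => ext_off x y hn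
      rw [← h6]
      refine right_ne_zero_of_mul (fs _ (mul_ne_zero ?_ (right_ne_zero_of_mul hy)))
      have q2 := left_ne_zero_of_mul hy
      intro h0
      unfold mus at h0
      obtain ⟨v, _, hv⟩ := Finset.prod_eq_zero_iff.1 h0
      by_cases hn : ∃ n, g n = v
      · obtain ⟨n, rfl⟩ := hn
        rw [hi.extend_apply] at hv
        exact q2 (Finset.prod_eq_zero (mem_univ n) hv)
      · push Not at hn
        rw [ext_off x y hn] at hv
        exact hz (Finset.prod_eq_zero (mem_univ v) hv)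
  have h7 : ∑ x, P' x * Real.log (Zf x) + ∑ x, P' x * (Real.log (w₁ x) - Real.log (f x)) =
      ∑ x, P' x * (Real.log (Zf x) - Real.log (e x)) +
      ∑ x, P' x * (Real.log (w₁ x * e x) - Real.log (f x)) := by
    rw [← Finset.sum_add_distrib, ← Finset.sum_add_distrib]
    refine Finset.sum_congr rfl fun x _ => ?_
    by_cases hz : P' x = 0
    · rw [hz]; ring
    · have h8 : w₁ x * e x ≠ 0 := right_ne_zero_of_mul
        (hP'.supp x (lt_of_le_of_ne (hP'.nonneg x) (Ne.symm hz))).ne'
      rw [Real.log_mul (left_ne_zero_of_mul h8) (right_ne_zero_of_mul h8)]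
      ring
  rw [h7]
  exact add_nonneg h3 h2

end Vale.Agent.P050.SP
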