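import Vale.Agent.P050.R4.H859.Bal

/-!
# P050, series-parallel graphs: kernels which may be put at a given distance
-/

namespace Vale.Agent.P050.SP

open Finset Matrix Vale.Agent.P050.Ears

variable {S : Type*} [Fintype S] [DecidableEq S]
variable {A : Matrix S S ℝ} {μ : S → ℝ} {c : S → Bool} (h : Rev A μ c)

theorem sh_add (b : Bool) (d e : ℕ) : sh (sh b d) e = sh b (d + e) := by
  unfold sh
  rcases Nat.mod_two_eq_zero_or_one d with h1 | h1 <;>
    rcases Nat.mod_two_eq_zero_or_one e with h2 | h2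
  · have h3 : (d + e) % 2 = 0 := by omega
    simp [h1, h2, h3]
  · have h3 : (d + e) % 2 = 1 := by omega
    simp [h1, h2, h3]
  · have h3 : (d + e) % 2 = 1 := by omega
    simp [h1, h2, h3]
  · have h3 : (d + e) % 2 = 0 := by omega
    simp [h1, h2, h3]

theorem sh_sh (b : Bool) (d : ℕ) : sh (sh b d) d = b := by
  unfold sh
  cases b <;> cases decide (d % 2 = 1) <;> rfl

include h

theorem PosK.swap {l : ℕ} {F : S → S → ℝ} (hp : PosK A l F) : PosK A l (fun x y => F y x) := by
  intro x y hxy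
  refine hp y x ?_
  have h1 := h.pow_rev l x y
  have h2 : 0 < μ y * (A ^ l) y x := by
    rw [← h1]; exact mul_pos (h.pos x) hxy
  exact (mul_pos_iff_of_pos_left (h.pos y)).1 h2

theorem PosK.mono {l d : ℕ} {F : S → S → ℝ} (hp : PosK A l F) (hd : d ≤ l)
    (hm : d % 2 = l % 2) : PosK A d F := by
  intro x y hxy
  obtain ⟨k, rfl⟩ : ∃ k, l = d + 2 * k := ⟨(l - d) / 2, by omega⟩
  exact hp x y (h.pow_pos_add d k hxy)

theorem pd_nonneg (d : ℕ) (b : Bool) (x y : S) : 0 ≤ pd A μ c d b x y := by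
  unfold pd
  split_ifs
  · exact mul_nonneg (h.pos x).le (h.pow_nonneg d x y)
  · exact le_rfl

theorem pd_pos {d : ℕ} {b : Bool} {x y : S} (hp : 0 < pd A μ c d b x y) :
    c x = b ∧ 0 < (A ^ d) x y := by
  unfold pd at hp
  split_ifs at hp with hx
  · exact ⟨hx, (mul_pos_iff_of_pos_left (h.pos x)).1 hp⟩
  · exact absurd hp (lt_irrefl _)

theorem pd_swap (d : ℕ) (b : Bool) (x y : S) :
    pd A μ c d b x y = pd A μ c d (sh b d) y x := by
  unfold pd
  by_cases h0 : (A ^ d) x y = 0
  · have h1 : (A ^ d) y x = 0 := by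
      have h2 := h.pow_rev d x y
      rw [h0, mul_zero] at h2
      exact (mul_eq_zero.1 h2.symm).resolve_left (h.pos y).ne'
    rw [h0, h1, mul_zero, mul_zero, ite_self, ite_self]
  · have h1 : c y = sh (c x) d := by
      by_contra hne
      exact h0 (h.pow_alt d x y hne)
    rw [h1, h.pow_rev d x y]
    by_cases hx : c x = b
    · rw [if_pos hx, if_pos (by rw [hx])]
    · rw [if_neg hx, if_neg]
      intro h2
      apply hx
      have h3 := congrArg (fun t => sh t d) h2
      simpa only [sh_sh] using h3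

theorem pd_left (d : ℕ) (b : Bool) (x : S) :
    ∑ y, pd A μ c d b x y = if c x = b then μ x else 0 := by
  unfold pd
  by_cases hx : c x = b
  · simp only [if_pos hx, ← Finset.mul_sum, h.pow_row, mul_one]
  · simp only [if_neg hx, Finset.sum_const_zero]

theorem pd_right (d : ℕ) (b : Bool) (y : S) :
    ∑ x, pd A μ c d b x y = if c y = sh b d then μ y else 0 := by
  simp only [pd_swap h d b _ y]
  exact pd_left h d (sh b d) y

/-- `pd` and one more walk -/
theorem pd_step (d e : ℕ) (b : Bool) (x z : S) :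
    ∑ y, pd A μ c d b x y * (A ^ e) y z = pd A μ c (d + e) b x z := by
  unfold pd
  by_cases hx : c x = b
  · simp only [if_pos hx]
    rw [pow_add, Matrix.mul_apply, Finset.mul_sum]
    exact Finset.sum_congr rfl fun y _ => by ring
  · simp only [if_neg hx, zero_mul, Finset.sum_const_zero]

theorem EL_pd (d : ℕ) (b : Bool) (F : S → S → ℝ) :
    EL (pd A μ c d b) F =
      ∑ x, if c x = b then μ x * ∑ y, (A ^ d) x y * Real.log (F x y) else 0 := by
  unfold EL pd
  refine Finset.sum_congr rfl fun x _ => ?_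
  by_cases hx : c x = b
  · simp only [if_pos hx]
    rw [Finset.mul_sum]
    exact Finset.sum_congr rfl fun y _ => by ring
  · simp only [if_neg hx, zero_mul, Finset.sum_const_zero]

theorem EL_pd_swap (d : ℕ) (b : Bool) (F : S → S → ℝ) :
    EL (pd A μ c d b) (fun x y => F y x) = EL (pd A μ c d (sh b d)) F := by
  rw [← EL_swap (pd A μ c d (sh b d)) F]
  unfold EL
  refine Finset.sum_congr rfl fun x _ => Finset.sum_congr rfl fun y _ => ?_
  rw [pd_swap h d b x y]

theorem Dd_eq (l : ℕ) (x : S) :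
    Dd A μ l x = ∑ y, (A ^ l) x y * Real.log (kap A μ l x y) := by
  unfold Dd kap
  refine Finset.sum_congr rfl fun y _ => ?_
  by_cases h0 : (A ^ l) x y = 0
  · rw [h0]; ring
  · rw [Real.log_div h0 (h.pos y).ne']

theorem Dd_nonneg (l : ℕ) (x : S) : 0 ≤ Dd A μ l x := by
  have g := gibbs (univ : Finset S) (fun y => (A ^ l) x y)
    (fun y => if c y = sh (c x) l then μ y else 0) (fun y _ => h.pow_nonneg l x y)
    (fun y _ => by
      by_cases hz : c y = sh (c x) l
      · rw [if_pos hz]; exact (h.pos y).le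
      · rw [if_neg hz])
    (fun y _ hy => by
      by_cases hz : c y = sh (c x) l
      · rw [if_pos hz]; exact h.pos y
      · exact absurd (h.pow_alt l x y hz) hy.ne')
  rw [h.pow_row, h.mass, Real.log_one] at g
  unfold Dd
  have e : ∑ y, (A ^ l) x y * (Real.log (if c y = sh (c x) l then μ y else 0) -
      Real.log ((A ^ l) x y)) =
      -∑ y, (A ^ l) x y * (Real.log ((A ^ l) x y) - Real.log (μ y)) := by
    rw [← Finset.sum_neg_distrib]
    refine Finset.sum_congr rfl fun y _ => ?_
    by_cases hz : c y = sh (c x) l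
    · rw [if_pos hz]; ring
    · rw [h.pow_alt l x y hz]; ring
  rw [e] at g
  linarith

theorem J_eq (l : ℕ) (b : Bool) :
    J A μ c l b = ∑ x, if c x = b then μ x * Dd A μ l x else 0 := by
  unfold J
  rw [EL_pd h]
  refine Finset.sum_congr rfl fun x _ => ?_
  rw [Dd_eq h]

theorem J_nonneg (l : ℕ) (b : Bool) : 0 ≤ J A μ c l b := by
  rw [J_eq h]
  refine Finset.sum_nonneg fun x _ => ?_
  split_ifs
  · exact mul_nonneg (h.pos x).le (Dd_nonneg h l x)
  · exact le_rfl

theorem J_sh (l : ℕ) (b : Bool) : J A μ c l (sh b l) = J A μ c l b := by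
  unfold J
  rw [← EL_pd_swap h]
  congr 1
  funext x y
  exact h.kap_symm l y x

theorem GoodK.nonneg {l d : ℕ} {F : S → S → ℝ} (hg : GoodK A μ c l d F) (b : Bool) :
    0 ≤ EL (pd A μ c d b) F := by
  refine le_trans ?_ (hg b)
  split_ifs
  · exact J_nonneg h d b
  · exact le_rfl

theorem GoodK.symm {l d : ℕ} {F : S → S → ℝ} (hg : GoodK A μ c l d F) :
    GoodK A μ c l d (fun x y => F y x) := by
  intro b
  rw [EL_pd_swap h, ← J_sh h]
  exact hg (sh b d)

/-- a balanced kernel may be put at every distance (one starting point) -/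
theorem QK.pt {l d : ℕ} {F : S → S → ℝ} (hq : QK A μ c l F) (hd : d ≤ l) (hm : d % 2 = l % 2)
    (u : S) : Dd A μ ((l + d) / 2) u ≤ ∑ y, (A ^ d) u y * Real.log (F u y) := by
  obtain ⟨k, rfl⟩ : ∃ k, l = d + 2 * k := ⟨(l - d) / 2, by omega⟩
  have hk : (d + 2 * k + d) / 2 = d + k := by omega
  rw [hk]
  set rx : S → ℝ := fun x => if x = u then 1 else 0 with hrx
  set ry : S → ℝ := fun y => (A ^ d) u y with hry
  have hsum : ∀ (F : S → ℝ), ∑ x, rx x * F x = F u := by
    intro F
    rw [Finset.sum_eq_single u]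
    · rw [hrx]; simp
    · intro x _ hx
      rw [hrx]; simp [hx]
    · intro hu; exact absurd (mem_univ u) hu
  have hsg : ∀ z, ∑ x, rx x * (A ^ (d + k)) x z = (A ^ (d + k)) u z := fun z =>
    hsum (fun x => (A ^ (d + k)) x z)
  have hc : Cmp A c (d + k) k rx ry := by
    refine ⟨fun x => ?_, fun y => h.pow_nonneg d u y, ⟨c u, fun x hx => ?_⟩,
      ⟨sh (c u) d, fun y hy => h.pow_alt d u y hy⟩, fun z => ?_⟩
    · rw [hrx]; dsimp only; split_ifs <;> norm_num
    · have : x ≠ u := by rintro rfl; exact hx rfl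
      rw [hrx]; simp [this]
    · rw [hsg, pow_add, Matrix.mul_apply]
  have h1 := hq (d + k) k rx ry (by omega) hc
  have z0 : ∀ x, x ≠ u → ∀ y, lam A (d + k) k rx ry x y = 0 := by
    intro x hx y
    have h2 := lam_left h hc x
    have h3 : rx x = 0 := by rw [hrx]; simp [hx]
    rw [h3] at h2
    exact (Finset.sum_eq_zero_iff_of_nonneg (fun y _ => lam_nonneg h hc x y)).1 h2 y (mem_univ y)
  have z1 : ∀ y, lam A (d + k) k rx ry u y = ry y := by
    intro y
    rw [← lam_right h hc y, Finset.sum_eq_single u]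
    · intro x _ hx
      exact z0 x hx y
    · intro hu; exact absurd (mem_univ u) hu
  have z2 : ∀ G : S → S → ℝ, EL (lam A (d + k) k rx ry) G = ∑ y, ry y * Real.log (G u y) := by
    intro G
    unfold EL
    rw [Finset.sum_eq_single u]
    · simp only [z1]
    · intro x _ hx
      exact Finset.sum_eq_zero fun y _ => by rw [z0 x hx y, zero_mul]
    · intro hu; exact absurd (mem_univ u) hu
  have z3 : E1 rx = 0 := by
    unfold E1
    refine Finset.sum_eq_zero fun x _ => ?_
    by_cases hx : x = u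
    · rw [hrx]; simp [hx]
    · rw [hrx]; simp [hx]
  unfold QB at h1
  rw [z2, z2, z3] at h1
  simp only [hsg, z1] at h1
  have z4 : ∑ y, ry y * Real.log (ry y) = E1 ry := rfl
  have z5 : E1 (fun z => (A ^ (d + k)) u z) - ∑ z, (A ^ (d + k)) u z * Real.log (μ z) =
      Dd A μ (d + k) u := by
    unfold E1 Dd
    rw [← Finset.sum_sub_distrib]
    exact Finset.sum_congr rfl fun z _ => by ring
  rw [z4] at h1
  linarith

/-- a balanced kernel may be put at every distance -/
theorem QK.good {l d : ℕ} {F : S → S → ℝ} (hq : QK A μ c l F) (hd : d ≤ l)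
    (hm : d % 2 = l % 2) : GoodK A μ c l d F := by
  intro b
  rw [EL_pd h]
  have h1 : (if d = l then J A μ c d b else 0) ≤
      ∑ x, if c x = b then μ x * Dd A μ ((l + d) / 2) x else 0 := by
    split_ifs with he
    · subst he
      rw [J_eq h, show (d + d) / 2 = d by omega]
    · refine Finset.sum_nonneg fun x _ => ?_
      split_ifs
      · exact mul_nonneg (h.pos x).le (Dd_nonneg h _ x)
      · exact le_rfl
  refine h1.trans (Finset.sum_le_sum fun x _ => ?_)
  split_ifs
  · exact mul_le_mul_of_nonneg_left (hq.pt h hd hm x) (h.pos x).le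
  · exact le_rfl

/-- parallel composition -/
theorem GoodK.par {l1 l2 d : ℕ} {F G : S → S → ℝ} (hF : GoodK A μ c l1 d F)
    (hG : GoodK A μ c l2 d G) (pF : PosK A d F) (pG : PosK A d G) :
    GoodK A μ c (min l1 l2) d (fun x y => F x y * G x y) := by
  intro b
  rw [EL_mul (pd_nonneg h d b) (fun x y hp => pF x y (pd_pos h hp).2)
    (fun x y hp => pG x y (pd_pos h hp).2)]
  have h1 := hF b
  have h2 := hG b
  have h3 := hF.nonneg h b
  have h4 := hG.nonneg h b
  have h5 := J_nonneg h d b
  split_ifs with he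
  · rcases Nat.le_total l1 l2 with hle | hle
    · rw [Nat.min_eq_left hle] at he
      rw [if_pos he] at h1
      linarith
    · rw [Nat.min_eq_right hle] at he
      rw [if_pos he] at h2
      linarith
  · linarith

/-- series composition with a balanced kernel, for one starting point -/
theorem serR_pt {l1 l2 d : ℕ} {F G : S → S → ℝ} (hG : QK A μ c l2 G) (pF : PosK A l1 F)
    (pG : PosK A l2 G) (nF : ∀ x y, 0 ≤ F x y) (nG : ∀ x y, 0 ≤ G x y) (h1 : l1 ≤ d + l2)
    (h2 : d ≤ l1 + l2) (h3 : d % 2 = (l1 + l2) % 2) (u : S) :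
    (∑ w, (A ^ l1) u w * Real.log (F u w) - Dd A μ l1 u) + Dd A μ ((l1 + l2 + d) / 2) u ≤
      ∑ v, (A ^ d) u v * Real.log (serK μ F G u v) := by
  obtain ⟨b, hb⟩ : ∃ b, l2 + d = l1 + 2 * b := ⟨(l2 + d - l1) / 2, by omega⟩
  obtain ⟨a, ha⟩ : ∃ a, l1 + l2 = d + 2 * a := ⟨(l1 + l2 - d) / 2, by omega⟩
  have hab : a + b = l2 := by omega
  have hm : (l1 + l2 + d) / 2 = l1 + b := by omega
  rw [hm]
  set rx : S → ℝ := fun w => (A ^ l1) u w with hrx
  set ry : S → ℝ := fun v => (A ^ d) u v with hry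
  have hsg : ∀ z, ∑ x, rx x * (A ^ b) x z = (A ^ (l1 + b)) u z := by
    intro z
    rw [pow_add, Matrix.mul_apply]
  have hc : Cmp A c b a rx ry := by
    refine ⟨fun y => h.pow_nonneg l1 u y, fun y => h.pow_nonneg d u y,
      ⟨sh (c u) l1, fun y hy => h.pow_alt l1 u y hy⟩,
      ⟨sh (c u) d, fun y hy => h.pow_alt d u y hy⟩, fun z => ?_⟩
    rw [hsg, show l1 + b = d + a by omega, pow_add, Matrix.mul_apply]
  have hq := hG b a rx ry hab hc
  have jn := jensen (X := S) (W := S) (fun v w => lam A b a rx ry w v)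
    (fun v w => μ w * F u w * G w v) (fun v w => lam_nonneg h hc w v)
    (fun v w => mul_nonneg (mul_nonneg (h.pos w).le (nF u w)) (nG w v))
    (fun v w hp => by
      obtain ⟨a1, _, a3⟩ := lam_pos h hc hp
      rw [hab] at a3
      exact mul_pos (mul_pos (h.pos w) (pF u w a1)) (pG w v a3))
  simp only [lam_right h hc] at jn
  have e0 : ∀ v w, lam A b a rx ry w v * (Real.log (μ w * F u w * G w v) -
      Real.log (lam A b a rx ry w v)) =
      lam A b a rx ry w v * (Real.log (μ w) + Real.log (F u w)) +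
      lam A b a rx ry w v * Real.log (G w v) -
      lam A b a rx ry w v * Real.log (lam A b a rx ry w v) := by
    intro v w
    rcases (lam_nonneg h hc w v).eq_or_lt with h0 | h0
    · rw [← h0]; ring
    · obtain ⟨a1, _, a3⟩ := lam_pos h hc h0
      rw [hab] at a3
      have b1 := pF u w a1
      have b2 := pG w v a3
      have b3 := h.pos w
      rw [Real.log_mul (mul_pos b3 b1).ne' b2.ne', Real.log_mul b3.ne' b1.ne']
      ring
  simp only [e0, Finset.sum_add_distrib, Finset.sum_sub_distrib] at jn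
  have s1 : ∑ v, ∑ w, lam A b a rx ry w v * (Real.log (μ w) + Real.log (F u w)) =
      ∑ w, rx w * Real.log (μ w) + ∑ w, rx w * Real.log (F u w) := by
    rw [Finset.sum_comm, ← Finset.sum_add_distrib]
    refine Finset.sum_congr rfl fun w _ => ?_
    rw [← Finset.sum_mul, lam_left h hc]
    ring
  have s2 : ∑ v, ∑ w, lam A b a rx ry w v * Real.log (G w v) = EL (lam A b a rx ry) G :=
    Finset.sum_comm
  have s3 : ∑ v, ∑ w, lam A b a rx ry w v * Real.log (lam A b a rx ry w v) =
      EL (lam A b a rx ry) (lam A b a rx ry) := Finset.sum_comm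
  rw [s1, s2, s3] at jn
  unfold QB at hq
  simp only [hsg] at hq
  have s4 : Dd A μ (l1 + b) u = E1 (fun z => (A ^ (l1 + b)) u z) -
      ∑ z, (A ^ (l1 + b)) u z * Real.log (μ z) := by
    unfold E1 Dd
    rw [← Finset.sum_sub_distrib]
    exact Finset.sum_congr rfl fun z _ => by ring
  have s5 : Dd A μ l1 u = E1 rx - ∑ z, rx z * Real.log (μ z) := by
    unfold E1 Dd
    rw [← Finset.sum_sub_distrib]
    exact Finset.sum_congr rfl fun z _ => by ring
  have s6 : ∑ v, ry v * Real.log (ry v) = E1 ry := rfl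
  have s7 : ∑ v, ry v * Real.log (∑ w, μ w * F u w * G w v) =
      ∑ v, ry v * Real.log (serK μ F G u v) := rfl
  have s8 : ∑ w, (A ^ l1) u w * Real.log (F u w) = ∑ w, rx w * Real.log (F u w) := rfl
  rw [s6, s7] at jn
  rw [s4, s5]
  linarith

/-- series composition with a balanced kernel -/
theorem GoodK.serR {l1 l2 d : ℕ} {F G : S → S → ℝ} (hF : GoodK A μ c l1 l1 F)
    (hG : QK A μ c l2 G) (pF : PosK A l1 F)
    (pG : PosK A l2 G) (nF : ∀ x y, 0 ≤ F x y) (nG : ∀ x y, 0 ≤ G x y) (h1 : l1 ≤ d + l2)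
    (h2 : d ≤ l1 + l2) (h3 : d % 2 = (l1 + l2) % 2) :
    GoodK A μ c (l1 + l2) d (serK μ F G) := by
  intro b
  have hF1 := hF b
  rw [if_pos rfl, EL_pd h, J_eq h] at hF1
  rw [EL_pd h]
  have key : (∑ x, if c x = b then μ x * ∑ y, (A ^ l1) x y * Real.log (F x y) else 0) -
      (∑ x, if c x = b then μ x * Dd A μ l1 x else 0) +
      (∑ x, if c x = b then μ x * Dd A μ ((l1 + l2 + d) / 2) x else 0) ≤
      ∑ x, if c x = b then μ x * ∑ y, (A ^ d) x y * Real.log (serK μ F G x y) else 0 := by
    rw [← Finset.sum_sub_distrib, ← Finset.sum_add_distrib]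
    refine Finset.sum_le_sum fun x _ => ?_
    split_ifs
    · have := mul_le_mul_of_nonneg_left (serR_pt h hG pF pG nF nG h1 h2 h3 x) (h.pos x).le
      linarith
    · simp
  have h4 : (if d = l1 + l2 then J A μ c d b else 0) ≤
      ∑ x, if c x = b then μ x * Dd A μ ((l1 + l2 + d) / 2) x else 0 := by
    split_ifs with he
    · rw [J_eq h, show (l1 + l2 + d) / 2 = d by omega]
    · refine Finset.sum_nonneg fun x _ => ?_
      split_ifs
      · exact mul_nonneg (h.pos x).le (Dd_nonneg h _ x)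
      · exact le_rfl
  linarith

end Vale.Agent.P050.SP
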