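import Vale.Agent.P050.R4.H859.Good

/-!
# P050, series-parallel graphs: straight series compositions and the end of the proof
-/

namespace Vale.Agent.P050.SP

open Finset Matrix Vale.Agent.P050.Ears

variable {S : Type*} [Fintype S] [DecidableEq S]
variable {A : Matrix S S ℝ} {μ : S → ℝ} {c : S → Bool} (h : Rev A μ c)

theorem serK_swap (μ : S → ℝ) (F G : S → S → ℝ) :
    (fun x y => serK μ (fun x y => G y x) (fun x y => F y x) y x) = serK μ F G := by
  funext x y
  unfold serK
  exact Finset.sum_congr rfl fun w _ => by ring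

include h

theorem GoodK.serL {l1 l2 d : ℕ} {F G : S → S → ℝ} (hF : QK A μ c l1 F)
    (hG : GoodK A μ c l2 l2 G) (pF : PosK A l1 F)
    (pG : PosK A l2 G) (nF : ∀ x y, 0 ≤ F x y) (nG : ∀ x y, 0 ≤ G x y) (h1 : l2 ≤ d + l1)
    (h2 : d ≤ l1 + l2) (h3 : d % 2 = (l1 + l2) % 2) :
    GoodK A μ c (l1 + l2) d (serK μ F G) := by
  have h4 := (GoodK.serR h (hG.symm h) hF.symm (PosK.swap h pG) (PosK.swap h pF)
    (fun x y => nG y x) (fun x y => nF y x) h1 (by omega : d ≤ l2 + l1) (by omega)).symm h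
  rw [serK_swap, add_comm] at h4
  exact h4

/-- straight series composition -/
theorem GoodK.chain {l1 l2 : ℕ} {F G : S → S → ℝ} (hF : GoodK A μ c l1 l1 F)
    (hG : GoodK A μ c l2 l2 G) (pF : PosK A l1 F)
    (pG : PosK A l2 G) (nF : ∀ x y, 0 ≤ F x y) (nG : ∀ x y, 0 ≤ G x y) :
    GoodK A μ c (l1 + l2) (l1 + l2) (serK μ F G) := by
  intro b
  rw [if_pos rfl]
  set om : S → ℝ := fun w => if c w = sh b l1 then μ w else 0 with hom
  have hglue : glue (pd A μ c l1 b) (pd A μ c l2 (sh b l1)) om = pd A μ c (l1 + l2) b := by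
    funext x y
    rw [← pd_step h]
    unfold glue
    refine Finset.sum_congr rfl fun w _ => ?_
    by_cases hw : c w = sh b l1
    · have h1 : pd A μ c l2 (sh b l1) w y = μ w * (A ^ l2) w y := by
        unfold pd; rw [if_pos hw]
      have h2 : om w = μ w := by rw [hom]; simp [hw]
      have := (h.pos w).ne'
      rw [h1, h2]
      field_simp
    · have h1 : pd A μ c l1 b x w = 0 := by
        rw [pd_swap h]
        unfold pd
        rw [if_neg hw]
      rw [h1]; simp
  have C := comp h.pos (r := pd A μ c l1 b) (q := pd A μ c l2 (sh b l1)) (F := F) (G := G)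
    (om := om) (pd_nonneg h l1 b) (pd_nonneg h l2 _) (fun w => pd_right h l1 b w)
    (fun w => pd_left h l2 _ w) nF nG (fun x w hp => pF x w (pd_pos h hp).2)
    (fun w y hp => pG w y (pd_pos h hp).2)
  rw [hglue] at C
  have hJ : ∀ (l : ℕ) (b : Bool), EL (pd A μ c l b) (pd A μ c l b) = J A μ c l b +
      (∑ x, (if c x = b then μ x else 0) * Real.log (μ x)) +
      (∑ x, (if c x = sh b l then μ x else 0) * Real.log (μ x)) := by
    intro l b
    have t1 : ∀ x y, pd A μ c l b x y * Real.log (pd A μ c l b x y) =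
        pd A μ c l b x y * Real.log (kap A μ l x y) + pd A μ c l b x y * Real.log (μ x) +
        pd A μ c l b x y * Real.log (μ y) := by
      intro x y
      rcases (pd_nonneg h l b x y).eq_or_lt with h0 | h0
      · rw [← h0]; ring
      · obtain ⟨hx, hA⟩ := pd_pos h h0
        have h2 : pd A μ c l b x y = μ x * (A ^ l) x y := by unfold pd; rw [if_pos hx]
        have h3 : Real.log (pd A μ c l b x y) = Real.log (μ x) + Real.log ((A ^ l) x y) := by
          rw [h2, Real.log_mul (h.pos x).ne' hA.ne']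
        have h4 : Real.log (kap A μ l x y) = Real.log ((A ^ l) x y) - Real.log (μ y) := by
          unfold kap
          rw [Real.log_div hA.ne' (h.pos y).ne']
        rw [h3, h4]; ring
    unfold J
    unfold EL
    simp only [t1, Finset.sum_add_distrib]
    congr 1
    · congr 1
      refine Finset.sum_congr rfl fun x _ => ?_
      rw [← Finset.sum_mul, pd_left h]
    · rw [Finset.sum_comm]
      refine Finset.sum_congr rfl fun x _ => ?_
      rw [← Finset.sum_mul, pd_right h]
  have hE : E1 om = ∑ x, (if c x = sh b l1 then μ x else 0) * Real.log (μ x) := by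
    unfold E1
    refine Finset.sum_congr rfl fun x _ => ?_
    rw [hom]
    by_cases hx : c x = sh b l1
    · simp [hx]
    · simp [hx]
  have h1 := hF b
  have h2 := hG (sh b l1)
  rw [if_pos rfl] at h1 h2
  rw [hJ, hJ, hJ, hE, sh_add] at C
  have h3 : ∑ w, om w * Real.log (μ w) =
      ∑ x, (if c x = sh b l1 then μ x else 0) * Real.log (μ x) := rfl
  rw [h3] at C
  linarith

/-- series composition with a long first part -/
theorem GoodK.longR {l1 l2 d : ℕ} {F G : S → S → ℝ} (hF : GoodK A μ c l1 (d + l2) F)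
    (hG : GoodK A μ c l2 l2 G) (pF : PosK A (d + l2) F)
    (pG : PosK A l2 G) (nF : ∀ x y, 0 ≤ F x y) (nG : ∀ x y, 0 ≤ G x y)
    (hd : d ≠ l1 + l2) :
    GoodK A μ c (l1 + l2) d (serK μ F G) := by
  intro b
  rw [if_neg hd]
  have jn := jensen (X := S × S) (W := S) (fun p w => pd A μ c d b p.1 p.2 * (A ^ l2) p.2 w)
    (fun p w => μ w * F p.1 w * G w p.2)
    (fun p w => mul_nonneg (pd_nonneg h d b _ _) (h.pow_nonneg l2 _ _))
    (fun p w => mul_nonneg (mul_nonneg (h.pos w).le (nF _ _)) (nG _ _))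
    (fun p w hp => by
      have h1 : pd A μ c d b p.1 p.2 ≠ 0 := fun h0 => by
        rw [h0, zero_mul] at hp; exact lt_irrefl _ hp
      have h2 : (A ^ l2) p.2 w ≠ 0 := fun h0 => by
        rw [h0, mul_zero] at hp; exact lt_irrefl _ hp
      have h3 := lt_of_le_of_ne (pd_nonneg h d b p.1 p.2) h1.symm
      have h4 := lt_of_le_of_ne (h.pow_nonneg l2 p.2 w) h2.symm
      refine mul_pos (mul_pos (h.pos w) (pF _ _ ?_)) (PosK.swap h pG _ _ h4)
      rw [pow_add, Matrix.mul_apply]
      exact Finset.sum_pos' (fun w _ => mul_nonneg (h.pow_nonneg _ _ _) (h.pow_nonneg _ _ _))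
        ⟨p.2, mem_univ _, mul_pos (pd_pos h h3).2 h4⟩)
  simp only [← Finset.mul_sum, h.pow_row, mul_one] at jn
  have e0 : ∀ (p : S × S) w, pd A μ c d b p.1 p.2 * (A ^ l2) p.2 w *
      (Real.log (μ w * F p.1 w * G w p.2) -
        Real.log (pd A μ c d b p.1 p.2 * (A ^ l2) p.2 w)) =
      pd A μ c d b p.1 p.2 * (A ^ l2) p.2 w * Real.log (F p.1 w) +
      pd A μ c d b p.1 p.2 * (A ^ l2) p.2 w * Real.log (G w p.2) -
      pd A μ c d b p.1 p.2 * ((A ^ l2) p.2 w *
        (Real.log ((A ^ l2) p.2 w) - Real.log (μ w))) -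
      pd A μ c d b p.1 p.2 * Real.log (pd A μ c d b p.1 p.2) * (A ^ l2) p.2 w := by
    intro p w
    by_cases h1 : pd A μ c d b p.1 p.2 = 0
    · rw [h1]; ring
    by_cases h2 : (A ^ l2) p.2 w = 0
    · rw [h2]; ring
    have h3 := lt_of_le_of_ne (pd_nonneg h d b p.1 p.2) (Ne.symm h1)
    have h4 := lt_of_le_of_ne (h.pow_nonneg l2 p.2 w) (Ne.symm h2)
    have h5 : 0 < F p.1 w := by
      refine pF _ _ ?_
      rw [pow_add, Matrix.mul_apply]
      exact Finset.sum_pos' (fun w _ => mul_nonneg (h.pow_nonneg _ _ _) (h.pow_nonneg _ _ _))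
        ⟨p.2, mem_univ _, mul_pos (pd_pos h h3).2 h4⟩
    have h6 : 0 < G w p.2 := PosK.swap h pG _ _ h4
    have h7 := h.pos w
    rw [Real.log_mul (mul_pos h7 h5).ne' h6.ne', Real.log_mul h7.ne' h5.ne',
      Real.log_mul h3.ne' h4.ne']
    ring
  simp only [e0] at jn
  simp only [Fintype.sum_prod_type, Finset.sum_add_distrib, Finset.sum_sub_distrib] at jn
  have s1 : ∑ u, ∑ v, ∑ w, pd A μ c d b u v * (A ^ l2) v w * Real.log (F u w) =
      EL (pd A μ c (d + l2) b) F := by
    unfold EL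
    refine Finset.sum_congr rfl fun u _ => ?_
    rw [Finset.sum_comm]
    refine Finset.sum_congr rfl fun w _ => ?_
    rw [← Finset.sum_mul, pd_step h]
  have s0 : ∀ v w, ∑ u, pd A μ c d b u v * (A ^ l2) v w = pd A μ c l2 (sh b d) v w := by
    intro v w
    rw [← Finset.sum_mul, pd_right h]
    unfold pd
    split_ifs
    · rfl
    · rw [zero_mul]
  have s2 : ∑ u, ∑ v, ∑ w, pd A μ c d b u v * (A ^ l2) v w * Real.log (G w v) =
      EL (pd A μ c l2 (sh b d)) (fun x y => G y x) := by
    unfold EL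
    rw [Finset.sum_comm]
    refine Finset.sum_congr rfl fun v _ => ?_
    rw [Finset.sum_comm]
    refine Finset.sum_congr rfl fun w _ => ?_
    rw [← Finset.sum_mul, s0]
  have s3 : ∑ u, ∑ v, ∑ w, pd A μ c d b u v * ((A ^ l2) v w *
        (Real.log ((A ^ l2) v w) - Real.log (μ w))) = J A μ c l2 (sh b d) := by
    rw [J_eq h]
    unfold Dd
    rw [Finset.sum_comm]
    refine Finset.sum_congr rfl fun v _ => ?_
    simp only [← Finset.mul_sum]
    rw [← Finset.sum_mul, pd_right h]
    split_ifs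
    · rfl
    · rw [zero_mul]
  have s4 : ∑ u, ∑ v, ∑ w, pd A μ c d b u v * Real.log (pd A μ c d b u v) * (A ^ l2) v w =
      ∑ u, ∑ v, pd A μ c d b u v * Real.log (pd A μ c d b u v) := by
    simp only [← Finset.mul_sum, h.pow_row, mul_one]
  rw [s1, s2, s3, s4] at jn
  have h1 := hF.nonneg h b
  have h2 := (hG.symm h) (sh b d)
  rw [if_pos rfl] at h2
  have s5 : EL (pd A μ c d b) (serK μ F G) = ∑ u, ∑ v, pd A μ c d b u v *
      Real.log (∑ w, μ w * F u w * G w v) := rfl
  rw [s5]
  linarith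

theorem GoodK.longL {l1 l2 d : ℕ} {F G : S → S → ℝ} (hF : GoodK A μ c l1 l1 F)
    (hG : GoodK A μ c l2 (d + l1) G) (pF : PosK A l1 F)
    (pG : PosK A (d + l1) G) (nF : ∀ x y, 0 ≤ F x y) (nG : ∀ x y, 0 ≤ G x y)
    (hd : d ≠ l1 + l2) :
    GoodK A μ c (l1 + l2) d (serK μ F G) := by
  have h4 := (GoodK.longR h (hG.symm h) (hF.symm h) (PosK.swap h pG) (PosK.swap h pF)
    (fun x y => nG y x) (fun x y => nF y x) (by omega : d ≠ l2 + l1)).symm h
  rw [serK_swap, add_comm] at h4
  exact h4

/-- the end of the proof -/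
theorem GoodK.final {l : ℕ} {F : S → S → ℝ} (hF : GoodK A μ c l l F) (pF : PosK A l F)
    (nF : ∀ x y, 0 ≤ F x y) (b : Bool) :
    1 ≤ ∑ x, if c x = b then ∑ y, μ x * μ y * F x y else 0 := by
  have hmass : ∑ p : S × S, pd A μ c l b p.1 p.2 = 1 := by
    rw [Fintype.sum_prod_type]
    simp only [pd_left h]
    exact h.mass b
  have g := gibbs (univ : Finset (S × S)) (fun p => pd A μ c l b p.1 p.2)
    (fun p => if c p.1 = b then μ p.1 * μ p.2 * F p.1 p.2 else 0)
    (fun p _ => pd_nonneg h l b _ _)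
    (fun p _ => by
      split_ifs
      · exact mul_nonneg (mul_nonneg (h.pos _).le (h.pos _).le) (nF _ _)
      · exact le_rfl)
    (fun p _ hp => by
      obtain ⟨h1, h2⟩ := pd_pos h hp
      rw [if_pos h1]
      exact mul_pos (mul_pos (h.pos _) (h.pos _)) (pF _ _ h2))
  rw [hmass, Real.log_one, one_mul, sub_zero] at g
  have e : ∑ p : S × S, pd A μ c l b p.1 p.2 *
      (Real.log (if c p.1 = b then μ p.1 * μ p.2 * F p.1 p.2 else 0) -
        Real.log (pd A μ c l b p.1 p.2)) = EL (pd A μ c l b) F - J A μ c l b := by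
    unfold J EL
    rw [Fintype.sum_prod_type, ← Finset.sum_sub_distrib]
    refine Finset.sum_congr rfl fun x _ => ?_
    rw [← Finset.sum_sub_distrib]
    refine Finset.sum_congr rfl fun y _ => ?_
    rcases (pd_nonneg h l b x y).eq_or_lt with h0 | h0
    · rw [← h0]; ring
    · obtain ⟨hx, hA⟩ := pd_pos h h0
      have h2 : pd A μ c l b x y = μ x * (A ^ l) x y := by unfold pd; rw [if_pos hx]
      have h3 : Real.log (pd A μ c l b x y) = Real.log (μ x) + Real.log ((A ^ l) x y) := by
        rw [h2, Real.log_mul (h.pos x).ne' hA.ne']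
      have h4 : Real.log (kap A μ l x y) = Real.log ((A ^ l) x y) - Real.log (μ y) := by
        unfold kap
        rw [Real.log_div hA.ne' (h.pos y).ne']
      have hFp := pF x y hA
      change pd A μ c l b x y * (Real.log (if c x = b then μ x * μ y * F x y else 0) -
        Real.log (pd A μ c l b x y)) = _
      rw [if_pos hx, h3, h4, Real.log_mul (mul_pos (h.pos x) (h.pos y)).ne' hFp.ne',
        Real.log_mul (h.pos x).ne' (h.pos y).ne']
      ring
  rw [e] at g
  have h1 := hF b
  rw [if_pos rfl] at h1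
  have hlog : 0 ≤ Real.log (∑ p : S × S, if c p.1 = b then μ p.1 * μ p.2 * F p.1 p.2 else 0) := by
    linarith
  have hpos : 0 < ∑ p : S × S, if c p.1 = b then μ p.1 * μ p.2 * F p.1 p.2 else 0 := by
    obtain ⟨p, _, hp⟩ : ∃ p ∈ (univ : Finset (S × S)), 0 < pd A μ c l b p.1 p.2 := by
      by_contra hne
      push Not at hne
      have := Finset.sum_nonpos hne
      rw [hmass] at this
      linarith
    refine Finset.sum_pos' (fun p _ => ?_) ⟨p, mem_univ p, ?_⟩
    · split_ifs
      · exact mul_nonneg (mul_nonneg (h.pos _).le (h.pos _).le) (nF _ _)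
      · exact le_rfl
    · obtain ⟨h1, h2⟩ := pd_pos h hp
      rw [if_pos h1]
      exact mul_pos (mul_pos (h.pos _) (h.pos _)) (pF _ _ h2)
  have h2 : 1 ≤ ∑ p : S × S, if c p.1 = b then μ p.1 * μ p.2 * F p.1 p.2 else 0 := by
    by_contra hlt
    push Not at hlt
    exact absurd hlog (not_le.2 (Real.log_neg hpos hlt))
  refine h2.trans (le_of_eq ?_)
  rw [Fintype.sum_prod_type]
  refine Finset.sum_congr rfl fun x _ => ?_
  by_cases hx : c x = b
  · simp only [if_pos hx]
  · simp only [if_neg hx, Finset.sum_const_zero]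

end Vale.Agent.P050.SP
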