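import Vale.Agent.P050.R4.H859.Good2

/-!
# P050, series-parallel graphs: gadgets hung at a vertex
-/

namespace Vale.Agent.P050.SP

open Finset Matrix Vale.Agent.P050.Ears

variable {S : Type*} [Fintype S] [DecidableEq S]
variable {A : Matrix S S ℝ} {μ : S → ℝ} {c : S → Bool} (h : Rev A μ c)

/-- the gadget `G` hung at the first terminal of `F` -/
noncomputable def hangK (μ : S → ℝ) (F G : S → S → ℝ) (x y : S) : ℝ :=
  F x y * ∑ w, μ w * G x w

include h

/-- the number of copies of `G` at `x` is positive -/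
theorem out_pos {l : ℕ} {G : S → S → ℝ} (pG : PosK A l G) (nG : ∀ x y, 0 ≤ G x y) (x : S) :
    0 < ∑ w, μ w * G x w := by
  obtain ⟨w, _, hw⟩ : ∃ w ∈ (univ : Finset S), 0 < (A ^ l) x w := by
    by_contra hne
    push Not at hne
    have := Finset.sum_nonpos hne
    rw [h.pow_row] at this
    linarith
  exact Finset.sum_pos' (fun w _ => mul_nonneg (h.pos w).le (nG x w))
    ⟨w, mem_univ w, mul_pos (h.pos w) (pG x w hw)⟩

/-- Jensen's inequality for the number of copies of `G` at `x` -/
theorem out_log {l : ℕ} {G : S → S → ℝ} (pG : PosK A l G) (nG : ∀ x y, 0 ≤ G x y) (x : S) :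
    ∑ y, (A ^ l) x y * Real.log (G x y) - Dd A μ l x ≤ Real.log (∑ w, μ w * G x w) := by
  have g := gibbs (univ : Finset S) (fun y => (A ^ l) x y) (fun w => μ w * G x w)
    (fun y _ => h.pow_nonneg l x y) (fun w _ => mul_nonneg (h.pos w).le (nG x w))
    (fun w _ hw => mul_pos (h.pos w) (pG x w hw))
  rw [h.pow_row, Real.log_one, one_mul, sub_zero] at g
  refine le_trans (le_of_eq ?_) g
  unfold Dd
  rw [← Finset.sum_sub_distrib]
  refine Finset.sum_congr rfl fun w _ => ?_
  rcases (h.pow_nonneg l x w).eq_or_lt with h0 | h0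
  · rw [← h0]; ring
  · rw [Real.log_mul (h.pos w).ne' (pG x w h0).ne']; ring

theorem QK.out {l : ℕ} {G : S → S → ℝ} (hG : QK A μ c l G) (pG : PosK A l G)
    (nG : ∀ x y, 0 ≤ G x y) (x : S) : 0 ≤ Real.log (∑ w, μ w * G x w) := by
  have h1 := out_log h pG nG x
  have h2 := hG.pt h (le_refl l) rfl x
  rw [show (l + l) / 2 = l by omega] at h2
  linarith

theorem QK.hang {l1 l2 : ℕ} {F G : S → S → ℝ} (hF : QK A μ c l1 F) (hG : QK A μ c l2 G)
    (pF : PosK A l1 F) (pG : PosK A l2 G) (nG : ∀ x y, 0 ≤ G x y) :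
    QK A μ c l1 (hangK μ F G) := by
  intro b a rx ry hl hc
  unfold hangK
  rw [EL_mul (lam_nonneg h hc) (fun x y hp => pF x y (by rw [← hl]; exact (lam_pos h hc hp).2.2))
    (fun x y _ => out_pos h pG nG x)]
  have h1 := hF b a rx ry hl hc
  have h2 : 0 ≤ EL (lam A b a rx ry) (fun x _ => ∑ w, μ w * G x w) := by
    unfold EL
    exact Finset.sum_nonneg fun x _ => Finset.sum_nonneg fun y _ =>
      mul_nonneg (lam_nonneg h hc x y) (hG.out h pG nG x)
  linarith

/-- a balanced kernel of length one with a balanced kernel of odd length -/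
theorem QK.load {l : ℕ} {F G : S → S → ℝ} (hF : QK A μ c 1 F) (hG : QK A μ c l G)
    (hl : l % 2 = 1) (pF : PosK A 1 F) (pG : PosK A l G) :
    QK A μ c 1 (fun x y => F x y * G x y) := by
  have main : ∀ (F G : S → S → ℝ), QK A μ c 1 F → QK A μ c l G → PosK A 1 F → PosK A l G →
      ∀ rx ry : S → ℝ, Cmp A c 1 0 rx ry →
      QB A μ 1 0 rx ry ≤ EL (lam A 1 0 rx ry) (fun x y => F x y * G x y) := by
    intro F G hF hG pF pG rx ry hc
    have pG1 : PosK A 1 G := pG.mono h (by omega) (by omega)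
    rw [EL_mul (lam_nonneg h hc) (fun x y hp => pF x y (lam_pos h hc hp).2.2)
      (fun x y hp => pG1 x y (lam_pos h hc hp).2.2)]
    have h1 := hF 1 0 rx ry rfl hc
    have hlam : ∀ x y, lam A 1 0 rx ry x y = rx x * (A ^ 1) x y := by
      intro x y
      have hsg : (∑ x', rx x' * (A ^ 1) x' y) = ry y := by
        rw [hc.eq y, pow_zero]
        simp [Matrix.one_apply]
      unfold lam glue
      rw [Finset.sum_eq_single y]
      · change rx x * (A ^ 1) x y * (ry y * (A ^ 0) y y) / (∑ x', rx x' * (A ^ 1) x' y) = _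
        rw [hsg, pow_zero, Matrix.one_apply_eq, mul_one]
        by_cases h0 : ry y = 0
        · have h2 : rx x * (A ^ 1) x y = 0 := by
            rw [h0] at hsg
            exact (Finset.sum_eq_zero_iff_of_nonneg
              (fun x _ => mul_nonneg (hc.nx x) (h.pow_nonneg 1 x y))).1 hsg x (mem_univ x)
          rw [h2, zero_mul, zero_div]
        · rw [mul_div_assoc, div_self h0, mul_one]
      · intro z _ hz
        change rx x * (A ^ 1) x z * (ry y * (A ^ 0) y z) / _ = 0
        rw [pow_zero, Matrix.one_apply_ne hz.symm, mul_zero, mul_zero, zero_div]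
      · intro hy; exact absurd (mem_univ y) hy
    have h2 : 0 ≤ EL (lam A 1 0 rx ry) G := by
      unfold EL
      refine Finset.sum_nonneg fun x _ => ?_
      have h3 : ∑ y, lam A 1 0 rx ry x y * Real.log (G x y) =
          rx x * ∑ y, (A ^ 1) x y * Real.log (G x y) := by
        rw [Finset.mul_sum]
        exact Finset.sum_congr rfl fun y _ => by rw [hlam]; ring
      rw [h3]
      exact mul_nonneg (hc.nx x) ((Dd_nonneg h _ x).trans
        (hG.pt h (by omega : 1 ≤ l) (by omega) x))
    linarith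
  intro b a rx ry hab hc
  rcases Nat.eq_zero_or_pos a with ha | ha
  · subst ha
    have hb : b = 1 := by omega
    subst hb
    exact main F G hF hG pF pG rx ry hc
  · have ha' : a = 1 := by omega
    have hb : b = 0 := by omega
    subst ha' hb
    have h1 := main _ _ hF.symm hG.symm (PosK.swap h pF) (PosK.swap h pG) ry rx hc.symm
    rw [hc.QB_swap, hc.lam_swap] at h1
    refine h1.trans (le_of_eq ?_)
    rw [← EL_swap (lam A 0 1 rx ry) (fun x y => F x y * G x y)]

theorem GoodK.hang {l1 l2 d : ℕ} {F G : S → S → ℝ} (hF : GoodK A μ c l1 d F)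
    (hG : GoodK A μ c l2 l2 G) (pF : PosK A d F) (pG : PosK A l2 G)
    (nG : ∀ x y, 0 ≤ G x y) : GoodK A μ c l1 d (hangK μ F G) := by
  intro b
  unfold hangK
  rw [EL_mul (pd_nonneg h d b) (fun x y hp => pF x y (pd_pos h hp).2)
    (fun x y _ => out_pos h pG nG x)]
  have h1 := hF b
  have h2 := hG b
  rw [if_pos rfl, EL_pd h, J_eq h] at h2
  have h3 : EL (pd A μ c d b) (fun x _ => ∑ w, μ w * G x w) =
      ∑ x, if c x = b then μ x * Real.log (∑ w, μ w * G x w) else 0 := by
    unfold EL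
    refine Finset.sum_congr rfl fun x _ => ?_
    rw [← Finset.sum_mul, pd_left h]
    split_ifs
    · rfl
    · rw [zero_mul]
  have h4 : (∑ x, if c x = b then μ x * ∑ y, (A ^ l2) x y * Real.log (G x y) else 0) -
      (∑ x, if c x = b then μ x * Dd A μ l2 x else 0) ≤
      ∑ x, if c x = b then μ x * Real.log (∑ w, μ w * G x w) else 0 := by
    rw [← Finset.sum_sub_distrib]
    refine Finset.sum_le_sum fun x _ => ?_
    split_ifs
    · have := mul_le_mul_of_nonneg_left (out_log h pG nG x) (h.pos x).le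
      linarith
    · simp
  rw [h3]
  linarith

theorem QK.hangR {l1 l2 : ℕ} {F G : S → S → ℝ} (hF : QK A μ c l1 F) (hG : QK A μ c l2 G)
    (pF : PosK A l1 F) (pG : PosK A l2 G) (nG : ∀ x y, 0 ≤ G x y) :
    QK A μ c l1 (fun x y => F x y * ∑ w, μ w * G y w) :=
  (QK.hang h hF.symm hG (PosK.swap h pF) pG nG).symm

theorem GoodK.hangR {l1 l2 d : ℕ} {F G : S → S → ℝ} (hF : GoodK A μ c l1 d F)
    (hG : GoodK A μ c l2 l2 G) (pF : PosK A d F) (pG : PosK A l2 G)
    (nG : ∀ x y, 0 ≤ G x y) : GoodK A μ c l1 d (fun x y => F x y * ∑ w, μ w * G y w) :=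
  (GoodK.hang h (hF.symm h) hG (PosK.swap h pF) pG nG).symm h

end Vale.Agent.P050.SP
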