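import Vale.Agent.P050.R4.H859.Ent

/-!
# P050, series-parallel graphs: the two properties of kernels
-/

namespace Vale.Agent.P050.SP

open Finset Matrix Vale.Agent.P050.Ears

variable {S : Type*} [Fintype S] [DecidableEq S]

/-- the side reached from the side `b` by `d` steps -/
def sh (b : Bool) (d : ℕ) : Bool := xor b (decide (d % 2 = 1))

/-- the law of the two ends of a walk of length `d` which starts on the side `b` -/
noncomputable def pd (A : Matrix S S ℝ) (μ : S → ℝ) (c : S → Bool) (d : ℕ) (b : Bool)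
    (x y : S) : ℝ := if c x = b then μ x * (A ^ d) x y else 0

/-- the mutual information of the ends of a walk of length `l` from the side `b` -/
noncomputable def J (A : Matrix S S ℝ) (μ : S → ℝ) (c : S → Bool) (l : ℕ) (b : Bool) : ℝ :=
  EL (pd A μ c l b) (kap A μ l)

/-- relative entropy of the law of the end of a walk of length `l` from `x` -/
noncomputable def Dd (A : Matrix S S ℝ) (μ : S → ℝ) (l : ℕ) (x : S) : ℝ :=
  ∑ y, (A ^ l) x y * (Real.log ((A ^ l) x y) - Real.log (μ y))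

/-- the kernel may be put at distance `d` -/
def GoodK (A : Matrix S S ℝ) (μ : S → ℝ) (c : S → Bool) (l d : ℕ) (F : S → S → ℝ) : Prop :=
  ∀ b, (if d = l then J A μ c d b else 0) ≤ EL (pd A μ c d b) F

/-- the kernel is positive where a walk of length `l` exists -/
def PosK (A : Matrix S S ℝ) (l : ℕ) (F : S → S → ℝ) : Prop :=
  ∀ x y, 0 < (A ^ l) x y → 0 < F x y

/-- two walks, of lengths `b` from `x` and `a` from `y`, which meet at a common vertex -/
noncomputable def lam (A : Matrix S S ℝ) (b a : ℕ) (rx ry : S → ℝ) : S → S → ℝ :=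
  glue (fun x z => rx x * (A ^ b) x z) (fun z y => ry y * (A ^ a) y z)
    (fun z => ∑ x, rx x * (A ^ b) x z)

/-- the lower bound in the property `QK` -/
noncomputable def QB (A : Matrix S S ℝ) (μ : S → ℝ) (b a : ℕ) (rx ry : S → ℝ) : ℝ :=
  EL (lam A b a rx ry) (lam A b a rx ry) - E1 rx - E1 ry +
    E1 (fun z => ∑ x, rx x * (A ^ b) x z) -
    ∑ z, (∑ x, rx x * (A ^ b) x z) * Real.log (μ z)

/-- compatible laws of the two ends -/
structure Cmp (A : Matrix S S ℝ) (c : S → Bool) (b a : ℕ) (rx ry : S → ℝ) : Prop where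
  nx : ∀ x, 0 ≤ rx x
  ny : ∀ y, 0 ≤ ry y
  sx : ∃ s, ∀ x, c x ≠ s → rx x = 0
  sy : ∃ s, ∀ x, c x ≠ s → ry x = 0
  eq : ∀ z, ∑ x, rx x * (A ^ b) x z = ∑ y, ry y * (A ^ a) y z

/-- the property of balanced kernels of length `l` -/
def QK (A : Matrix S S ℝ) (μ : S → ℝ) (c : S → Bool) (l : ℕ) (F : S → S → ℝ) : Prop :=
  ∀ (b a : ℕ) (rx ry : S → ℝ), a + b = l → Cmp A c b a rx ry →
    QB A μ b a rx ry ≤ EL (lam A b a rx ry) F

theorem EL_swap (r F : S → S → ℝ) : EL (fun x y => r y x) (fun x y => F y x) = EL r F :=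
  Finset.sum_comm

theorem EL_mul {r F G : S → S → ℝ} (hr : ∀ x y, 0 ≤ r x y) (hF : ∀ x y, 0 < r x y → 0 < F x y)
    (hG : ∀ x y, 0 < r x y → 0 < G x y) :
    EL r (fun x y => F x y * G x y) = EL r F + EL r G := by
  unfold EL
  simp only [← Finset.sum_add_distrib]
  refine Finset.sum_congr rfl fun x _ => Finset.sum_congr rfl fun y _ => ?_
  rcases (hr x y).eq_or_lt with h0 | h0
  · rw [← h0]; ring
  · rw [Real.log_mul (hF x y h0).ne' (hG x y h0).ne']; ring

theorem Cmp.symm {A : Matrix S S ℝ} {c : S → Bool} {b a : ℕ} {rx ry : S → ℝ}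
    (h : Cmp A c b a rx ry) : Cmp A c a b ry rx :=
  ⟨h.ny, h.nx, h.sy, h.sx, fun z => (h.eq z).symm⟩

theorem Cmp.sg_eq {A : Matrix S S ℝ} {c : S → Bool} {b a : ℕ} {rx ry : S → ℝ}
    (h : Cmp A c b a rx ry) :
    (fun z => ∑ x, rx x * (A ^ b) x z) = (fun z => ∑ y, ry y * (A ^ a) y z) := funext h.eq

theorem Cmp.lam_swap {A : Matrix S S ℝ} {c : S → Bool} {b a : ℕ} {rx ry : S → ℝ}
    (h : Cmp A c b a rx ry) : lam A a b ry rx = fun x y => lam A b a rx ry y x := by
  funext x y
  unfold lam glue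
  refine Finset.sum_congr rfl fun z _ => ?_
  change ry x * (A ^ a) x z * (rx y * (A ^ b) y z) / (∑ x', ry x' * (A ^ a) x' z) =
    rx y * (A ^ b) y z * (ry x * (A ^ a) x z) / (∑ x', rx x' * (A ^ b) x' z)
  rw [← h.eq z, mul_comm]

theorem Cmp.QB_swap {A : Matrix S S ℝ} {μ : S → ℝ} {c : S → Bool} {b a : ℕ} {rx ry : S → ℝ}
    (h : Cmp A c b a rx ry) : QB A μ a b ry rx = QB A μ b a rx ry := by
  unfold QB
  rw [h.lam_swap, EL_swap (lam A b a rx ry) (lam A b a rx ry), ← h.sg_eq]
  simp only [← h.eq]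
  ring

theorem QK.symm {A : Matrix S S ℝ} {μ : S → ℝ} {c : S → Bool} {l : ℕ} {F : S → S → ℝ}
    (h : QK A μ c l F) : QK A μ c l (fun x y => F y x) := by
  intro b a rx ry hl hc
  have h1 := h a b ry rx (by omega) hc.symm
  rw [hc.QB_swap, hc.lam_swap] at h1
  refine h1.trans (le_of_eq ?_)
  exact EL_swap (lam A b a rx ry) (fun x y => F y x)

section

variable {A : Matrix S S ℝ} {μ : S → ℝ} {c : S → Bool} (h : Rev A μ c)

include h

theorem lam_nonneg {b a : ℕ} {rx ry : S → ℝ} (hc : Cmp A c b a rx ry) (x y : S) :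
    0 ≤ lam A b a rx ry x y := by
  unfold lam glue
  refine Finset.sum_nonneg fun z _ => div_nonneg (mul_nonneg ?_ ?_) ?_
  · exact mul_nonneg (hc.nx x) (h.pow_nonneg b x z)
  · exact mul_nonneg (hc.ny y) (h.pow_nonneg a y z)
  · exact Finset.sum_nonneg fun x _ => mul_nonneg (hc.nx x) (h.pow_nonneg b x z)

theorem lam_left {b a : ℕ} {rx ry : S → ℝ} (hc : Cmp A c b a rx ry) (x : S) :
    ∑ y, lam A b a rx ry x y = rx x := by
  unfold lam glue
  rw [Finset.sum_comm]
  have h1 : ∀ z, ∑ y, (rx x * (A ^ b) x z) * (ry y * (A ^ a) y z) /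
      (∑ x', rx x' * (A ^ b) x' z) = rx x * (A ^ b) x z := fun z =>
    glue_aux1 (r := fun x z => rx x * (A ^ b) x z) (q := fun z y => ry y * (A ^ a) y z)
      (om := fun z => ∑ x, rx x * (A ^ b) x z)
      (fun x w => mul_nonneg (hc.nx x) (h.pow_nonneg b x w)) (fun w => rfl)
      (fun w => (hc.eq w).symm) x z
  simp only [h1, ← Finset.mul_sum, h.pow_row, mul_one]

theorem lam_right {b a : ℕ} {rx ry : S → ℝ} (hc : Cmp A c b a rx ry) (y : S) :
    ∑ x, lam A b a rx ry x y = ry y := by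
  have h1 := lam_left h hc.symm y
  rw [hc.lam_swap] at h1
  exact h1

/-- the support of `lam` -/
theorem lam_pos {b a : ℕ} {rx ry : S → ℝ} (hc : Cmp A c b a rx ry) {x y : S}
    (hp : 0 < lam A b a rx ry x y) : 0 < rx x ∧ 0 < ry y ∧ 0 < (A ^ (a + b)) x y := by
  have hle1 : lam A b a rx ry x y ≤ rx x := by
    rw [← lam_left h hc x]
    exact Finset.single_le_sum (f := fun y => lam A b a rx ry x y)
      (fun y _ => lam_nonneg h hc x y) (mem_univ y)
  have hle2 : lam A b a rx ry x y ≤ ry y := by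
    rw [← lam_right h hc y]
    exact Finset.single_le_sum (f := fun x => lam A b a rx ry x y)
      (fun x _ => lam_nonneg h hc x y) (mem_univ x)
  refine ⟨hp.trans_le hle1, hp.trans_le hle2, ?_⟩
  obtain ⟨z, _, hz⟩ : ∃ z ∈ (univ : Finset S), 0 < (rx x * (A ^ b) x z) * (ry y * (A ^ a) y z) /
      (∑ x', rx x' * (A ^ b) x' z) := by
    by_contra hne
    push Not at hne
    exact absurd hp (not_lt.2 (Finset.sum_nonpos hne))
  have hb : (A ^ b) x z ≠ 0 := by
    intro h0
    rw [h0, mul_zero, zero_mul, zero_div] at hz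
    exact lt_irrefl _ hz
  have ha : (A ^ a) y z ≠ 0 := by
    intro h0
    rw [h0, mul_zero, mul_zero, zero_div] at hz
    exact lt_irrefl _ hz
  have hb' : 0 < (A ^ b) x z := lt_of_le_of_ne (h.pow_nonneg b x z) hb.symm
  have ha' : 0 < (A ^ a) y z := lt_of_le_of_ne (h.pow_nonneg a y z) ha.symm
  have ha2 : 0 < (A ^ a) z y := by
    have h1 := h.pow_rev a z y
    have h2 : 0 < μ z * (A ^ a) z y := by
      rw [h1]; exact mul_pos (h.pos y) ha'
    exact (mul_pos_iff_of_pos_left (h.pos z)).1 h2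
  rw [add_comm, pow_add, Matrix.mul_apply]
  exact Finset.sum_pos' (fun w _ => mul_nonneg (h.pow_nonneg _ _ _) (h.pow_nonneg _ _ _))
    ⟨z, mem_univ z, mul_pos hb' ha2⟩

theorem Cmp.side {b a : ℕ} {rx ry : S → ℝ} (hc : Cmp A c b a rx ry) :
    ∃ t, ∀ z, c z ≠ t → ∑ x, rx x * (A ^ b) x z = 0 := by
  obtain ⟨s, hs⟩ := hc.sx
  refine ⟨xor s (decide (b % 2 = 1)), fun z hz => Finset.sum_eq_zero fun x _ => ?_⟩
  by_cases hx : c x = s
  · rw [h.pow_alt b x z (by rw [hx]; exact hz), mul_zero]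
  · rw [hs x hx, zero_mul]

/-- the lower bound is not negative -/
theorem QB_nonneg {b a : ℕ} {rx ry : S → ℝ} (hc : Cmp A c b a rx ry) :
    0 ≤ QB A μ b a rx ry := by
  set m := ∑ x, rx x with hm
  have hmy : ∑ y, ry y = m := by
    have h1 : ∑ y, ∑ x, lam A b a rx ry x y = ∑ x, ∑ y, lam A b a rx ry x y := Finset.sum_comm
    simp only [lam_left h hc, lam_right h hc] at h1
    exact h1
  have hsum : ∑ x, ∑ y, lam A b a rx ry x y = m := by simp only [lam_left h hc, hm]
  -- mutual information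
  have g1 := gibbs (univ : Finset (S × S)) (fun p => lam A b a rx ry p.1 p.2)
    (fun p => rx p.1 * ry p.2) (fun p _ => lam_nonneg h hc _ _)
    (fun p _ => mul_nonneg (hc.nx _) (hc.ny _))
    (fun p _ hp => by
      obtain ⟨a1, a2, _⟩ := lam_pos h hc hp
      exact mul_pos a1 a2)
  simp only [Fintype.sum_prod_type, hsum] at g1
  have e1 : ∑ x, ∑ y, rx x * ry y = m * m := by
    simp only [← Finset.mul_sum, hmy, ← Finset.sum_mul, ← hm]
  have e2 : ∑ x, ∑ y, lam A b a rx ry x y * (Real.log (rx x * ry y) -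
      Real.log (lam A b a rx ry x y)) = E1 rx + E1 ry - EL (lam A b a rx ry) (lam A b a rx ry) := by
    have t1 : ∀ x y, lam A b a rx ry x y * (Real.log (rx x * ry y) -
        Real.log (lam A b a rx ry x y)) = lam A b a rx ry x y * Real.log (rx x) +
        lam A b a rx ry x y * Real.log (ry y) -
        lam A b a rx ry x y * Real.log (lam A b a rx ry x y) := by
      intro x y
      rcases (lam_nonneg h hc x y).eq_or_lt with h0 | h0
      · rw [← h0]; ring
      · obtain ⟨a1, a2, _⟩ := lam_pos h hc h0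
        rw [Real.log_mul a1.ne' a2.ne']; ring
    simp only [t1, Finset.sum_add_distrib, Finset.sum_sub_distrib]
    have t2 : ∑ x, ∑ y, lam A b a rx ry x y * Real.log (rx x) = E1 rx := by
      unfold E1
      exact Finset.sum_congr rfl fun x _ => by rw [← Finset.sum_mul, lam_left h hc]
    have t3 : ∑ x, ∑ y, lam A b a rx ry x y * Real.log (ry y) = E1 ry := by
      unfold E1
      rw [Finset.sum_comm]
      exact Finset.sum_congr rfl fun x _ => by rw [← Finset.sum_mul, lam_right h hc]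
    rw [t2, t3]
    rfl
  rw [e1, e2] at g1
  have e3 : m * (Real.log (m * m) - Real.log m) = m * Real.log m := by
    by_cases h0 : m = 0
    · rw [h0]; ring
    · rw [Real.log_mul h0 h0]; ring
  rw [e3] at g1
  -- relative entropy of the middle
  obtain ⟨t, ht⟩ := Cmp.side h hc
  have hsgm : ∑ z, ∑ x, rx x * (A ^ b) x z = m := by
    rw [Finset.sum_comm]
    simp only [← Finset.mul_sum, h.pow_row, mul_one, ← hm]
  have g2 := gibbs (univ : Finset S) (fun z => ∑ x, rx x * (A ^ b) x z)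
    (fun z => if c z = t then μ z else 0)
    (fun z _ => Finset.sum_nonneg fun x _ => mul_nonneg (hc.nx x) (h.pow_nonneg b x z))
    (fun z _ => by
      by_cases hz : c z = t
      · rw [if_pos hz]; exact (h.pos z).le
      · rw [if_neg hz])
    (fun z _ hz0 => by
      by_cases hz : c z = t
      · rw [if_pos hz]; exact h.pos z
      · exact absurd (ht z hz) hz0.ne')
  rw [h.mass t, hsgm, Real.log_one] at g2
  have e4 : ∑ z, (∑ x, rx x * (A ^ b) x z) * (Real.log (if c z = t then μ z else 0) -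
      Real.log (∑ x, rx x * (A ^ b) x z)) =
      ∑ z, (∑ x, rx x * (A ^ b) x z) * Real.log (μ z) -
        E1 (fun z => ∑ x, rx x * (A ^ b) x z) := by
    unfold E1
    rw [← Finset.sum_sub_distrib]
    refine Finset.sum_congr rfl fun z _ => ?_
    by_cases hz : c z = t
    · rw [if_pos hz]; ring
    · simp only [ht z hz]; ring
  rw [e4] at g2
  unfold QB
  linarith

end

end Vale.Agent.P050.SP
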