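import Vale.Agent.P050.R4.H153.MfDef

/-!
# P050, frames: the cube

The cube is a frame: a ladder with three rungs is a frame, and the two ends of the rung in the
middle are copied; the two other rungs are not doubled.
-/

namespace Vale.Agent.P050.SP

variable {C : SP → ℕ → Prop} {K : SP → Prop}

/-- a new edge at `a`, all vertices recorded -/
theorem MFrame.pen_univ {V : Type} {L E : Multiset (V × ℕ × V)} {a : V} {d : ℕ}
    (h : MFrame C K L 0 {(Set.univ, E)} ∅) (hd : 0 < d) :
    MFrame C K ((Sum.inl a, d, Sum.inr ()) ::ₘ L.map (emap .inl)) 0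
      {(Set.univ, (Sum.inl a, d, Sum.inr ()) ::ₘ E.map (emap .inl))} ∅ := by
  refine (h.pen (Set.mem_singleton _) (Set.mem_univ a) hd).weak ?_ (by simp)
  rintro r' rfl
  refine ⟨_, Or.inr ⟨Set.univ, E, Set.mem_singleton _, Set.mem_univ a, rfl⟩, ?_⟩
  have h1 : (Sum.inl '' (Set.univ : Set V) ∪ {Sum.inr ()} : Set (V ⊕ Unit)) = Set.univ := by
    ext x
    rcases x with x | x <;> simp
  rw [h1]
  exact .refl _

/-- a path with two edges -/
abbrev cherry {V : Type} (x p y : V) (a b : ℕ) : Set V × Multiset (V × ℕ × V) :=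
  ({x, p, y}, (x, b, y) ::ₘ {(x, a, p)})

theorem cherry_left {V : Type} {x p y : V} {a b : ℕ} (hp : x ≠ p) (hy : x ≠ y) (hpy : p ≠ y) :
    TDer (cherry x p y a b) ({x, p}, {(x, a, p)}) := by
  have t : TDer (cherry x p y a b) (({x, p, y} \ {y} : Set V), {(x, a, p)}) := by
    refine .prune hy ?_
    intro q hq
    rw [Multiset.mem_singleton] at hq
    subst hq
    exact ⟨hy, hpy⟩
  have h1 : (({x, p, y} : Set V) \ {y}) = {x, p} := by
    ext z
    simp only [Set.mem_sdiff, Set.mem_insert_iff, Set.mem_singleton_iff]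
    constructor
    · rintro ⟨h | h | h, h2⟩
      · exact .inl h
      · exact .inr h
      · exact absurd h h2
    · rintro (rfl | rfl)
      · exact ⟨.inl rfl, hy⟩
      · exact ⟨.inr (.inl rfl), hpy⟩
  rw [h1] at t
  exact t

theorem cherry_right {V : Type} {x p y : V} {a b : ℕ} (hp : x ≠ p) (hy : x ≠ y) (hpy : p ≠ y) :
    TDer (cherry x p y a b) ({x, y}, {(x, b, y)}) := by
  have h := cherry_left (a := b) (b := a) hy hp hpy.symm
  have h1 : cherry x y p b a = cherry x p y a b := by
    have e1 : ({x, y, p} : Set V) = {x, p, y} := by ext z; simp; tauto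
    have e2 : (x, a, p) ::ₘ ({(x, b, y)} : Multiset (V × ℕ × V)) = (x, b, y) ::ₘ {(x, a, p)} := by
      rw [← Multiset.cons_zero (x, b, y), ← Multiset.cons_zero (x, a, p), Multiset.cons_swap]
    simp only [cherry, e1, e2]
  rw [h1] at h
  exact h

/-- the middle vertex of a recorded path is cloned -/
theorem MFrame.cherry {V : Type} {L : Multiset (V × ℕ × V)}
    {R : Set (Set V × Multiset (V × ℕ × V))} {x p y : V} {a b : ℕ} (hp : x ≠ p) (hy : x ≠ y)
    (h : MFrame C K L 0 R ∅) (hr : SP.cherry x p y a b ∈ R) :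
    MFrame C K (L.map (emap .inl) + ((.inr (), b, .inl y) ::ₘ {(.inr (), a, .inl p)})) 0
      (oldT Unit R ∪ {SP.cherry (.inr ()) (.inl p) (.inl y) a b}) ∅ := by
  classical
  let ρ : V → V ⊕ Unit := fun v => if v = x then .inr () else .inl v
  have hx : ρ x = .inr () := if_pos rfl
  have hρ : ∀ v, v ≠ x → ρ v = .inl v := fun v hv => if_neg hv
  have hE : ((x, b, y) ::ₘ {(x, a, p)} : Multiset (V × ℕ × V)).map (emap ρ) =
      (.inr (), b, .inl y) ::ₘ {(.inr (), a, .inl p)} := by
    simp only [Multiset.map_cons, Multiset.map_singleton, emap, hx, hρ p hp.symm, hρ y hy.symm]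
  have h1 := h.clone (N := Unit) (g := fun _ => x) (ρ := ρ) hr
    (by
      intro q hq
      simp only [Multiset.mem_cons, Multiset.mem_singleton] at hq
      rcases hq with rfl | rfl <;> simp)
    (fun _ => hx) (fun v hv => hρ v fun e => hv () e.symm)
  rw [hE] at h1
  refine h1.weak ?_ (by simp)
  rintro r' (hr' | rfl)
  · exact ⟨r', Or.inl hr', .refl _⟩
  · refine ⟨_, Or.inr ⟨{x, p, y}, 0, ?_, ?_, fun p hp => absurd hp (Multiset.notMem_zero p),
      rfl⟩, ?_⟩
    · rw [add_zero]; exact hr
    · intro q hq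
      simp only [Multiset.mem_cons, Multiset.mem_singleton] at hq
      rcases hq with rfl | rfl <;> simp
    · have h2 : tmap ρ (({x, p, y} : Set V), ((x, b, y) ::ₘ {(x, a, p)}) + 0) =
          SP.cherry (.inr ()) (.inl p) (.inl y) a b := by
        simp only [tmap, add_zero]
        rw [hE]
        simp only [Set.image_insert_eq, Set.image_singleton, hx, hρ p hp.symm, hρ y hy.symm,
          SP.cherry]
      rw [h2]
      exact .refl _

/-- many edges are replaced by tight parts -/
theorem MFrame.reals {V : Type} {L : Multiset (V × ℕ × V)} {M Q : Multiset (V × SP × V)}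
    {R : Set (Set V × Multiset (V × ℕ × V))} {B : Set (Blk V)}
    (h : MFrame C K (Q.map plen + L) M R B)
    (hQ : ∀ q ∈ Q, ({q.1, q.2.2}, {plen q}) ∈ R ∧ q.1 ≠ q.2.2 ∧ C q.2.1 (len q.2.1)) :
    MFrame C K L (Q + M) R B := by
  induction Q using Multiset.induction_on generalizing M with
  | empty => simpa using h
  | cons q Q ih =>
    obtain ⟨h1, h2, h3⟩ := hQ q (Multiset.mem_cons_self _ _)
    rw [Multiset.map_cons, Multiset.cons_add] at h
    have h4 := ih (h.real h1 h2 h3) fun p hp => hQ p (Multiset.mem_cons_of_mem hp)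
    obtain ⟨u, e, v⟩ := q
    rwa [Multiset.add_cons, ← Multiset.cons_add] at h4

namespace Q3

/-- the vertices of the star -/
abbrev V4 : Type := ((Unit ⊕ Unit) ⊕ Unit) ⊕ Unit

/-- the vertices of the ladder -/
abbrev V6 : Type := (V4 ⊕ Unit) ⊕ Unit

/-- the vertex `100` -/
abbrev x : V6 := .inl (.inl (.inl (.inl (.inl ()))))

/-- the vertex `000` -/
abbrev p : V6 := .inl (.inl (.inl (.inl (.inr ()))))

/-- the vertex `101` -/
abbrev y : V6 := .inl (.inl (.inl (.inr ())))

/-- the vertex `110` -/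
abbrev q : V6 := .inl (.inl (.inr ()))

/-- the vertex `001` -/
abbrev x' : V6 := .inl (.inr ())

/-- the vertex `111` -/
abbrev x'' : V6 := .inr ()

/-- the edges of the ladder except two rungs -/
abbrev E (a b c : ℕ) : Multiset (V6 × ℕ × V6) :=
  {(x, c, q), (x, b, y), (x, a, p), (x', b, y), (x'', b, y)}

/-- two rungs -/
abbrev F (a c : ℕ) : Multiset (V6 × ℕ × V6) := {(x', a, p), (x'', c, q)}

/-- all edges recorded -/
abbrev edgeR {V : Type} (L : Multiset (V × ℕ × V)) : Set (Set V × Multiset (V × ℕ × V)) :=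
  {r | ∃ e ∈ L, r = ({e.1, e.2.2}, {e})}

theorem ladder {a b c : ℕ} (ha : 0 < a) (hb : 0 < b) (hc : 0 < c) :
    MFrame C K (E a b c + F a c) 0 (edgeR (E a b c + F a c))
      {(Set.univ, E a b c + F a c, 0)} := by
  have h1 := ((MFrame.point (C := C) (K := K)).pen_univ (a := ()) ha).pen_univ (a := .inl ()) hb
  have h2 := h1.pen_univ (a := .inl (.inl ())) hc
  -- two paths of the star
  have h3 : MFrame C K ((Sum.inl (.inl (.inl ())), c, Sum.inr ()) ::ₘ
      (Sum.inl (.inl (.inl ())), b, Sum.inl (.inr ())) ::ₘ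
        ({(Sum.inl (.inl (.inl ())), a, Sum.inl (.inl (.inr ())))} : Multiset (V4 × ℕ × V4))) 0
      {cherry (.inl (.inl (.inl ()))) (.inl (.inl (.inr ()))) (.inl (.inr ())) a b,
        cherry (.inl (.inl (.inl ()))) (.inr ()) (.inl (.inr ())) c b} ∅ := by
    have hE : ((Sum.inl (.inl (.inl ())), c, Sum.inr ()) ::ₘ
      (Sum.inl (.inl (.inl ())), b, Sum.inl (.inr ())) ::ₘ
        ({(Sum.inl (.inl (.inl ())), a, Sum.inl (.inl (.inr ())))} : Multiset (V4 × ℕ × V4))) =
        ((Sum.inl (Sum.inl (Sum.inl ())), c, Sum.inr ()) ::ₘ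
          ((Sum.inl (Sum.inl ()), b, Sum.inr ()) ::ₘ
            ((Sum.inl (), a, Sum.inr ()) ::ₘ (0 : Multiset (Unit × ℕ × Unit)).map
              (emap Sum.inl)).map (emap Sum.inl)).map (emap Sum.inl)) := by
      simp [emap]
    rw [hE]
    refine h2.weak ?_ (by simp)
    rw [← hE]
    have hu : (Set.univ : Set V4) = {.inl (.inl (.inl ())), .inl (.inl (.inr ())),
        .inl (.inr ()), .inr ()} := by
      ext z
      rcases z with ((z | z) | z) | z <;> simp
    rintro r' (rfl | rfl)
    · refine ⟨_, Set.mem_singleton _, ?_⟩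
      have t : TDer ((Set.univ : Set V4), (Sum.inl (.inl (.inl ())), c, Sum.inr ()) ::ₘ
          (Sum.inl (.inl (.inl ())), b, Sum.inl (.inr ())) ::ₘ
          ({(Sum.inl (.inl (.inl ())), a, Sum.inl (.inl (.inr ())))} : Multiset (V4 × ℕ × V4)))
          ((Set.univ : Set V4) \ {.inr ()}, (Sum.inl (.inl (.inl ())), b, Sum.inl (.inr ())) ::ₘ
          ({(Sum.inl (.inl (.inl ())), a, Sum.inl (.inl (.inr ())))} :
            Multiset (V4 × ℕ × V4))) := by
        refine .prune (by simp) ?_
        intro e he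
        simp only [Multiset.mem_cons, Multiset.mem_singleton] at he
        rcases he with rfl | rfl <;> simp
      have hs : ((Set.univ : Set V4) \ {.inr ()}) =
          {.inl (.inl (.inl ())), .inl (.inl (.inr ())), .inl (.inr ())} := by
        ext z
        rcases z with ((z | z) | z) | z <;> simp
      rw [hs] at t
      exact t
    · refine ⟨_, Set.mem_singleton _, ?_⟩
      have hm : ((Sum.inl (.inl (.inl ())), c, Sum.inr ()) ::ₘ
          (Sum.inl (.inl (.inl ())), b, Sum.inl (.inr ())) ::ₘ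
          ({(Sum.inl (.inl (.inl ())), a, Sum.inl (.inl (.inr ())))} :
            Multiset (V4 × ℕ × V4))) =
          (Sum.inl (.inl (.inl ())), a, Sum.inl (.inl (.inr ()))) ::ₘ
          (Sum.inl (.inl (.inl ())), b, Sum.inl (.inr ())) ::ₘ
          {(Sum.inl (.inl (.inl ())), c, Sum.inr ())} := by
        simp only [← Multiset.singleton_add]
        abel
      have t : TDer ((Set.univ : Set V4), (Sum.inl (.inl (.inl ())), a,
          Sum.inl (.inl (.inr ()))) ::ₘ (Sum.inl (.inl (.inl ())), b, Sum.inl (.inr ())) ::ₘ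
          ({(Sum.inl (.inl (.inl ())), c, Sum.inr ())} : Multiset (V4 × ℕ × V4)))
          ((Set.univ : Set V4) \ {.inl (.inl (.inr ()))},
            (Sum.inl (.inl (.inl ())), b, Sum.inl (.inr ())) ::ₘ
          ({(Sum.inl (.inl (.inl ())), c, Sum.inr ())} : Multiset (V4 × ℕ × V4))) := by
        refine .prune (by simp) ?_
        intro e he
        simp only [Multiset.mem_cons, Multiset.mem_singleton] at he
        rcases he with rfl | rfl <;> simp
      have hs : ((Set.univ : Set V4) \ {.inl (.inl (.inr ()))}) =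
          {.inl (.inl (.inl ())), .inr (), .inl (.inr ())} := by
        ext z
        rcases z with ((z | z) | z) | z <;> simp
      rw [hs] at t
      rw [hm]
      exact t
  have h4 := h3.cherry (p := .inl (.inl (.inr ()))) (by simp) (by simp) (Or.inl rfl)
  have h5 := h4.cherry (x := .inl (.inl (.inl (.inl ())))) (p := .inl (.inr ()))
    (y := .inl (.inl (.inr ()))) (a := c) (b := b) (by simp) (by simp)
    (Or.inl ⟨_, Or.inr rfl, by simp [tmap, emap, Set.image_insert_eq]⟩)
  have hL : ∀ {L' : Multiset (V6 × ℕ × V6)} {R' : Set (Set V6 × Multiset (V6 × ℕ × V6))},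
      MFrame C K L' 0 R' ∅ → L' = E a b c + F a c → MFrame C K (E a b c + F a c) 0 R' ∅ := by
    rintro L' R' h rfl
    exact h
  refine (hL h5 ?_).weak ?_ (by simp)
  · simp only [E, F, Multiset.map_singleton, emap, Multiset.map_add, Multiset.insert_eq_cons,
      ← Multiset.singleton_add]
    abel
  rintro r' ⟨e, he, rfl⟩
  simp only [E, F, Multiset.mem_add, Multiset.insert_eq_cons, Multiset.mem_cons,
    Multiset.mem_singleton] at he
  have e1 : cherry x p y a b ∈ (oldT Unit (oldT Unit
      ({cherry (.inl (.inl (.inl ()))) (.inl (.inl (.inr ()))) (.inl (.inr ())) a b,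
        cherry (.inl (.inl (.inl ()))) (.inr ()) (.inl (.inr ())) c b} :
          Set (Set V4 × Multiset (V4 × ℕ × V4))) ∪
      {cherry (.inr ()) (.inl (.inl (.inl (.inr ())))) (.inl (.inl (.inr ()))) a b}) ∪
      {cherry (.inr ()) (.inl (.inl (.inr ()))) (.inl (.inl (.inl (.inr ())))) c b} :
        Set (Set V6 × Multiset (V6 × ℕ × V6))) := by
    refine Or.inl ⟨_, Or.inl ⟨_, Or.inl rfl, rfl⟩, ?_⟩
    simp [tmap, emap, Set.image_insert_eq]
  have e2 : cherry x q y c b ∈ (oldT Unit (oldT Unit
      ({cherry (.inl (.inl (.inl ()))) (.inl (.inl (.inr ()))) (.inl (.inr ())) a b,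
        cherry (.inl (.inl (.inl ()))) (.inr ()) (.inl (.inr ())) c b} :
          Set (Set V4 × Multiset (V4 × ℕ × V4))) ∪
      {cherry (.inr ()) (.inl (.inl (.inl (.inr ())))) (.inl (.inl (.inr ()))) a b}) ∪
      {cherry (.inr ()) (.inl (.inl (.inr ()))) (.inl (.inl (.inl (.inr ())))) c b} :
        Set (Set V6 × Multiset (V6 × ℕ × V6))) := by
    refine Or.inl ⟨_, Or.inl ⟨_, Or.inr rfl, rfl⟩, ?_⟩
    simp [tmap, emap, Set.image_insert_eq]
  have e3 : cherry x' p y a b ∈ (oldT Unit (oldT Unit
      ({cherry (.inl (.inl (.inl ()))) (.inl (.inl (.inr ()))) (.inl (.inr ())) a b,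
        cherry (.inl (.inl (.inl ()))) (.inr ()) (.inl (.inr ())) c b} :
          Set (Set V4 × Multiset (V4 × ℕ × V4))) ∪
      {cherry (.inr ()) (.inl (.inl (.inl (.inr ())))) (.inl (.inl (.inr ()))) a b}) ∪
      {cherry (.inr ()) (.inl (.inl (.inr ()))) (.inl (.inl (.inl (.inr ())))) c b} :
        Set (Set V6 × Multiset (V6 × ℕ × V6))) := by
    refine Or.inl ⟨_, Or.inr rfl, ?_⟩
    simp [tmap, emap, Set.image_insert_eq]
  rcases he with (rfl | rfl | rfl | rfl | rfl) | (rfl | rfl)
  · exact ⟨_, e2, cherry_left (by simp) (by simp) (by simp)⟩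
  · exact ⟨_, e1, cherry_right (by simp) (by simp) (by simp)⟩
  · exact ⟨_, e1, cherry_left (by simp) (by simp) (by simp)⟩
  · exact ⟨_, e3, cherry_right (by simp) (by simp) (by simp)⟩
  · exact ⟨_, Or.inr rfl, cherry_right (by simp) (by simp) (by simp)⟩
  · exact ⟨_, e3, cherry_left (by simp) (by simp) (by simp)⟩
  · exact ⟨_, Or.inr rfl, cherry_left (by simp) (by simp) (by simp)⟩

/-- the copies of the vertices `100` and `101` are `010` and `011` -/
abbrev cl : Bool → V6
  | false => x
  | true => y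

/-- the vertices of the cube -/
abbrev V8 : Type := V6 ⊕ Bool

/-- the vertices `100` and `101` are sent to their copies -/
abbrev rho : V6 → V8
  | .inl (.inl (.inl (.inl (.inl ())))) => .inr false
  | .inl (.inl (.inl (.inr ()))) => .inr true
  | v => .inl v

/-- the edges of the cube -/
abbrev cube (a b c : ℕ) : Multiset (V8 × ℕ × V8) :=
  {(.inl x, c, .inl q), (.inl x, b, .inl y), (.inl x, a, .inl p), (.inl x', b, .inl y),
    (.inl x'', b, .inl y), (.inl x', a, .inl p), (.inl x'', c, .inl q), (.inr false, c, .inl q),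
    (.inr false, b, .inr true), (.inr false, a, .inl p), (.inl x', b, .inr true),
    (.inl x'', b, .inr true)}

/-- The cube is a frame: the edges at one vertex have the length `a`, the edges at the opposite
vertex of one side have the length `c`, and the other edges have the length `b`. -/
theorem frame {a b c : ℕ} (ha : 0 < a) (hb : 0 < b) (hc : 0 < c) :
    MFrame C K (cube a b c) 0 (edgeR (cube a b c)) ∅ := by
  have h1 := (ladder (C := C) (K := K) ha hb hc).copy (N := Bool) (g := cl) (ρ := rho)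
    (Set.mem_singleton _) (fun _ _ => ⟨Set.mem_univ _, Set.mem_univ _⟩)
    (fun q hq => absurd hq (Multiset.notMem_zero q))
    (by
      intro e he n
      simp only [F, Multiset.insert_eq_cons, Multiset.mem_cons, Multiset.mem_singleton] at he
      rcases he with rfl | rfl <;> cases n <;> simp [cl])
    (by
      have f1 : Forest ({(x'', c, q)} : Multiset (V6 × ℕ × V6)) :=
        .leaf (by simp) (fun e he => absurd he (Multiset.notMem_zero e)) .nil
      refine .leaf (by simp) ?_ f1
      intro e he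
      rw [Multiset.mem_singleton] at he
      subst he
      simp)
    (by intro n; cases n <;> rfl)
    (by
      rintro (((((v | v) | v) | v) | v) | v) hv
      · exact absurd rfl (hv false)
      · rfl
      · exact absurd rfl (hv true)
      · rfl
      · rfl
      · rfl)
  have hL : ∀ {L' : Multiset (V8 × ℕ × V8)} {M' : Multiset (V8 × SP × V8)}
      {R' : Set (Set V8 × Multiset (V8 × ℕ × V8))} {B' : Set (Blk V8)},
      MFrame C K L' M' R' B' → L' = cube a b c → M' = 0 → MFrame C K (cube a b c) 0 R' B' := by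
    rintro L' M' R' B' h rfl rfl
    exact h
  refine (hL h1 ?_ (by simp)).weak ?_ (by simp)
  · simp only [cube, E, F, Multiset.map_singleton, emap, Multiset.map_add,
      Multiset.insert_eq_cons, ← Multiset.singleton_add]
    abel
  rintro r' ⟨e, he, rfl⟩
  have old : ∀ e₀ ∈ E a b c + F a c,
      (({.inl e₀.1, .inl e₀.2.2}, {(.inl e₀.1, e₀.2.1, .inl e₀.2.2)}) :
        Set V8 × Multiset (V8 × ℕ × V8)) ∈ copyT (edgeR (E a b c + F a c)) Set.univ rho := by
    intro e₀ he₀
    refine Or.inl ⟨_, ⟨e₀, he₀, rfl⟩, ?_⟩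
    simp [tmap, emap, Set.image_insert_eq]
  have new : ∀ e₀ ∈ E a b c + F a c,
      (({rho e₀.1, rho e₀.2.2}, {(rho e₀.1, e₀.2.1, rho e₀.2.2)}) :
        Set V8 × Multiset (V8 × ℕ × V8)) ∈ copyT (edgeR (E a b c + F a c)) Set.univ rho := by
    intro e₀ he₀
    refine Or.inr ⟨_, ⟨e₀, he₀, rfl⟩, Set.subset_univ _, ?_⟩
    simp [tmap, emap, Set.image_insert_eq]
  simp only [cube, Multiset.insert_eq_cons, Multiset.mem_cons, Multiset.mem_singleton] at he
  rcases he with rfl | rfl | rfl | rfl | rfl | rfl | rfl | rfl | rfl | rfl | rfl | rfl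
  · exact ⟨_, old (x, c, q) (by simp), .refl _⟩
  · exact ⟨_, old (x, b, y) (by simp), .refl _⟩
  · exact ⟨_, old (x, a, p) (by simp), .refl _⟩
  · exact ⟨_, old (x', b, y) (by simp), .refl _⟩
  · exact ⟨_, old (x'', b, y) (by simp), .refl _⟩
  · exact ⟨_, old (x', a, p) (by simp), .refl _⟩
  · exact ⟨_, old (x'', c, q) (by simp), .refl _⟩
  · exact ⟨_, new (x, c, q) (by simp), .refl _⟩
  · exact ⟨_, new (x, b, y) (by simp), .refl _⟩
  · exact ⟨_, new (x, a, p) (by simp), .refl _⟩
  · exact ⟨_, new (x', b, y) (by simp), .refl _⟩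
  · exact ⟨_, new (x'', b, y) (by simp), .refl _⟩

/-- the cube with its edges replaced by the parts `e 0`, …, `e 11` -/
abbrev parts (e : Fin 12 → SP) : Multiset (V8 × SP × V8) :=
  {(.inl x, e 0, .inl q), (.inl x, e 1, .inl y), (.inl x, e 2, .inl p), (.inl x', e 3, .inl y),
    (.inl x'', e 4, .inl y), (.inl x', e 5, .inl p), (.inl x'', e 6, .inl q),
    (.inr false, e 7, .inl q), (.inr false, e 8, .inr true), (.inr false, e 9, .inl p),
    (.inl x', e 10, .inr true), (.inl x'', e 11, .inr true)}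

/-- Every edge of the cube may be replaced by its own tight part of length `d`. -/
theorem cube_parts {d : ℕ} (hd : 0 < d) {e : Fin 12 → SP} (he : ∀ i, len (e i) = d)
    (hC : ∀ i, C (e i) d) : MFrG C K (⊥ : SimpleGraph V8) (parts e) := by
  have h2 : (parts e).map plen = cube d d d := by
    simp [parts, plen, he]
  have h1 : MFrame C K ((parts e).map plen + 0) 0 (edgeR (cube d d d)) ∅ := by
    rw [h2, add_zero]
    exact frame hd hd hd
  have h3 := h1.reals fun r hr => by
    refine ⟨⟨plen r, ?_, rfl⟩, ?_⟩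
    · rw [← h2]
      exact Multiset.mem_map_of_mem plen hr
    · simp only [parts, Multiset.insert_eq_cons, Multiset.mem_cons, Multiset.mem_singleton] at hr
      rcases hr with rfl | rfl | rfl | rfl | rfl | rfl | rfl | rfl | rfl | rfl | rfl | rfl <;>
        exact ⟨by simp, by rw [he]; exact hC _⟩
  rw [add_zero] at h3
  exact .frame h3

end Q3

end Vale.Agent.P050.SP
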