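import Vale.Agent.P050.R4.H859.Q3Ex
import Vale.Agent.P050.R4.H345.AptDef

/-!
# P050, frames: the cube with edges replaced by pairs of paths of different lengths
-/

namespace Vale.Agent.P050.SP

/-- parts may be attached if there are no double edges -/
theorem MFrG.all {C : SP → ℕ → Prop} {K : SP → Prop} {V : Type} {H : SimpleGraph V}
    {M : Multiset (V × SP × V)} (h : MFrG C K H M)
    (hM : ∀ q ∈ M, q.1 ≠ q.2.2 ∧ simple q.2.1 ∧ ¬ direct q.2.1) :
    ∃ (V' : Type) (H' : SimpleGraph V'), MFrG C K H' 0 := by
  induction hn : M.card generalizing V with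
  | zero =>
    rw [Multiset.card_eq_zero] at hn
    subst hn
    exact ⟨V, H, h⟩
  | succ n ih =>
    obtain ⟨q, hq⟩ := Multiset.card_pos_iff_exists_mem.1 (show 0 < M.card by omega)
    obtain ⟨M', rfl⟩ := Multiset.exists_cons_of_mem hq
    obtain ⟨u, e, v⟩ := q
    obtain ⟨h1, h2, h3⟩ := hM (u, e, v) (Multiset.mem_cons_self _ _)
    refine ih (h.att h1 h2 fun h => h3 h.1) ?_ ?_
    · intro p hp
      obtain ⟨p₀, hp₀, rfl⟩ := Multiset.mem_map.1 hp
      obtain ⟨g1, g2⟩ := hM p₀ (Multiset.mem_cons_of_mem hp₀)
      exact ⟨fun e => g1 (Sum.inl_injective e), g2⟩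
    · rw [Multiset.card_map]
      rw [Multiset.card_cons] at hn
      omega

namespace Q3

/-- the path with `n + 1` edges -/
def path : ℕ → SP
  | 0 => .edge
  | n + 1 => .ser (path n) .edge

theorem path_len (n : ℕ) : len (path n) = n + 1 := by
  induction n with
  | zero => rfl
  | succ n ih =>
    change len (path n) + 1 = _
    rw [ih]

theorem path_simple (n : ℕ) : simple (path n) := by
  induction n with
  | zero => trivial
  | succ n ih => exact ⟨ih, trivial⟩

theorem path_tight (n : ℕ) : Apt (path n) (.dist (n + 1)) := by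
  induction n with
  | zero => exact .edge
  | succ n ih =>
    refine .polyR (p := 1) (q := 0) ?_ (.side (.bentL .edge)) ?_
    · rw [path_len]; exact ih
    · rw [path_len]

/-- two paths, with 3 and with `5 + 2 * i` edges -/
def two (i : ℕ) : SP := .par (path 2) (.ser (path (3 + i)) (path i))

theorem two_len (i : ℕ) : len (two i) = 3 := by
  change min (len (path 2)) (len (path (3 + i)) + len (path i)) = 3
  rw [path_len, path_len, path_len]
  omega

theorem two_tight (i : ℕ) : Apt (two i) (.dist 3) := by
  refine .par (path_tight 2) (.longR ?_ ?_)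
  · have h := path_tight (3 + i)
    rw [path_len, ← add_assoc]
    exact h
  · rw [path_len]
    exact path_tight i

theorem two_simple (i : ℕ) : simple (two i) :=
  ⟨path_simple _, ⟨path_simple _, path_simple _⟩, fun h => h.2⟩

theorem two_direct (i : ℕ) : ¬ direct (two i) := fun h => h.elim id id

/-- The cube with its edges replaced by pairs of paths, of lengths 3 and 5, 3 and 7, …, 3
and 27. -/
theorem cube_paths {K : SP → Prop} :
    MFrG (fun e d => Apt e (.dist d)) K (⊥ : SimpleGraph V8) (parts fun i => two i) :=
  cube_parts (by norm_num) (fun i => two_len i) fun i => two_tight i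

theorem cube_paths' {K : SP → Prop} :
    ∃ (V' : Type) (H' : SimpleGraph V'), MFrG (fun e d => Apt e (.dist d)) K H' 0 :=
  cube_paths.all fun q hq => by
    simp only [parts, Multiset.insert_eq_cons, Multiset.mem_cons, Multiset.mem_singleton] at hq
    rcases hq with rfl | rfl | rfl | rfl | rfl | rfl | rfl | rfl | rfl | rfl | rfl | rfl <;>
      exact ⟨by simp, two_simple _, two_direct _⟩

end Q3

end Vale.Agent.P050.SP
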