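import Vale.Agent.P050.R4.H153.Glue

/-!
# P050, frames: joint records of two frames glued together
-/

namespace Vale.Agent.P050.SP

open Finset Matrix Vale.Agent.P050.Ears Vale.Agent.P050.Lev

variable {S : Type} [Fintype S] [DecidableEq S] {A : Matrix S S ℝ} {μ : S → ℝ} {c : S → Bool}
variable {V V' N : Type} [Fintype V] [DecidableEq V] [Fintype V'] [DecidableEq V']
variable [Fintype N] [DecidableEq N] {side : V → Bool} {side' : V' → Bool}
variable {P : (V → S) → ℝ} {P' : (V' → S) → ℝ}
variable {g : N → V'} {τ : V' → V} {ρ : V' → V ⊕ N}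

/-- equal densities have equal conditional sums -/
theorem cond_eq (h : Rev A μ c) (hi : Function.Injective g) {U : Set V'}
    {f₁ f₂ : (V' → S) → ℝ}
    (hf : ∀ Φ : (V' → S) → ℝ, Dep U Φ → ∑ x, mus side' μ c x * (f₁ x * Φ x) =
      ∑ x, mus side' μ c x * (f₂ x * Φ x))
    (hK : ∀ v, (∀ n, g n ≠ v) → v ∈ U) {k : V' → S}
    (hk : ∀ v, (∀ n, g n ≠ v) → c (k v) = side' v) {H : (N → S) → ℝ}
    (hH : ∀ y y' : N → S, (∀ n, g n ∈ U → y n = y' n) → H y = H y') :
    ∑ y : N → S, mus (fun n => side' (g n)) μ c y * (f₁ (Function.extend g y k) * H y) =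
      ∑ y : N → S, mus (fun n => side' (g n)) μ c y * (f₂ (Function.extend g y k) * H y) := by
  classical
  let ind : (V' → S) → ℝ := fun x => if ∀ v, (∀ n, g n ≠ v) → x v = k v then 1 else 0
  have iext : ∀ (y : N → S) (x : V' → S), ind (Function.extend g y x) = ind x := by
    intro y x
    have h1 : (∀ v, (∀ n, g n ≠ v) → Function.extend g y x v = k v) ↔
        ∀ v, (∀ n, g n ≠ v) → x v = k v :=
      ⟨fun h1 v hv => by rw [← h1 v hv, ext_off x y hv],
        fun h1 v hv => by rw [ext_off x y hv, h1 v hv]⟩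
    change (if _ then (1 : ℝ) else 0) = if _ then 1 else 0
    by_cases h2 : ∀ v, (∀ n, g n ≠ v) → x v = k v
    · rw [if_pos h2, if_pos (h1.2 h2)]
    · rw [if_neg h2, if_neg fun h3 => h2 (h1.1 h3)]
  have h1 := hf (fun x => ind x * H fun n => x (g n)) fun x x' hx => by
    have e1 : ind x = ind x' := by
      have h1 : (∀ v, (∀ n, g n ≠ v) → x v = k v) ↔ ∀ v, (∀ n, g n ≠ v) → x' v = k v :=
        ⟨fun h1 v hv => by rw [← hx v (hK v hv), h1 v hv],
          fun h1 v hv => by rw [hx v (hK v hv), h1 v hv]⟩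
      change (if _ then (1 : ℝ) else 0) = if _ then 1 else 0
      by_cases h2 : ∀ v, (∀ n, g n ≠ v) → x v = k v
      · rw [if_pos h2, if_pos (h1.1 h2)]
      · rw [if_neg h2, if_neg fun h3 => h2 (h1.2 h3)]
    beta_reduce
    rw [e1, hH (fun n => x (g n)) (fun n => x' (g n)) fun n hn => hx _ hn]
  rw [resample h side' hi fun x => f₁ x * (ind x * H fun n => x (g n)),
    resample h side' hi fun x => f₂ x * (ind x * H fun n => x (g n))] at h1
  have h2 : ∀ f : (V' → S) → ℝ, ∑ x, mus side' μ c x * ∑ y : N → S,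
      mus (fun n => side' (g n)) μ c y * (f (Function.extend g y x) *
        (ind (Function.extend g y x) * H fun n => Function.extend g y x (g n))) =
      (∑ x, mus side' μ c x * ind x) * ∑ y : N → S, mus (fun n => side' (g n)) μ c y *
        (f (Function.extend g y k) * H y) := by
    intro f
    rw [Finset.sum_mul]
    refine Finset.sum_congr rfl fun x _ => ?_
    rw [mul_assoc]
    congr 1
    rw [Finset.mul_sum]
    refine Finset.sum_congr rfl fun y _ => ?_
    have e2 : (fun n => Function.extend g y x (g n)) = y :=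
      funext fun n => hi.extend_apply _ _ _
    rw [iext, e2]
    by_cases hx : ∀ v, (∀ n, g n ≠ v) → x v = k v
    · have e3 : Function.extend g y x = Function.extend g y k := by
        funext v
        by_cases hn : ∃ n, g n = v
        · obtain ⟨n, rfl⟩ := hn
          rw [hi.extend_apply, hi.extend_apply]
        · push Not at hn
          rw [ext_off x y hn, ext_off k y hn, hx v hn]
      rw [e3]
      ring
    · have e4 : ind x = 0 := if_neg hx
      rw [e4]
      ring
  rw [h2, h2] at h1
  refine mul_left_cancel₀ ?_ h1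
  have h3 : ∃ y : N → S, mus (fun n => side' (g n)) μ c y ≠ 0 := by
    by_contra hcon
    push Not at hcon
    have h4 := mus_sum (side := fun n => side' (g n)) h
    rw [Finset.sum_eq_zero fun y _ => hcon y] at h4
    exact zero_ne_one h4
  obtain ⟨y₀, hy⟩ := h3
  refine (Finset.sum_pos' (fun x _ => mul_nonneg (mus_nonneg h _ _) ?_)
    ⟨Function.extend g y₀ k, mem_univ _, mul_pos ?_ ?_⟩).ne'
  · change 0 ≤ if _ then (1 : ℝ) else 0
    split_ifs <;> norm_num
  · refine lt_of_le_of_ne (mus_nonneg h _ _) (Ne.symm ?_)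
    unfold mus
    refine Finset.prod_ne_zero_iff.2 fun v _ => ?_
    by_cases hn : ∃ n, g n = v
    · obtain ⟨n, rfl⟩ := hn
      rw [hi.extend_apply, if_pos (mus_side (μ := μ) hy n)]
      exact (h.pos _).ne'
    · push Not at hn
      rw [ext_off k y₀ hn, if_pos (hk v hn)]
      exact (h.pos _).ne'
  · rw [iext]
    have h5 : ind k = 1 := if_pos fun v _ => rfl
    rw [h5]
    exact one_pos

/-- **Joint records** of two frames glued together: `P'` has the density `f`. -/
theorem MargT.union (h : Rev A μ c) (hg : ∀ n, ρ (g n) = .inr n)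
    (hρ : ∀ v, (∀ n, g n ≠ v) → ρ v = .inl (τ v))
    (hs : ∀ v, (∀ n, g n ≠ v) → side (τ v) = side' v) {f : (V' → S) → ℝ}
    (key : ∀ x, mus side' μ c x * f x = P' x) {U₁ : Set V} {E₁ : Multiset (V × ℕ × V)}
    {U₂ : Set V'} {E₂ E : Multiset (V' × ℕ × V')}
    (h1 : MargT A μ c side P (U₁, E₁ + E.map (emap τ)))
    (h2 : MargT A μ c side' P' (U₂, E₂ + E))
    (hK1 : ∀ v, (∀ n, g n ≠ v) → τ v ∈ U₁) (hK2 : ∀ v, (∀ n, g n ≠ v) → v ∈ U₂)
    (hK : MargT A μ c side' P' ({v | ∀ n, g n ≠ v}, E))
    (hE : ∀ p ∈ E, ∀ n, g n ≠ p.1 ∧ g n ≠ p.2.2) :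
    MargT A μ c (Sum.elim side fun n => side' (g n))
      (extG μ c (fun n => side' (g n)) (fun z : V ⊕ N → S => f fun v => z (ρ v)) P)
      (Sum.inl '' U₁ ∪ ρ '' U₂,
        (E₁ + E.map (emap τ)).map (emap .inl) + E₂.map (emap ρ)) := by
  intro F hF
  have hi := glue_inj hg
  have gx := glue_extend (S := S) hg hρ
  rw [extG_sum']
  -- the total weight
  have hz : ∀ z : V → S, zwG μ c (fun n => side' (g n))
      (fun z : V ⊕ N → S => f fun v => z (ρ v)) z =
      ∑ y : N → S, mus (fun n => side' (g n)) μ c y *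
        (f (Function.extend g y fun v => z (τ v)) * 1) := by
    intro z
    unfold zwG
    refine Finset.sum_congr rfl fun y _ => ?_
    beta_reduce
    rw [gx, mul_one]
  have kext : ∀ (z : V → S) (y : N → S), kapE A μ E (Function.extend g y fun v => z (τ v)) =
      kapE A μ E fun v => z (τ v) := fun z y => kapE_congr fun p hp =>
    ⟨ext_off _ y fun n => (hE p hp n).1, ext_off _ y fun n => (hE p hp n).2⟩
  have dens : ∀ {U : Set V'} {E₀ : Multiset (V' × ℕ × V')}, MargT A μ c side' P' (U, E₀) →
      ∀ Φ : (V' → S) → ℝ, Dep U Φ → ∑ x, mus side' μ c x * (f x * Φ x) =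
        ∑ x, mus side' μ c x * (kapE A μ E₀ x * Φ x) := by
    intro U E₀ hm Φ hΦ
    have e1 := hm Φ hΦ
    simp only [← mul_assoc]
    rw [Finset.sum_congr rfl fun x _ => by rw [key x]]
    exact e1
  have hcz : ∀ z : V → S, mus side μ c z ≠ 0 → ∀ v, (∀ n, g n ≠ v) →
      c (z (τ v)) = side' v := fun z hz0 v hv => by
    rw [mus_side (μ := μ) hz0 (τ v)]
    exact hs v hv
  have hzK : ∀ z : V → S, mus side μ c z ≠ 0 → zwG μ c (fun n => side' (g n))
      (fun z : V ⊕ N → S => f fun v => z (ρ v)) z = kapE A μ E fun v => z (τ v) := by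
    intro z hz0
    rw [hz, cond_eq (H := fun _ => 1) h hi (dens hK) (fun v hv => hv)
      (k := fun v => z (τ v)) (hcz z hz0) fun _ _ _ => rfl]
    simp only [kext, mul_one]
    rw [← Finset.sum_mul, mus_sum h, one_mul]
  -- the first record
  have hG : Dep U₁ fun z => ∑ y : N → S, mus (fun n => side' (g n)) μ c y *
      (fun z : V ⊕ N → S => f fun v => z (ρ v)) (Sum.elim z y) /
        zwG μ c (fun n => side' (g n)) (fun z : V ⊕ N → S => f fun v => z (ρ v)) z *
          F (Sum.elim z y) := by
    intro z z' hzz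
    have e1 : ∀ y : N → S, Function.extend g y (fun v => z (τ v)) =
        Function.extend g y fun v => z' (τ v) := by
      intro y
      funext v
      by_cases hn : ∃ n, g n = v
      · obtain ⟨n, rfl⟩ := hn
        rw [hi.extend_apply, hi.extend_apply]
      · push Not at hn
        rw [ext_off _ y hn, ext_off _ y hn]
        exact hzz _ (hK1 v hn)
    have e2 : ∀ y : N → S, F (Sum.elim z y) = F (Sum.elim z' y) := by
      intro y
      refine hF _ _ fun w hw => ?_
      rcases hw with ⟨v, hv, rfl⟩ | ⟨v, hv, rfl⟩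
      · exact hzz v hv
      · by_cases hn : ∃ n, g n = v
        · obtain ⟨n, rfl⟩ := hn
          rw [hg]
          rfl
        · push Not at hn
          rw [hρ v hn]
          exact hzz _ (hK1 v hn)
    beta_reduce
    rw [hz, hz]
    refine Finset.sum_congr rfl fun y _ => ?_
    simp only [gx, e1, e2]
  rw [h1 _ hG, sum_arrow]
  refine Finset.sum_congr rfl fun z _ => ?_
  by_cases hm0 : mus side μ c z = 0
  · rw [hm0, zero_mul, zero_mul]
    refine (Finset.sum_eq_zero fun y _ => ?_).symm
    rw [mus_sumElim, hm0]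
    ring
  -- the second record
  have e3 := cond_eq (H := fun y => F (Sum.elim z y)) h hi (dens h2) hK2
    (k := fun v => z (τ v)) (hcz z hm0) fun y y' hy => by
      refine hF _ _ fun w hw => ?_
      rcases hw with ⟨v, hv, rfl⟩ | ⟨v, hv, rfl⟩
      · rfl
      · by_cases hn : ∃ n, g n = v
        · obtain ⟨n, rfl⟩ := hn
          rw [hg]
          exact hy n hv
        · push Not at hn
          rw [hρ v hn]
          rfl
  have e4 : ∀ y : N → S, mus (Sum.elim side fun n => side' (g n)) μ c (Sum.elim z y) *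
      kapE A μ ((E₁ + E.map (emap τ)).map (emap .inl) + E₂.map (emap ρ)) (Sum.elim z y) *
        F (Sum.elim z y) = mus side μ c z * kapE A μ E₁ z *
        (mus (fun n => side' (g n)) μ c y *
          (kapE A μ (E₂ + E) (Function.extend g y fun v => z (τ v)) * F (Sum.elim z y))) := by
    intro y
    rw [mus_sumElim, kapE_add, kapE_map, kapE_map, gx, kapE_add, kapE_add, kext]
    simp only [Sum.elim_inl]
    rw [kapE_map]
    ring
  change _ = ∑ y : N → S, mus (Sum.elim side fun n => side' (g n)) μ c (Sum.elim z y) *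
      kapE A μ ((E₁ + E.map (emap τ)).map (emap .inl) + E₂.map (emap ρ)) (Sum.elim z y) *
        F (Sum.elim z y)
  rw [Finset.sum_congr rfl fun y _ => e4 y, ← Finset.mul_sum, ← e3]
  change mus side μ c z * kapE A μ (E₁ + E.map (emap τ)) z * _ = _
  rw [kapE_add, kapE_map, hzK z hm0]
  simp only [gx]
  by_cases h0 : kapE A μ E (fun v => z (τ v)) = 0
  · rw [e3, h0, mul_zero, mul_zero, zero_mul]
    have e5 : ∑ y : N → S, mus (fun n => side' (g n)) μ c y *
        (kapE A μ (E₂ + E) (Function.extend g y fun v => z (τ v)) * F (Sum.elim z y)) = 0 := by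
      refine Finset.sum_eq_zero fun y _ => ?_
      rw [kapE_add, kext, h0]
      ring
    rw [e5, mul_zero]
  · rw [mul_assoc (mus side μ c z), mul_assoc (mus side μ c z), mul_assoc (kapE A μ E₁ z),
      Finset.mul_sum (s := Finset.univ) (a := kapE A μ E fun v => z (τ v))]
    congr 2
    refine Finset.sum_congr rfl fun y _ => ?_
    field_simp

end Vale.Agent.P050.SP
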