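import Vale.Agent.P050.R4.H859.WalkEW
import Vale.Agent.P050.R4.H153.Law

/-!
# P050, walk graphs: the law of a chain of tight parts
-/

namespace Vale.Agent.P050.SP

open Finset Matrix Vale.Agent.P050.Ears Vale.Agent.P050.Lev

variable {S : Type} [Fintype S] [DecidableEq S] {A : Matrix S S ℝ} {μ : S → ℝ} {c : S → Bool}

/-- a part: the walk weight of its ends times the Gibbs law inside -/
noncomputable def lw (A : Matrix S S ℝ) (μ : S → ℝ) (e : SP) (x y : S) (f : Inn e → S) : ℝ :=
  (A ^ len e) x y * (inW A μ e x y f / K A μ e x y)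

/-- the weight of a chain -/
noncomputable def cw (A : Matrix S S ℝ) (μ : S → ℝ) :
    (e : SP) → (L : List SP) → S → S → (Inn (chn e L) → S) → ℝ
  | e, [], x, y, f => lw A μ e x y f
  | e, e' :: L, x, y, f => lw A μ e x (f (.inl ())) (fun i => f (.inr (.inl i))) *
      cw A μ e' L (f (.inl ())) y (fun i => f (.inr (.inr i)))

/-- the gain of one part -/
noncomputable def gn (A : Matrix S S ℝ) (μ : S → ℝ) (e : SP) (x y : S) : ℝ :=
  Real.log (K A μ e x y) - Real.log (kap A μ (len e) x y)

/-- the gain of a chain -/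
noncomputable def cg (A : Matrix S S ℝ) (μ : S → ℝ) :
    (e : SP) → (L : List SP) → S → S → (Inn (chn e L) → S) → ℝ
  | e, [], x, y, _ => gn A μ e x y
  | e, e' :: L, x, y, f => gn A μ e x (f (.inl ())) +
      cg A μ e' L (f (.inl ())) y (fun i => f (.inr (.inr i)))

/-- the states at the junctions and at the end -/
def jv : (e : SP) → (L : List SP) → (Inn (chn e L) → S) → S → List S
  | _, [], _, y => [y]
  | _, e' :: L, f, y => f (.inl ()) :: jv e' L (fun i => f (.inr (.inr i))) y

/-- a map of the inner vertices of a chain -/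
def cj (e e' : SP) (L : List SP) (u : S) (f1 : Inn e → S) (f2 : Inn (chn e' L) → S) :
    Inn (chn e (e' :: L)) → S :=
  (Sum.elim (fun _ => u) (Sum.elim f1 f2) : Unit ⊕ (Inn e ⊕ Inn (chn e' L)) → S)

theorem sum_chn (e e' : SP) (L : List SP) (F : (Inn (chn e (e' :: L)) → S) → ℝ) :
    ∑ f, F f = ∑ u, ∑ f1 : Inn e → S, ∑ f2 : Inn (chn e' L) → S, F (cj e e' L u f1 f2) := by
  have h : ∀ F : (Unit ⊕ (Inn e ⊕ Inn (chn e' L)) → S) → ℝ, ∑ z, F z =
      ∑ w : S, ∑ z1 : Inn e → S, ∑ z2 : Inn (chn e' L) → S,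
        F (Sum.elim (fun _ => w) (Sum.elim z1 z2)) := by
    intro F
    rw [← (Equiv.sumArrowEquivProdArrow Unit (Inn e ⊕ Inn (chn e' L)) S).symm.sum_comp,
      Fintype.sum_prod_type, ← (Equiv.funUnique Unit S).symm.sum_comp]
    refine Finset.sum_congr rfl fun w _ => ?_
    rw [← (Equiv.sumArrowEquivProdArrow (Inn e) (Inn (chn e' L)) S).symm.sum_comp,
      Fintype.sum_prod_type]
    rfl
  exact h F

/-- all parts are positive where walks exist -/
def CP (A : Matrix S S ℝ) (μ : S → ℝ) (L : List SP) : Prop :=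
  ∀ e ∈ L, PosK A (len e) (K A μ e)

theorem lw_nonneg (h : Rev A μ c) (e : SP) (x y : S) (f : Inn e → S) : 0 ≤ lw A μ e x y f :=
  mul_nonneg (h.pow_nonneg _ _ _) (div_nonneg (inW_nonneg h _ _ _ _) (K_nonneg h e _ _))

theorem lw_sum (h : Rev A μ c) {e : SP} (hp : PosK A (len e) (K A μ e)) (x y : S) :
    ∑ f, lw A μ e x y f = (A ^ len e) x y := by
  unfold lw
  rw [← Finset.mul_sum, ← Finset.sum_div]
  have h1 : ∑ f, inW A μ e x y f = K A μ e x y := sum_edges A μ e x y
  rw [h1]
  rcases (h.pow_nonneg (len e) x y).eq_or_lt with h0 | h0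
  · rw [← h0, zero_mul]
  · rw [div_self (hp x y h0).ne', mul_one]

theorem cw_nonneg (h : Rev A μ c) : ∀ (L : List SP) (e : SP) (x y : S)
    (f : Inn (chn e L) → S), 0 ≤ cw A μ e L x y f
  | [], e, x, y, f => lw_nonneg h e x y f
  | e' :: L, e, x, y, f => mul_nonneg (lw_nonneg h e x _ _) (cw_nonneg h L e' _ y _)

/-- the law of the junctions -/
theorem cw_sum (h : Rev A μ c) : ∀ (L : List SP) (e : SP), CP A μ (e :: L) → ∀ (x : S)
    (Φ : List S → ℝ), ∑ y, ∑ f, cw A μ e L x y f * Φ (jv e L f y) =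
      EW A x ((e :: L).map len) Φ
  | [], e, hc, x, Φ => by
    simp only [List.map_cons, List.map_nil, EW]
    refine Finset.sum_congr rfl fun y _ => ?_
    change ∑ f : Inn e → S, lw A μ e x y f * Φ [y] = (A ^ len e) x y * Φ [y]
    rw [← Finset.sum_mul, lw_sum h (hc e (by simp))]
  | e' :: L, e, hc, x, Φ => by
    have ih := cw_sum h L e' (fun t ht => hc t (by simp at ht ⊢; tauto))
    have h1 : ∀ y, ∑ f, cw A μ e (e' :: L) x y f * Φ (jv e (e' :: L) f y) =
        ∑ u, ∑ f1 : Inn e → S, ∑ f2 : Inn (chn e' L) → S,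
          lw A μ e x u f1 * (cw A μ e' L u y f2 * Φ (u :: jv e' L f2 y)) := by
      intro y
      rw [sum_chn]
      refine Finset.sum_congr rfl fun u _ => Finset.sum_congr rfl fun f1 _ =>
        Finset.sum_congr rfl fun f2 _ => ?_
      change lw A μ e x u f1 * cw A μ e' L u y f2 * Φ (u :: jv e' L f2 y) = _
      ring
    rw [Finset.sum_congr rfl fun y _ => h1 y, Finset.sum_comm]
    simp only [List.map_cons, EW]
    refine Finset.sum_congr rfl fun u _ => ?_
    have h2 : ∑ y, ∑ f1 : Inn e → S, ∑ f2 : Inn (chn e' L) → S,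
        lw A μ e x u f1 * (cw A μ e' L u y f2 * Φ (u :: jv e' L f2 y)) =
        ∑ f1 : Inn e → S, lw A μ e x u f1 *
          ∑ y, ∑ f2 : Inn (chn e' L) → S, cw A μ e' L u y f2 * Φ (u :: jv e' L f2 y) := by
      rw [Finset.sum_comm]
      refine Finset.sum_congr rfl fun f1 _ => ?_
      rw [Finset.mul_sum]
      exact Finset.sum_congr rfl fun y _ => by rw [Finset.mul_sum]
    rw [h2, ← Finset.sum_mul, lw_sum h (hc e (by simp)),
      ih u (fun l => Φ (u :: l))]
    rfl

theorem jv_last : ∀ (L : List SP) (e : SP) (f : Inn (chn e L) → S) (y x : S),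
    (jv e L f y).getLastD x = y
  | [], _, _, _, _ => rfl
  | e' :: L, e, f, y, x => by
    simp only [jv, List.getLastD_cons]
    exact jv_last L e' _ y _

theorem cw_tot (h : Rev A μ c) (L : List SP) (e : SP) (hc : CP A μ (e :: L)) (x y : S) :
    ∑ f, cw A μ e L x y f = (A ^ len (chn e L)) x y := by
  induction L generalizing e x with
  | nil => exact lw_sum h (hc e (by simp)) x y
  | cons e' L ih =>
    rw [sum_chn]
    have h1 : ∀ u (f1 : Inn e → S) (f2 : Inn (chn e' L) → S),
        cw A μ e (e' :: L) x y (cj e e' L u f1 f2) =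
          lw A μ e x u f1 * cw A μ e' L u y f2 := fun u f1 f2 => rfl
    simp only [h1, ← Finset.mul_sum]
    have h2 : ∀ u, ∑ f2 : Inn (chn e' L) → S, cw A μ e' L u y f2 =
        (A ^ len (chn e' L)) u y := fun u =>
      ih e' (fun t ht => hc t (by simp at ht ⊢; tauto)) u
    simp only [h2, ← Finset.sum_mul, lw_sum h (hc e (by simp))]
    change _ = (A ^ (len e + len (chn e' L))) x y
    rw [pow_add, Matrix.mul_apply]

/-- positive weights -/
theorem cw_pos (h : Rev A μ c) : ∀ (L : List SP) (e : SP) (x y : S) (f : Inn (chn e L) → S),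
    0 < cw A μ e L x y f → 0 < inW A μ (chn e L) x y f ∧
      Real.log (inW A μ (chn e L) x y f) = Real.log (cw A μ e L x y f) + cg A μ e L x y f -
        Real.log (μ y) := by
  have key : ∀ (e : SP) (x y : S) (f : Inn e → S), 0 < lw A μ e x y f →
      0 < inW A μ e x y f ∧ Real.log (inW A μ e x y f) =
        Real.log (lw A μ e x y f) + gn A μ e x y - Real.log (μ y) := by
    intro e x y f hz
    unfold lw at hz
    have n1 : inW A μ e x y f ≠ 0 := fun h0 => by
      rw [h0, zero_div, mul_zero] at hz; exact lt_irrefl _ hz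
    have n2 : K A μ e x y ≠ 0 := fun h0 => by
      rw [h0, div_zero, mul_zero] at hz; exact lt_irrefl _ hz
    have n3 : (A ^ len e) x y ≠ 0 := fun h0 => by
      rw [h0, zero_mul] at hz; exact lt_irrefl _ hz
    refine ⟨lt_of_le_of_ne (inW_nonneg h _ _ _ _) n1.symm, ?_⟩
    unfold lw gn kap
    rw [Real.log_mul n3 (div_ne_zero n1 n2), Real.log_div n1 n2,
      Real.log_div n3 (h.pos y).ne']
    ring
  intro L
  induction L with
  | nil => exact key
  | cons e' L ih =>
    intro e x y f hz
    have e1 : cw A μ e (e' :: L) x y f =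
        lw A μ e x (f (.inl ())) (fun i => f (.inr (.inl i))) *
          cw A μ e' L (f (.inl ())) y (fun i => f (.inr (.inr i))) := rfl
    rw [e1] at hz
    have p1 : 0 < lw A μ e x (f (.inl ())) (fun i => f (.inr (.inl i))) := by
      rcases (lw_nonneg h e x (f (.inl ())) (fun i => f (.inr (.inl i)))).eq_or_lt with h0 | h0
      · rw [← h0, zero_mul] at hz; exact absurd hz (lt_irrefl _)
      · exact h0
    have p2 := (mul_pos_iff_of_pos_left p1).1 hz
    obtain ⟨a1, a2⟩ := key _ _ _ _ p1
    obtain ⟨b1, b2⟩ := ih e' _ y _ p2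
    have e2 : inW A μ (chn e (e' :: L)) x y f =
        μ (f (.inl ())) * (inW A μ e x (f (.inl ())) (fun i => f (.inr (.inl i))) *
          inW A μ (chn e' L) (f (.inl ())) y (fun i => f (.inr (.inr i)))) := by
      unfold inW
      have e3 : ∏ i : Inn (chn e (e' :: L)), μ (f i) = μ (f (.inl ())) *
          ((∏ i : Inn e, μ (f (.inr (.inl i)))) *
            ∏ i : Inn (chn e' L), μ (f (.inr (.inr i)))) := by
        have e4 : ∀ g : Unit ⊕ (Inn e ⊕ Inn (chn e' L)) → ℝ, ∏ i, g i =
            g (.inl ()) * ((∏ i : Inn e, g (.inr (.inl i))) *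
              ∏ i : Inn (chn e' L), g (.inr (.inr i))) := by
          intro g
          rw [Fintype.prod_sum_type, Fintype.prod_sum_type]
          simp
        exact e4 fun i => μ (f i)
      rw [e3]
      have e5 : ew A μ (edges (chn e (e' :: L)) x y f) =
          ew A μ (edges e x (f (.inl ())) (fun i => f (.inr (.inl i)))) *
            ew A μ (edges (chn e' L) (f (.inl ())) y (fun i => f (.inr (.inr i)))) :=
        ew_ser e (chn e' L) x y f
      rw [e5]
      ring
    rw [e2, e1]
    refine ⟨mul_pos (h.pos _) (mul_pos a1 b1), ?_⟩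
    rw [Real.log_mul (h.pos _).ne' (mul_pos a1 b1).ne', Real.log_mul a1.ne' b1.ne', a2, b2,
      Real.log_mul p1.ne' p2.ne']
    have e6 : cg A μ e (e' :: L) x y f = gn A μ e x (f (.inl ())) +
        cg A μ e' L (f (.inl ())) y (fun i => f (.inr (.inr i))) := rfl
    rw [e6]
    ring

/-- the expected gain of a chain -/
theorem cg_nonneg (h : Rev A μ c) : ∀ (L : List SP) (e : SP), CP A μ (e :: L) →
    (∀ t ∈ e :: L, GoodK A μ c (len t) (len t) (K A μ t)) → ∀ b : Bool,
    0 ≤ ∑ x, (if c x = b then μ x else 0) * ∑ y, ∑ f, cw A μ e L x y f * cg A μ e L x y f := by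
  have key : ∀ (e : SP), PosK A (len e) (K A μ e) → GoodK A μ c (len e) (len e) (K A μ e) →
      ∀ b : Bool, 0 ≤ ∑ x, (if c x = b then μ x else 0) *
        ∑ y, (A ^ len e) x y * gn A μ e x y := by
    intro e _ hg b
    have h1 := hg b
    rw [if_pos rfl, J] at h1
    have h2 : ∑ x, (if c x = b then μ x else 0) * ∑ y, (A ^ len e) x y * gn A μ e x y =
        EL (pd A μ c (len e) b) (K A μ e) - EL (pd A μ c (len e) b) (kap A μ (len e)) := by
      rw [EL_pd h, EL_pd h, ← Finset.sum_sub_distrib]
      refine Finset.sum_congr rfl fun x _ => ?_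
      by_cases hx : c x = b
      · simp only [if_pos hx, gn]
        rw [← mul_sub, ← Finset.sum_sub_distrib]
        congr 1
        exact Finset.sum_congr rfl fun y _ => by ring
      · simp only [if_neg hx, zero_mul, sub_zero]
    rw [h2]
    linarith
  intro L
  induction L with
  | nil =>
    intro e hc hg b
    refine (key e (hc e (by simp)) (hg e (by simp)) b).trans (le_of_eq ?_)
    refine Finset.sum_congr rfl fun x _ => ?_
    congr 1
    refine Finset.sum_congr rfl fun y _ => ?_
    change (A ^ len e) x y * gn A μ e x y = ∑ f : Inn e → S, lw A μ e x y f * gn A μ e x y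
    rw [← Finset.sum_mul, lw_sum h (hc e (by simp))]
  | cons e' L ih =>
    intro e hc hg b
    have hc' : CP A μ (e' :: L) := fun t ht => hc t (by simp at ht ⊢; tauto)
    have i1 := ih e' hc' (fun t ht => hg t (by simp at ht ⊢; tauto)) (sh b (len e))
    have k1 := key e (hc e (by simp)) (hg e (by simp)) b
    have tot : ∀ u, ∑ y, ∑ f2 : Inn (chn e' L) → S, cw A μ e' L u y f2 = 1 := by
      intro u
      have t1 := cw_sum h L e' hc' u (fun _ => 1)
      simp only [mul_one] at t1
      rw [t1, EW_const h]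
    have h1 : ∀ x, ∑ y, ∑ f, cw A μ e (e' :: L) x y f * cg A μ e (e' :: L) x y f =
        ∑ u, (A ^ len e) x u * gn A μ e x u + ∑ u, (A ^ len e) x u *
          ∑ y, ∑ f2 : Inn (chn e' L) → S, cw A μ e' L u y f2 * cg A μ e' L u y f2 := by
      intro x
      have a1 : ∀ y, ∑ f, cw A μ e (e' :: L) x y f * cg A μ e (e' :: L) x y f =
          ∑ u, (A ^ len e) x u * ∑ f2 : Inn (chn e' L) → S,
            (cw A μ e' L u y f2 * gn A μ e x u + cw A μ e' L u y f2 * cg A μ e' L u y f2) := by
        intro y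
        rw [sum_chn]
        refine Finset.sum_congr rfl fun u _ => ?_
        rw [← lw_sum h (hc e (by simp)) x u, Finset.sum_mul]
        refine Finset.sum_congr rfl fun f1 _ => ?_
        rw [Finset.mul_sum]
        refine Finset.sum_congr rfl fun f2 _ => ?_
        change lw A μ e x u f1 * cw A μ e' L u y f2 * (gn A μ e x u + cg A μ e' L u y f2) = _
        ring
      rw [Finset.sum_congr rfl fun y _ => a1 y, Finset.sum_comm, ← Finset.sum_add_distrib]
      refine Finset.sum_congr rfl fun u _ => ?_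
      rw [← mul_add, ← Finset.mul_sum]
      congr 1
      simp only [Finset.sum_add_distrib, ← Finset.sum_mul]
      rw [tot u, one_mul]
    have h2 : ∑ x, (if c x = b then μ x else 0) * ∑ u, (A ^ len e) x u *
          ∑ y, ∑ f2 : Inn (chn e' L) → S, cw A μ e' L u y f2 * cg A μ e' L u y f2 =
        ∑ u, (if c u = sh b (len e) then μ u else 0) *
          ∑ y, ∑ f2 : Inn (chn e' L) → S, cw A μ e' L u y f2 * cg A μ e' L u y f2 := by
      have b1 : ∀ x, (if c x = b then μ x else 0) * ∑ u, (A ^ len e) x u *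
          ∑ y, ∑ f2 : Inn (chn e' L) → S, cw A μ e' L u y f2 * cg A μ e' L u y f2 =
          ∑ u, (if c u = sh b (len e) then μ u else 0) * (A ^ len e) u x *
          ∑ y, ∑ f2 : Inn (chn e' L) → S, cw A μ e' L u y f2 * cg A μ e' L u y f2 := by
        intro x
        rw [Finset.mul_sum]
        refine Finset.sum_congr rfl fun u _ => ?_
        rw [← mul_assoc, ms_swap h (len e) b x u]
      rw [Finset.sum_congr rfl fun x _ => b1 x, Finset.sum_comm]
      refine Finset.sum_congr rfl fun u _ => ?_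
      rw [← Finset.sum_mul, ← Finset.mul_sum, h.pow_row, mul_one]
    simp only [h1, mul_add, Finset.sum_add_distrib]
    rw [h2]
    exact add_nonneg k1 i1

end Vale.Agent.P050.SP
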