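import Vale.Agent.P050.R4.H859.WalkStep
import Vale.Agent.P050.R4.H153.Tree

/-!
# P050, walk graphs: the theorem
-/

namespace Vale.Agent.P050.SP

open Finset Matrix Vale.Agent.P050.Ears Vale.Agent.P050.Lev

theorem Der.ok {V : Type} {side : V → Bool} {R R' : WRec V} (t : Der R R') :
    ROK side R → ROK side R' := by
  induction t with
  | refl R => exact id
  | trans _ _ h1 h2 => exact fun hR => h2 (h1 hR)
  | swap P v Q => exact fun hR => ⟨hR.2, hR.1⟩
  | shift P v d w Q =>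
    intro hR
    obtain ⟨h1, h2, h3⟩ := hR
    refine ⟨⟨?_, h1⟩, h3⟩
    change side v = sh (side w) d
    rw [h2, sh_sh]
  | tail P v t => exact fun hR => ⟨hR.1, t.ok v hR.2⟩

/-- the inductive statement -/
structure WGd {V : Type} (H : SimpleGraph V) (C : Set (WRec V)) (iF : Fintype V)
    (iD : DecidableEq V) (side : V → Bool) : Prop where
  proper : ∀ u v, H.Adj u v → side u ≠ side v
  ni : NI H
  ok : ∀ R ∈ C, ROK side R
  law : ∀ (S : Type) [Fintype S] [DecidableEq S] (A : Matrix S S ℝ) (μ : S → ℝ) (c : S → Bool),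
    Rev A μ c → ∃ P : (V → S) → ℝ, LawOn H side A μ c P ∧ ∀ R ∈ C, Marg A μ c side P R

theorem WGd.point : WGd (⊥ : SimpleGraph Unit) {([], (), [])} inferInstance inferInstance
    fun _ => false := by
  refine ⟨fun u v h => absurd h (by simp), fun u v h => absurd (Subsingleton.elim u v) h,
    fun R hR => ?_, ?_⟩
  · obtain rfl : R = ([], (), []) := hR
    exact ⟨trivial, trivial⟩
  · intro S _ _ A μ c h
    obtain ⟨P, hP, hM⟩ := TG.point.law S A μ c h
    refine ⟨P, hP, fun R hR => ?_⟩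
    obtain rfl : R = ([], (), []) := hR
    intro F
    exact (hM () () 0 rfl).one fun x => F [] x []

theorem WGd.weak {V : Type} {H : SimpleGraph V} {C C' : Set (WRec V)} {iF : Fintype V}
    {iD : DecidableEq V} {side : V → Bool} (hT : WGd H C iF iD side)
    (hC : ∀ R' ∈ C', ∃ R ∈ C, Der R R') : WGd H C' iF iD side := by
  refine ⟨hT.proper, hT.ni, fun R' hR' => ?_, ?_⟩
  · obtain ⟨R, hR, t⟩ := hC R' hR'
    exact t.ok (hT.ok R hR)
  · intro S _ _ A μ c h
    obtain ⟨P, hP, hM⟩ := hT.law S A μ c h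
    refine ⟨P, hP, fun R' hR' => ?_⟩
    obtain ⟨R, hR, t⟩ := hC R' hR'
    exact (t.marg h (hT.ok R hR)).2 P (hM R hR)

theorem WGd.pen {V : Type} {H : SimpleGraph V} {C : Set (WRec V)} {iF : Fintype V}
    {iD : DecidableEq V} {side : V → Bool} {K : SP → ℕ → Prop} (hK : Sound K)
    (hT : WGd H C iF iD side) {e : SP} {a : V} {P Q : List (ℕ × V)} (hR : (P, a, Q) ∈ C)
    (hs : simple e) (he : K e (len e)) :
    WGd (pen H e a) {R | (∃ R₀ ∈ C, R = R₀.map .inl) ∨
        ∃ P Q, (P, a, Q) ∈ C ∧ R = (rmap .inl P, .inl a, [(len e, .inr (.inl ()))])}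
      inferInstance inferInstance (penSide side e a) := by
  obtain ⟨hb, _, _, hsem⟩ := hK e (len e) he
  have hs' : ∀ t ∈ [e], simple t := by simpa using hs
  have hb' : ∀ t ∈ [e], bip t := by simpa using hb
  refine ⟨fun u v => pen_proper hT.proper hb u v, pen_ni hT.ni, ?_, ?_⟩
  · rintro R (⟨R₀, h0, rfl⟩ | ⟨P', Q', h0, rfl⟩)
    · exact ROK_map (fun _ => rfl) (hT.ok R₀ h0)
    · exact ROK_hang (L := []) (hT.ok _ h0)
  · intro S _ _ A μ c h
    obtain ⟨π, hP, hM⟩ := hT.law S A μ c h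
    have hg : ∀ t ∈ [e], GoodK A μ c (len t) (len t) (SP.K A μ t) := by
      simpa using hsem S A μ c h
    obtain ⟨π', h1, h2, h3⟩ := hang_step (L := []) h hs' hb' hg hP (hM _ hR)
    refine ⟨π', h1, ?_⟩
    rintro R (⟨R₀, h0, rfl⟩ | ⟨P', Q', h0, rfl⟩)
    · exact h2 _ (hM R₀ h0)
    · exact h3 P' Q' (hM _ h0)

theorem WGd.att {V : Type} {H : SimpleGraph V} {C : Set (WRec V)} {iF : Fintype V}
    {iD : DecidableEq V} {side : V → Bool} {K : SP → ℕ → Prop} (hK : Sound K)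
    (hT : WGd H C iF iD side) {e : SP} {d : ℕ} {a b : V} {P Q : List (ℕ × V)}
    (hR : (P, a, (d, b) :: Q) ∈ C) (hab : a ≠ b) (hs : simple e)
    (hd : ¬ (direct e ∧ H.Adj a b)) (he : K e d) :
    WGd (att H e a b) {R | ∃ R₀ ∈ C, R = R₀.map .inl} inferInstance inferInstance
      (attSide side e a) := by
  obtain ⟨hb, hle, hpar, hsem⟩ := hK e d he
  have hside : side b = xor (side a) (decide (len e % 2 = 1)) := by
    have h1 : side b = sh (side a) d := (hT.ok _ hR).2.1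
    rw [h1]
    unfold sh
    rw [hpar]
  refine ⟨fun u v => att_proper hT.proper hb hside u v, att_ni hab hT.ni, ?_, ?_⟩
  · rintro R ⟨R₀, h0, rfl⟩
    exact ROK_map (fun _ => rfl) (hT.ok R₀ h0)
  · intro S _ _ A μ c h
    obtain ⟨π, hP, hM⟩ := hT.law S A μ c h
    obtain ⟨π', h1, h2⟩ := att_step h hs hb hle hpar (hsem S A μ c h) hab hd (hT.ok _ hR) hP
      (hM _ hR)
    refine ⟨π', h1, ?_⟩
    rintro R ⟨R₀, h0, rfl⟩
    exact h2 _ (hM R₀ h0)

theorem WGd.clone {V : Type} {H : SimpleGraph V} {C : Set (WRec V)} {iF : Fintype V}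
    {iD : DecidableEq V} {side : V → Bool} {K : SP → ℕ → Prop} (hK : Sound K)
    (hT : WGd H C iF iD side) {e : SP} {L : List SP} {a b : V} {P Q : List (ℕ × V)}
    (hR : (P, a, (len (chn e L), b) :: Q) ∈ C) (hab : a ≠ b)
    (hs : ∀ t ∈ e :: L, simple t ∧ K t (len t)) (hd : ¬ (direct (chn e L) ∧ H.Adj a b)) :
    WGd (SP.att H (chn e L) a b) {R | (∃ R₀ ∈ C, R = R₀.map .inl) ∨
        ∃ P Q, (P, a, (len (chn e L), b) :: Q) ∈ C ∧
          R = (rmap .inl P, .inl a, jun e L .inr (.inl b) ++ rmap .inl Q)}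
      inferInstance inferInstance (attSide side (chn e L) a) := by
  have hs' : ∀ t ∈ e :: L, simple t := fun t ht => (hs t ht).1
  have hb' : ∀ t ∈ e :: L, bip t := fun t ht => (hK t _ (hs t ht).2).1
  have hside : side b = xor (side a) (decide (len (chn e L) % 2 = 1)) := (hT.ok _ hR).2.1
  refine ⟨fun u v => att_proper hT.proper (bip_chn L e hb') hside u v, att_ni hab hT.ni,
    ?_, ?_⟩
  · rintro R (⟨R₀, h0, rfl⟩ | ⟨P', Q', h0, rfl⟩)
    · exact ROK_map (fun _ => rfl) (hT.ok R₀ h0)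
    · exact ROK_clone (hT.ok _ h0)
  · intro S _ _ A μ c h
    obtain ⟨π, hP, hM⟩ := hT.law S A μ c h
    obtain ⟨π', h1, h2, h3⟩ := clone_step h hs' hb'
      (fun t ht => (hK t _ (hs t ht).2).2.2.2 S A μ c h) hab hd (hT.ok _ hR) hP (hM _ hR)
    refine ⟨π', h1, ?_⟩
    rintro R (⟨R₀, h0, rfl⟩ | ⟨P', Q', h0, rfl⟩)
    · exact h2 _ (hM R₀ h0)
    · exact h3 P' Q' (hM _ h0)

theorem WG.good {K : SP → ℕ → Prop} (hK : Sound K) {V : Type} {H : SimpleGraph V}
    {C : Set (WRec V)} (h : WG K H C) :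
    ∃ (iF : Fintype V) (iD : DecidableEq V) (side : V → Bool), WGd H C iF iD side := by
  induction h with
  | point => exact ⟨inferInstance, inferInstance, _, WGd.point⟩
  | weak _ hC ih =>
    obtain ⟨iF, iD, side, hT⟩ := ih
    exact ⟨iF, iD, side, hT.weak hC⟩
  | pen _ hR hs he ih =>
    obtain ⟨iF, iD, side, hT⟩ := ih
    exact ⟨inferInstance, inferInstance, _, hT.pen hK hR hs he⟩
  | att _ hR hab hs hd he ih =>
    obtain ⟨iF, iD, side, hT⟩ := ih
    exact ⟨inferInstance, inferInstance, _, hT.att hK hR hab hs hd he⟩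
  | clone _ hR hab hs hd ih =>
    obtain ⟨iF, iD, side, hT⟩ := ih
    exact ⟨inferInstance, inferInstance, _, hT.clone hK hR hab hs hd⟩

/-- The theorem on walk graphs. -/
theorem WG.gsid {K : SP → ℕ → Prop} (hK : Sound K) {V W : Type} [Fintype V] [DecidableEq V]
    {H : SimpleGraph V} {G : SimpleGraph W} {C : Set (WRec W)} (h : WG K G C)
    (φ : H ≃g G) (hH : H ≠ ⊥) : ∃ side : V → Bool, GSid H side := by
  classical
  obtain ⟨iF, iD, side, hT⟩ := h.good hK
  have hiso : ∀ v, ∃ w, G.Adj v w := by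
    intro v
    by_contra h0
    have h1 : ∀ u, u = v := fun u => by
      by_contra hu
      exact h0 (hT.ni v u fun h2 => hu h2.symm)
    apply hH
    ext u w
    simp only [SimpleGraph.bot_adj, iff_false]
    intro huv
    exact huv.ne (φ.injective ((h1 _).trans (h1 _).symm))
  refine ⟨fun v => side (φ v), gsid_of_rev H _ (fun u v huv => hT.proper _ _
    (φ.map_adj_iff.2 huv)) (fun v => ?_) ?_⟩
  · obtain ⟨w, hw⟩ := hiso (φ v)
    refine ⟨φ.symm w, φ.map_adj_iff.1 ?_⟩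
    rwa [φ.apply_symm_apply]
  · intro S _ _ _ A μ c hR
    obtain ⟨P, hP, _⟩ := hT.law S A μ c hR
    have h1 := hP.one_le hR
    have h4 := sum_iso (A := A) (μ := μ) (c := c) φ side (fun _ => 1)
    simp only [mul_one] at h4
    have h5 : ∑ z, wt H (fun v => side (φ v)) A μ c z = ∑ z, wt G side A μ c z := h4.symm
    rw [h5]
    exact h1

theorem WG.sid {K : SP → ℕ → Prop} (hK : Sound K) {V W : Type} [Fintype V] [DecidableEq V]
    {H : SimpleGraph V} {G : SimpleGraph W} {C : Set (WRec W)} (h : WG K G C)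
    (φ : H ≃g G) (hH : H ≠ ⊥) {U : Type*} [Finite U] [Nonempty U] (T : SimpleGraph U) :
    edgeDensity T ^ Nat.card H.edgeSet ≤ homDensity H T := by
  obtain ⟨side, hs⟩ := h.gsid hK φ hH
  exact sidorenko_of_gsid hs T

end Vale.Agent.P050.SP
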