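import Vale.Agent.P050.R4.H345.AptCorDef
import Vale.Agent.P050.R4.H153.AttachDef

/-!
# P050, walk graphs: records and the class
-/

namespace Vale.Agent.P050.SP

/-- A record `(P, v, Q)`: a walk seen from one of its vertices `v`. `P` and `Q` list the recorded
vertices before and after `v` (starting with the ones next to `v`), each with its distance on the
walk from the preceding one. -/
abbrev WRec (V : Type) : Type := List (ℕ × V) × V × List (ℕ × V)

/-- the vertices of a list are renamed -/
def rmap {V W : Type} (f : V → W) (L : List (ℕ × V)) : List (ℕ × W) :=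
  L.map fun p => (p.1, f p.2)

/-- the vertices of a record are renamed -/
def WRec.map {V W : Type} (f : V → W) (R : WRec V) : WRec W :=
  (rmap f R.1, f R.2.1, rmap f R.2.2)

/-- one side of a record: it may be cut off, and inner vertices may be forgotten -/
inductive Tail {V : Type} : List (ℕ × V) → List (ℕ × V) → Prop
  | cut (L : List (ℕ × V)) : Tail L []
  | cons (d : ℕ) (v : V) {L L' : List (ℕ × V)} : Tail L L' → Tail ((d, v) :: L) ((d, v) :: L')
  | skip (d d' : ℕ) (v w : V) {L L' : List (ℕ × V)} : Tail ((d + d', w) :: L) L' →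
      Tail ((d, v) :: (d', w) :: L) L'

/-- `Der R R'`: the record `R'` is contained in the record `R` -/
inductive Der {V : Type} : WRec V → WRec V → Prop
  | refl (R : WRec V) : Der R R
  | trans {R R' R'' : WRec V} : Der R R' → Der R' R'' → Der R R''
  | swap (P : List (ℕ × V)) (v : V) (Q : List (ℕ × V)) : Der (P, v, Q) (Q, v, P)
  | shift (P : List (ℕ × V)) (v : V) (d : ℕ) (w : V) (Q : List (ℕ × V)) :
      Der (P, v, (d, w) :: Q) ((d, v) :: P, w, Q)
  | tail (P : List (ℕ × V)) (v : V) {Q Q' : List (ℕ × V)} : Tail Q Q' → Der (P, v, Q) (P, v, Q')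

/-- the junctions and the end `y` of the chain of the parts `x :: L`, whose inner vertices are
placed at `f` -/
def jun : (x : SP) → (L : List SP) → {V : Type} → (Inn (chn x L) → V) → V → List (ℕ × V)
  | x, [], _, _, y => [(len x, y)]
  | x, x' :: L, _, f, y => (len x, f (.inl ())) :: jun x' L (fun i => f (.inr (.inr i))) y

/-- Walk graphs: `WG K H C`, where `C` is a set of records of the graph `H`. `K e d`: the part `e`
may be put at distance `d`. -/
inductive WG (K : SP → ℕ → Prop) : {V : Type} → SimpleGraph V → Set (WRec V) → Prop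
  /-- one vertex -/
  | point : WG K (⊥ : SimpleGraph Unit) {([], (), [])}
  /-- records contained in the given records -/
  | weak {V : Type} {H : SimpleGraph V} {C C' : Set (WRec V)} :
      WG K H C → (∀ R' ∈ C', ∃ R ∈ C, Der R R') → WG K H C'
  /-- a tight part `e` is hung at a recorded vertex `a` -/
  | pen {V : Type} {H : SimpleGraph V} {C : Set (WRec V)} {e : SP} {a : V}
      {P Q : List (ℕ × V)} : WG K H C → (P, a, Q) ∈ C → simple e → K e (len e) →
      WG K (pen H e a) {R | (∃ R₀ ∈ C, R = R₀.map .inl) ∨
        ∃ P Q, (P, a, Q) ∈ C ∧ R = (rmap .inl P, .inl a, [(len e, .inr (.inl ()))])}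
  /-- a part is attached at two consecutive vertices `a`, `b` of a record, at distance `d` -/
  | att {V : Type} {H : SimpleGraph V} {C : Set (WRec V)} {e : SP} {d : ℕ} {a b : V}
      {P Q : List (ℕ × V)} : WG K H C → (P, a, (d, b) :: Q) ∈ C → a ≠ b → simple e →
      ¬ (direct e ∧ H.Adj a b) → K e d →
      WG K (att H e a b) {R | ∃ R₀ ∈ C, R = R₀.map .inl}
  /-- a chain of tight parts of the total length `d` is attached there; it may replace the part
  of the record between `a` and `b` -/
  | clone {V : Type} {H : SimpleGraph V} {C : Set (WRec V)} {e : SP} {L : List SP} {a b : V}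
      {P Q : List (ℕ × V)} : WG K H C → (P, a, (len (chn e L), b) :: Q) ∈ C → a ≠ b →
      (∀ t ∈ e :: L, simple t ∧ K t (len t)) → ¬ (direct (chn e L) ∧ H.Adj a b) →
      WG K (att H (chn e L) a b) {R | (∃ R₀ ∈ C, R = R₀.map .inl) ∨
        ∃ P Q, (P, a, (len (chn e L), b) :: Q) ∈ C ∧
          R = (rmap .inl P, .inl a, jun e L .inr (.inl b) ++ rmap .inl Q)}

end Vale.Agent.P050.SP
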