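import Vale.Agent.P050.R4.H859.WalkDef
import Vale.Agent.P050.R4.H859.Good

/-!
# P050, walk graphs: the law of a record
-/

namespace Vale.Agent.P050.SP

open Finset Matrix Vale.Agent.P050.Ears

section EW

variable {S : Type} [Fintype S] [DecidableEq S]

/-- the expectation over the states of a walk from `x` at the given distances -/
noncomputable def EW (A : Matrix S S ℝ) : S → List ℕ → (List S → ℝ) → ℝ
  | _, [], F => F []
  | x, d :: ds, F => ∑ y, (A ^ d) x y * EW A y ds (fun l => F (y :: l))

variable {A : Matrix S S ℝ}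

theorem EW_congr : ∀ (ds : List ℕ) (x : S) {F G : List S → ℝ},
    (∀ l, l.length = ds.length → F l = G l) → EW A x ds F = EW A x ds G
  | [], _, _, _, h => h [] rfl
  | d :: ds, x, F, G, h => Finset.sum_congr rfl fun y _ => by
    rw [EW_congr ds y (F := fun l => F (y :: l)) (G := fun l => G (y :: l))
      (fun l hl => h (y :: l) (by simp [hl]))]

theorem EW_mul (r : ℝ) : ∀ (ds : List ℕ) (x : S) (F : List S → ℝ),
    EW A x ds (fun l => r * F l) = r * EW A x ds F
  | [], _, _ => rfl
  | d :: ds, x, F => by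
    simp only [EW]
    rw [Finset.mul_sum]
    refine Finset.sum_congr rfl fun y _ => ?_
    rw [EW_mul r ds y (fun l => F (y :: l))]
    ring

theorem EW_sum {ι : Type*} (s : Finset ι) : ∀ (ds : List ℕ) (x : S) (F : ι → List S → ℝ),
    EW A x ds (fun l => ∑ i ∈ s, F i l) = ∑ i ∈ s, EW A x ds (F i)
  | [], _, _ => rfl
  | d :: ds, x, F => by
    simp only [EW]
    rw [Finset.sum_comm]
    refine Finset.sum_congr rfl fun y _ => ?_
    rw [EW_sum s ds y (fun i l => F i (y :: l)), Finset.mul_sum]

theorem EW_comm : ∀ (ds : List ℕ) (x : S) (ds' : List ℕ) (y : S) (F : List S → List S → ℝ),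
    EW A x ds (fun l => EW A y ds' (fun l' => F l l')) =
      EW A y ds' (fun l' => EW A x ds (fun l => F l l'))
  | [], _, _, _, _ => rfl
  | d :: ds, x, ds', y, F => by
    simp only [EW]
    rw [EW_sum]
    refine Finset.sum_congr rfl fun w _ => ?_
    rw [EW_mul, EW_comm ds w ds' y (fun l l' => F (w :: l) l')]

theorem EW_append : ∀ (ds : List ℕ) (x : S) (ds' : List ℕ) (F : List S → ℝ),
    EW A x (ds ++ ds') F =
      EW A x ds (fun l => EW A (l.getLastD x) ds' (fun l' => F (l ++ l')))
  | [], _, _, _ => rfl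
  | d :: ds, x, ds', F => by
    simp only [List.cons_append, EW, List.getLastD_cons]
    exact Finset.sum_congr rfl fun y _ => by rw [EW_append ds y ds' (fun l => F (y :: l))]

end EW

section marg

variable {S : Type} [Fintype S] [DecidableEq S] {A : Matrix S S ℝ} {μ : S → ℝ} {c : S → Bool}
variable {V : Type}

/-- the sides along one half of a record -/
def OKt (side : V → Bool) : V → List (ℕ × V) → Prop
  | _, [] => True
  | v, (d, w) :: L => side w = sh (side v) d ∧ OKt side w L

/-- the sides along a record -/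
def ROK (side : V → Bool) (R : WRec V) : Prop := OKt side R.2.1 R.1 ∧ OKt side R.2.1 R.2.2

theorem EW_const (h : Rev A μ c) (r : ℝ) : ∀ (ds : List ℕ) (x : S), EW A x ds (fun _ => r) = r
  | [], _ => rfl
  | d :: ds, x => by
    simp only [EW]
    have h1 : ∀ y, (A ^ d) x y * EW A y ds (fun _ => r) = (A ^ d) x y * r := fun y => by
      rw [EW_const h r ds y]
    simp only [h1]
    rw [← Finset.sum_mul, h.pow_row, one_mul]

theorem Tail.ok {side : V → Bool} {Q Q' : List (ℕ × V)} (t : Tail Q Q') :
    ∀ v, OKt side v Q → OKt side v Q' := by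
  induction t with
  | cut L => intro v _; trivial
  | cons d w t ih => exact fun v hv => ⟨hv.1, ih w hv.2⟩
  | skip d d' w w' t ih =>
    intro v hv
    refine ih v ⟨?_, hv.2.2⟩
    rw [hv.2.1, hv.1, sh_add]

theorem Tail.ex (h : Rev A μ c) {Q Q' : List (ℕ × V)} (t : Tail Q Q') :
    ∃ φ : List S → List S, (∀ z : V → S, (Q'.map fun p => z p.2) = φ (Q.map fun p => z p.2)) ∧
      ∀ (x : S) (F : List S → ℝ),
        EW A x (Q'.map Prod.fst) F = EW A x (Q.map Prod.fst) (fun l => F (φ l)) := by
  induction t with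
  | cut L => exact ⟨fun _ => [], fun z => rfl, fun x F => (EW_const h (F []) _ x).symm⟩
  | @cons d w L L' t ih =>
    obtain ⟨φ, h1, h2⟩ := ih
    refine ⟨fun l => match l with
      | [] => []
      | y :: l => y :: φ l, fun z => ?_, fun x F => ?_⟩
    · simp only [List.map_cons, h1 z]
    · simp only [List.map_cons, EW]
      exact Finset.sum_congr rfl fun y _ => by rw [h2 y (fun l => F (y :: l))]
  | @skip d d' w w' L L' t ih =>
    obtain ⟨φ, h1, h2⟩ := ih
    refine ⟨fun l => φ l.tail, fun z => ?_, fun x F => ?_⟩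
    · rw [h1 z]; rfl
    · rw [h2 x F]
      simp only [List.map_cons, EW, List.tail_cons]
      rw [pow_add]
      simp only [Matrix.mul_apply, Finset.sum_mul, Finset.mul_sum]
      rw [Finset.sum_comm]
      exact Finset.sum_congr rfl fun u _ => Finset.sum_congr rfl fun y _ => by ring

variable [Fintype V] [DecidableEq V]

/-- the record has the law of a walk -/
def Marg (A : Matrix S S ℝ) (μ : S → ℝ) (c : S → Bool) (side : V → Bool) (P : (V → S) → ℝ)
    (R : WRec V) : Prop :=
  ∀ F : List S → S → List S → ℝ,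
    ∑ z, P z * F (R.1.map fun p => z p.2) (z R.2.1) (R.2.2.map fun p => z p.2) =
      ∑ x, (if c x = side R.2.1 then μ x else 0) *
        EW A x (R.1.map Prod.fst) (fun l => EW A x (R.2.2.map Prod.fst) (fun l' => F l x l'))

theorem Marg.swap {side : V → Bool} {π : (V → S) → ℝ} {P Q : List (ℕ × V)} {v : V}
    (hm : Marg A μ c side π (P, v, Q)) : Marg A μ c side π (Q, v, P) := by
  intro F
  refine (hm (fun l x l' => F l' x l)).trans ?_
  exact Finset.sum_congr rfl fun x _ => by
    rw [EW_comm (P.map Prod.fst) x (Q.map Prod.fst) x (fun l l' => F l' x l)]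

theorem Marg.tail (h : Rev A μ c) {side : V → Bool} {π : (V → S) → ℝ} {P Q Q' : List (ℕ × V)}
    {v : V} (t : Tail Q Q') (hm : Marg A μ c side π (P, v, Q)) :
    Marg A μ c side π (P, v, Q') := by
  intro F
  obtain ⟨φ, h1, h2⟩ := t.ex (S := S) h
  have h3 := hm (fun l x l' => F l x (φ l'))
  simp only [← h1, ← h2] at h3
  exact h3

theorem ms_swap (h : Rev A μ c) (d : ℕ) (b : Bool) (x y : S) :
    (if c x = b then μ x else 0) * (A ^ d) x y =
      (if c y = sh b d then μ y else 0) * (A ^ d) y x := by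
  have h1 := pd_swap h d b x y
  unfold pd at h1
  simp only [ite_mul, zero_mul]
  exact h1

theorem Marg.shift (h : Rev A μ c) {side : V → Bool} {π : (V → S) → ℝ} {P Q : List (ℕ × V)}
    {v w : V} {d : ℕ} (hs : side w = sh (side v) d)
    (hm : Marg A μ c side π (P, v, (d, w) :: Q)) :
    Marg A μ c side π ((d, v) :: P, w, Q) := by
  intro F
  have h3 := hm (fun l x l' => match l' with
    | [] => 0
    | y :: l'' => F (x :: l) y l'')
  simp only [List.map_cons, EW] at h3 ⊢
  refine h3.trans ?_
  have e1 : ∀ x : S, (if c x = side v then μ x else 0) * EW A x (P.map Prod.fst) (fun l =>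
      ∑ y, (A ^ d) x y * EW A y (Q.map Prod.fst) (fun l'' => F (x :: l) y l'')) =
      ∑ y, (if c y = side w then μ y else 0) * ((A ^ d) y x *
        EW A x (P.map Prod.fst) (fun l => EW A y (Q.map Prod.fst)
          (fun l'' => F (x :: l) y l''))) := by
    intro x
    rw [EW_sum, Finset.mul_sum]
    refine Finset.sum_congr rfl fun y _ => ?_
    rw [EW_mul, ← mul_assoc, ms_swap h d (side v) x y, hs]
    ring
  rw [Finset.sum_congr rfl fun x _ => e1 x, Finset.sum_comm]
  exact Finset.sum_congr rfl fun y _ => by rw [Finset.mul_sum]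

theorem Der.marg (h : Rev A μ c) {side : V → Bool} {R R' : WRec V} (t : Der R R') :
    ROK side R → ROK side R' ∧ ∀ π : (V → S) → ℝ, Marg A μ c side π R →
      Marg A μ c side π R' := by
  induction t with
  | refl R => exact fun hR => ⟨hR, fun _ hm => hm⟩
  | trans _ _ h1 h2 =>
    intro hR
    obtain ⟨a1, a2⟩ := h1 hR
    obtain ⟨b1, b2⟩ := h2 a1
    exact ⟨b1, fun π hm => b2 π (a2 π hm)⟩
  | swap P v Q => exact fun hR => ⟨⟨hR.2, hR.1⟩, fun _ hm => hm.swap⟩
  | shift P v d w Q =>
    intro hR
    obtain ⟨h1, h2, h3⟩ := hR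
    refine ⟨⟨⟨?_, h1⟩, h3⟩, fun _ hm => hm.shift h h2⟩
    change side v = sh (side w) d
    rw [h2, sh_sh]
  | tail P v t => exact fun hR => ⟨⟨hR.1, t.ok v hR.2⟩, fun _ hm => hm.tail h t⟩

end marg

end Vale.Agent.P050.SP
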