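import Vale.Agent.P050.R4.H859.WalkChain
import Vale.Agent.P050.R4.H153.Attach2

/-!
# P050, walk graphs: chains of tight parts attached to a graph
-/

namespace Vale.Agent.P050.SP

open Finset Matrix Vale.Agent.P050.Ears Vale.Agent.P050.Lev

variable {S : Type} [Fintype S] [DecidableEq S] {A : Matrix S S ℝ} {μ : S → ℝ} {c : S → Bool}
variable {V : Type} [Fintype V] [DecidableEq V] {H : SimpleGraph V} {side : V → Bool}
variable {π : (V → S) → ℝ}

omit [DecidableEq S] in
theorem sum_VW {W : Type} [Fintype W] [DecidableEq W] (F : (V ⊕ W → S) → ℝ) :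
    ∑ z, F z = ∑ z : V → S, ∑ f : W → S, F (Sum.elim z f) := by
  rw [← (Equiv.sumArrowEquivProdArrow V W S).symm.sum_comp, Fintype.sum_prod_type]
  rfl

omit [DecidableEq S] in
/-- the old vertices keep their law -/
theorem ext_marg {W : Type} [Fintype W] [DecidableEq W] (p0 : ∀ z, 0 ≤ π z)
    {q : (V → S) → (W → S) → ℝ} (q1 : ∀ z, 0 < π z → ∑ f, q z f = 1) (F : (V → S) → ℝ) :
    ∑ z : V ⊕ W → S, π (fun v => z (.inl v)) *
        q (fun v => z (.inl v)) (fun w => z (.inr w)) * F (fun v => z (.inl v)) =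
      ∑ z, π z * F z := by
  rw [sum_VW]
  refine Finset.sum_congr rfl fun z _ => ?_
  simp only [Sum.elim_inl, Sum.elim_inr]
  rcases (p0 z).eq_or_lt with h0 | h0
  · simp only [← h0, zero_mul, Finset.sum_const_zero]
  · rw [← Finset.sum_mul, ← Finset.mul_sum, q1 z h0, mul_one]

/-- extension of a law by a conditional law -/
theorem LawOn.ext {W : Type} [Fintype W] [DecidableEq W] {H' : SimpleGraph (V ⊕ W)}
    {side' : V ⊕ W → Bool} (hP : LawOn H side A μ c π) (q r : (V → S) → (W → S) → ℝ)
    (hw : ∀ z : V ⊕ W → S, wt H' side' A μ c z =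
      wt H side A μ c (fun v => z (.inl v)) * r (fun v => z (.inl v)) (fun w => z (.inr w)))
    (q0 : ∀ z f, 0 ≤ q z f) (q1 : ∀ z, 0 < π z → ∑ f, q z f = 1)
    (qr : ∀ z f, 0 < π z → 0 < q z f → 0 < r z f)
    (hl : 0 ≤ ∑ z, π z * ∑ f, q z f * (Real.log (r z f) - Real.log (q z f))) :
    LawOn H' side' A μ c (fun z => π (fun v => z (.inl v)) *
      q (fun v => z (.inl v)) (fun w => z (.inr w))) := by
  have pos : ∀ z : V ⊕ W → S, 0 < π (fun v => z (.inl v)) *
      q (fun v => z (.inl v)) (fun w => z (.inr w)) → 0 < π (fun v => z (.inl v)) ∧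
        0 < q (fun v => z (.inl v)) (fun w => z (.inr w)) := by
    intro z hz
    rcases (hP.nonneg (fun v => z (.inl v))).eq_or_lt with h0 | h0
    · rw [← h0, zero_mul] at hz; exact absurd hz (lt_irrefl _)
    · exact ⟨h0, (mul_pos_iff_of_pos_left h0).1 hz⟩
  refine ⟨fun z => mul_nonneg (hP.nonneg _) (q0 _ _), ?_, fun z hz => ?_, ?_⟩
  · have h1 := ext_marg (q := q) hP.nonneg q1 (fun _ => 1)
    simp only [mul_one] at h1
    rw [h1, hP.sum]
  · obtain ⟨h1, h2⟩ := pos z hz
    rw [hw]
    exact mul_pos (hP.supp _ h1) (qr _ _ h1 h2)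
  · have h1 : ∑ z : V ⊕ W → S, π (fun v => z (.inl v)) *
        q (fun v => z (.inl v)) (fun w => z (.inr w)) *
          (Real.log (wt H' side' A μ c z) - Real.log (π (fun v => z (.inl v)) *
            q (fun v => z (.inl v)) (fun w => z (.inr w)))) =
        ∑ z : V ⊕ W → S, (π (fun v => z (.inl v)) *
          q (fun v => z (.inl v)) (fun w => z (.inr w)) *
            (Real.log (wt H side A μ c (fun v => z (.inl v))) -
              Real.log (π (fun v => z (.inl v)))) +
          π (fun v => z (.inl v)) * (q (fun v => z (.inl v)) (fun w => z (.inr w)) *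
            (Real.log (r (fun v => z (.inl v)) (fun w => z (.inr w))) -
              Real.log (q (fun v => z (.inl v)) (fun w => z (.inr w)))))) := by
      refine Finset.sum_congr rfl fun z _ => ?_
      rcases (mul_nonneg (hP.nonneg (fun v => z (.inl v)))
        (q0 (fun v => z (.inl v)) (fun w => z (.inr w)))).eq_or_lt with h0 | h0
      · rcases mul_eq_zero.1 h0.symm with h2 | h2
        · rw [h2]; ring
        · rw [h2]; ring
      · obtain ⟨p1, p2⟩ := pos z h0
        rw [hw, Real.log_mul (hP.supp _ p1).ne' (qr _ _ p1 p2).ne', Real.log_mul p1.ne' p2.ne']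
        ring
    rw [h1, Finset.sum_add_distrib]
    have h2 := ext_marg (q := q) hP.nonneg q1
      (fun z => Real.log (wt H side A μ c z) - Real.log (π z))
    rw [h2]
    have h3 : ∑ z : V ⊕ W → S, π (fun v => z (.inl v)) *
        (q (fun v => z (.inl v)) (fun w => z (.inr w)) *
            (Real.log (r (fun v => z (.inl v)) (fun w => z (.inr w))) -
              Real.log (q (fun v => z (.inl v)) (fun w => z (.inr w))))) =
        ∑ z, π z * ∑ f, q z f * (Real.log (r z f) - Real.log (q z f)) := by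
      rw [sum_VW]
      refine Finset.sum_congr rfl fun z _ => ?_
      simp only [Sum.elim_inl, Sum.elim_inr]
      rw [Finset.mul_sum]
    rw [h3]
    exact add_nonneg hP.ent hl

/-! ### Consequences of the law of a record -/

theorem Marg.one (h : Rev A μ c) {P Q : List (ℕ × V)} {a : V}
    (hm : Marg A μ c side π (P, a, Q)) (G : S → ℝ) :
    ∑ z, π z * G (z a) = ∑ x, (if c x = side a then μ x else 0) * G x := by
  refine (hm fun _ x _ => G x).trans ?_
  simp only [EW_const h]

theorem Marg.two (h : Rev A μ c) {P Q : List (ℕ × V)} {a b : V} {d : ℕ}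
    (hm : Marg A μ c side π (P, a, (d, b) :: Q)) (G : S → S → ℝ) :
    ∑ z, π z * G (z a) (z b) =
      ∑ x, (if c x = side a then μ x else 0) * ∑ y, (A ^ d) x y * G x y := by
  refine (hm fun _ x l => match l with
    | [] => 0
    | y :: _ => G x y).trans ?_
  simp only [List.map_cons, EW, EW_const h]

theorem Marg.pow_pos (h : Rev A μ c) (p0 : ∀ z, 0 ≤ π z) {P Q : List (ℕ × V)} {a b : V} {d : ℕ}
    (hm : Marg A μ c side π (P, a, (d, b) :: Q)) {z : V → S} (hz : 0 < π z) :
    0 < (A ^ d) (z a) (z b) := by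
  by_contra h0
  have h1 : (A ^ d) (z a) (z b) = 0 := le_antisymm (not_lt.1 h0) (h.pow_nonneg _ _ _)
  have h2 := hm.two h (fun x y => if (A ^ d) x y = 0 then 1 else 0)
  have h3 : ∑ x, (if c x = side a then μ x else 0) *
      ∑ y, (A ^ d) x y * (if (A ^ d) x y = 0 then (1 : ℝ) else 0) = 0 := by
    refine Finset.sum_eq_zero fun x _ => ?_
    rw [Finset.sum_eq_zero fun y _ => ?_, mul_zero]
    split_ifs with h4
    · rw [h4, zero_mul]
    · rw [mul_zero]
  rw [h3] at h2
  have h4 := (Finset.sum_eq_zero_iff_of_nonneg fun z' _ => mul_nonneg (p0 z')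
    (by split_ifs <;> norm_num)).1 h2 z (mem_univ z)
  rw [if_pos h1, mul_one] at h4
  exact hz.ne' h4

/-! ### Attaching a chain -/

/-- the conditional law of the inner vertices of a chain attached at `a` and `b` -/
noncomputable def cq (A : Matrix S S ℝ) (μ : S → ℝ) (e : SP) (L : List SP) (a b : V)
    (z : V → S) (f : Inn (chn e L) → S) : ℝ :=
  cw A μ e L (z a) (z b) f / (A ^ len (chn e L)) (z a) (z b)

/-- the law after attaching a chain -/
noncomputable def cloP (A : Matrix S S ℝ) (μ : S → ℝ) (e : SP) (L : List SP) (a b : V)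
    (π : (V → S) → ℝ) (z : V ⊕ Inn (chn e L) → S) : ℝ :=
  π (fun v => z (.inl v)) * cq A μ e L a b (fun v => z (.inl v)) (fun w => z (.inr w))

section clone

variable {e : SP} {L : List SP} {a b : V} {P Q : List (ℕ × V)}

theorem cq_sum (h : Rev A μ c) (hc : CP A μ (e :: L)) {z : V → S}
    (hz : 0 < (A ^ len (chn e L)) (z a) (z b)) : ∑ f, cq A μ e L a b z f = 1 := by
  unfold cq
  rw [← Finset.sum_div, cw_tot h L e hc, div_self hz.ne']

theorem cw_zero (h : Rev A μ c) (hc : CP A μ (e :: L)) {x y : S}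
    (h0 : (A ^ len (chn e L)) x y = 0) (f : Inn (chn e L) → S) : cw A μ e L x y f = 0 := by
  have h1 := cw_tot h L e hc x y
  rw [h0] at h1
  exact (Finset.sum_eq_zero_iff_of_nonneg fun f _ => cw_nonneg h L e x y f).1 h1 f (mem_univ f)

theorem LawOn.clone (h : Rev A μ c) (hs : simple (chn e L)) (hb : bip (chn e L)) (hab : a ≠ b)
    (hd : ¬ (direct (chn e L) ∧ H.Adj a b))
    (hside : side b = xor (side a) (decide (len (chn e L) % 2 = 1)))
    (hP : LawOn H side A μ c π) (hc : CP A μ (e :: L))
    (hg : ∀ t ∈ e :: L, GoodK A μ c (len t) (len t) (K A μ t))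
    (hm : Marg A μ c side π (P, a, (len (chn e L), b) :: Q)) :
    LawOn (SP.att H (chn e L) a b) (attSide side (chn e L) a) A μ c (cloP A μ e L a b π) := by
  refine hP.ext (cq A μ e L a b) (fun z f => inW A μ (chn e L) (z a) (z b) f)
    (fun z => wt_att h hs hb hab hd hside z)
    (fun z f => div_nonneg (cw_nonneg h L e _ _ f) (h.pow_nonneg _ _ _))
    (fun z hz => cq_sum h hc (hm.pow_pos h hP.nonneg hz)) (fun z f hz hq => ?_) ?_
  · refine (cw_pos h L e _ _ f ?_).1
    rcases (cw_nonneg h L e (z a) (z b) f).eq_or_lt with h0 | h0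
    · unfold cq at hq; rw [← h0, zero_div] at hq; exact absurd hq (lt_irrefl _)
    · exact h0
  · obtain ⟨G, hG⟩ : ∃ G : S → S → ℝ, ∀ x y, G x y =
        (∑ f, cw A μ e L x y f * cg A μ e L x y f) / (A ^ len (chn e L)) x y +
          Real.log (kap A μ (len (chn e L)) x y) := ⟨_, fun _ _ => rfl⟩
    have key : ∀ z, π z * ∑ f, cq A μ e L a b z f *
        (Real.log (inW A μ (chn e L) (z a) (z b) f) - Real.log (cq A μ e L a b z f)) =
        π z * G (z a) (z b) := by
      intro z
      rw [hG]
      rcases (hP.nonneg z).eq_or_lt with h0 | h0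
      · rw [← h0, zero_mul, zero_mul]
      · have p1 := hm.pow_pos h hP.nonneg h0
        congr 1
        have e1 : ∀ f, cq A μ e L a b z f * (Real.log (inW A μ (chn e L) (z a) (z b) f) -
            Real.log (cq A μ e L a b z f)) =
            cw A μ e L (z a) (z b) f * cg A μ e L (z a) (z b) f /
              (A ^ len (chn e L)) (z a) (z b) + cq A μ e L a b z f *
                Real.log (kap A μ (len (chn e L)) (z a) (z b)) := by
          intro f
          rcases (cw_nonneg h L e (z a) (z b) f).eq_or_lt with h2 | h2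
          · unfold cq; rw [← h2]; ring
          · rw [(cw_pos h L e _ _ f h2).2]
            unfold cq kap
            rw [Real.log_div h2.ne' p1.ne', Real.log_div p1.ne' (h.pos _).ne']
            ring
        rw [Finset.sum_congr rfl fun f _ => e1 f, Finset.sum_add_distrib, ← Finset.sum_div,
          ← Finset.sum_mul, cq_sum h hc p1, one_mul]
    rw [Finset.sum_congr rfl fun z _ => key z, hm.two h G]
    have h1 : ∀ x, ∑ y, (A ^ len (chn e L)) x y * G x y =
        ∑ y, ∑ f, cw A μ e L x y f * cg A μ e L x y f +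
          ∑ y, (A ^ len (chn e L)) x y * Real.log (kap A μ (len (chn e L)) x y) := by
      intro x
      rw [← Finset.sum_add_distrib]
      refine Finset.sum_congr rfl fun y _ => ?_
      rw [hG]
      by_cases h0 : (A ^ len (chn e L)) x y = 0
      · rw [h0, zero_mul, zero_mul, add_zero]
        symm
        exact Finset.sum_eq_zero fun f _ => by rw [cw_zero h hc h0 f, zero_mul]
      · rw [mul_add, mul_div_cancel₀ _ h0]
    have h2 : 0 ≤ J A μ c (len (chn e L)) (side a) := J_nonneg h _ _
    have h3 : J A μ c (len (chn e L)) (side a) = ∑ x, (if c x = side a then μ x else 0) *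
        ∑ y, (A ^ len (chn e L)) x y * Real.log (kap A μ (len (chn e L)) x y) := by
      unfold J
      rw [EL_pd h]
      exact Finset.sum_congr rfl fun x _ => by split_ifs <;> ring
    have h4 := cg_nonneg h L e hc hg (side a)
    simp only [h1, mul_add, Finset.sum_add_distrib]
    rw [← h3]
    exact add_nonneg h4 h2

/-- the old records -/
theorem Marg.clone_old (h : Rev A μ c) (p0 : ∀ z, 0 ≤ π z) (hc : CP A μ (e :: L))
    (hm : Marg A μ c side π (P, a, (len (chn e L), b) :: Q)) {R : WRec V}
    (hR : Marg A μ c side π R) :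
    Marg A μ c (attSide side (chn e L) a) (cloP A μ e L a b π) (R.map .inl) := by
  intro F
  have h1 := ext_marg (q := cq A μ e L a b) p0
    (fun z hz => cq_sum h hc (hm.pow_pos h p0 hz))
    (fun z => F (R.1.map fun p => z p.2) (z R.2.1) (R.2.2.map fun p => z p.2))
  have h2 := hR F
  rw [← h1] at h2
  simp only [WRec.map, rmap, List.map_map]
  exact h2

theorem jun_map {W : Type} : ∀ (L : List SP) (e : SP) (f : Inn (chn e L) → W) (y : W)
    (z : W → S), ((jun e L f y).map fun p => z p.2) = jv e L (fun i => z (f i)) (z y)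
  | [], _, _, _, _ => rfl
  | e' :: L, e, f, y, z => by
    simp only [jun, jv, List.map_cons]
    rw [jun_map L e' (fun i => f (.inr (.inr i))) y z]

theorem jun_fst {W : Type} : ∀ (L : List SP) (e : SP) (f : Inn (chn e L) → W) (y : W),
    (jun e L f y).map Prod.fst = (e :: L).map len
  | [], _, _, _ => rfl
  | e' :: L, e, f, y => by
    simp only [jun, List.map_cons]
    rw [jun_fst L e' (fun i => f (.inr (.inr i))) y]
    rfl

/-- the new records -/
theorem Marg.clone_new (h : Rev A μ c) (hc : CP A μ (e :: L))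
    (hm : Marg A μ c side π (P, a, (len (chn e L), b) :: Q)) :
    Marg A μ c (attSide side (chn e L) a) (cloP A μ e L a b π)
      (rmap .inl P, .inl a, jun e L .inr (.inl b) ++ rmap .inl Q) := by
  intro F
  have h1 := hm (fun lP x l => match l with
    | [] => 0
    | y :: lQ => (∑ f, cw A μ e L x y f * F lP x (jv e L f y ++ lQ)) /
        (A ^ len (chn e L)) x y)
  have h2 : ∑ z : V ⊕ Inn (chn e L) → S, cloP A μ e L a b π z *
      F ((rmap (Sum.inl : V → V ⊕ Inn (chn e L)) P).map fun p => z p.2) (z (.inl a))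
        ((jun e L (V := V ⊕ Inn (chn e L)) .inr (.inl b) ++
          rmap (Sum.inl : V → V ⊕ Inn (chn e L)) Q).map fun p => z p.2) =
      ∑ z, π z * ((∑ f, cw A μ e L (z a) (z b) f *
        F (P.map fun p => z p.2) (z a) (jv e L f (z b) ++ Q.map fun p => z p.2)) /
          (A ^ len (chn e L)) (z a) (z b)) := by
    rw [sum_VW]
    refine Finset.sum_congr rfl fun z _ => ?_
    rw [Finset.sum_div, Finset.mul_sum]
    refine Finset.sum_congr rfl fun f _ => ?_
    rw [List.map_append, jun_map]
    simp only [cloP, cq, rmap, List.map_map, Sum.elim_inl, Sum.elim_inr, Function.comp_def]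
    ring
  refine h2.trans (h1.trans ?_)
  refine Finset.sum_congr rfl fun x _ => ?_
  congr 1
  have e1 : (rmap (Sum.inl : V → V ⊕ Inn (chn e L)) P).map Prod.fst = P.map Prod.fst := by
    simp [rmap, Function.comp_def]
  have e2 : (jun e L (V := V ⊕ Inn (chn e L)) .inr (.inl b) ++
      rmap (Sum.inl : V → V ⊕ Inn (chn e L)) Q).map Prod.fst =
      (e :: L).map len ++ Q.map Prod.fst := by
    rw [List.map_append, jun_fst]
    simp [rmap, Function.comp_def]
  rw [e1, e2]
  refine EW_congr _ _ fun lP _ => ?_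
  rw [EW_append, ← cw_sum h L e hc x]
  simp only [List.map_cons, EW]
  refine Finset.sum_congr rfl fun y _ => ?_
  have e3 : ∀ lQ : List S, (∑ f, cw A μ e L x y f * F lP x (jv e L f y ++ lQ)) /
      (A ^ len (chn e L)) x y =
      ((A ^ len (chn e L)) x y)⁻¹ * ∑ f, cw A μ e L x y f * F lP x (jv e L f y ++ lQ) :=
    fun lQ => by ring
  simp only [e3, EW_mul, EW_sum, jv_last]
  by_cases h0 : (A ^ len (chn e L)) x y = 0
  · rw [h0, zero_mul]
    symm
    exact Finset.sum_eq_zero fun f _ => by rw [cw_zero h hc h0 f, zero_mul]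
  · rw [← mul_assoc, mul_inv_cancel₀ h0, one_mul]

end clone

/-! ### Hanging a chain -/

/-- the conditional law of the new vertices of a chain hung at `a` -/
noncomputable def pq (A : Matrix S S ℝ) (μ : S → ℝ) (e : SP) (L : List SP) (a : V)
    (z : V → S) (f : Unit ⊕ Inn (chn e L) → S) : ℝ :=
  cw A μ e L (z a) (f (.inl ())) (fun i => f (.inr i))

/-- the law after hanging a chain -/
noncomputable def hanP (A : Matrix S S ℝ) (μ : S → ℝ) (e : SP) (L : List SP) (a : V)
    (π : (V → S) → ℝ) (z : V ⊕ (Unit ⊕ Inn (chn e L)) → S) : ℝ :=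
  π (fun v => z (.inl v)) * pq A μ e L a (fun v => z (.inl v)) (fun w => z (.inr w))

section hang

variable {e : SP} {L : List SP} {a : V} {P Q : List (ℕ × V)}

theorem sum_U (F : (Unit ⊕ Inn (chn e L) → S) → ℝ) :
    ∑ f, F f = ∑ w, ∑ f : Inn (chn e L) → S, F (Sum.elim (fun _ => w) f) := by
  rw [← (Equiv.sumArrowEquivProdArrow Unit (Inn (chn e L)) S).symm.sum_comp,
    Fintype.sum_prod_type, ← (Equiv.funUnique Unit S).symm.sum_comp]
  rfl

theorem pq_sum (h : Rev A μ c) (hc : CP A μ (e :: L)) (z : V → S) :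
    ∑ f, pq A μ e L a z f = 1 := by
  rw [sum_U]
  have h1 := cw_sum h L e hc (z a) (fun _ => 1)
  rw [EW_const h] at h1
  simp only [mul_one] at h1
  exact h1

theorem LawOn.hangC (h : Rev A μ c) (hs : simple (chn e L)) (hb : bip (chn e L))
    (hP : LawOn H side A μ c π) (hc : CP A μ (e :: L))
    (hg : ∀ t ∈ e :: L, GoodK A μ c (len t) (len t) (K A μ t))
    (hm : Marg A μ c side π (P, a, Q)) :
    LawOn (SP.pen H (chn e L) a) (penSide side (chn e L) a) A μ c (hanP A μ e L a π) := by
  refine hP.ext (pq A μ e L a) (fun z f => μ (f (.inl ())) *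
    inW A μ (chn e L) (z a) (f (.inl ())) (fun i => f (.inr i)))
    (fun z => wt_pen h hs hb z) (fun z f => cw_nonneg h L e _ _ _)
    (fun z _ => pq_sum h hc z) (fun z f _ hq => mul_pos (h.pos _) (cw_pos h L e _ _ _ hq).1) ?_
  obtain ⟨G, hG⟩ : ∃ G : S → ℝ, ∀ x, G x = ∑ y, ∑ f, cw A μ e L x y f * cg A μ e L x y f :=
    ⟨_, fun _ => rfl⟩
  have key : ∀ z, π z * ∑ f, pq A μ e L a z f * (Real.log (μ (f (.inl ())) *
      inW A μ (chn e L) (z a) (f (.inl ())) (fun i => f (.inr i))) -
        Real.log (pq A μ e L a z f)) = π z * G (z a) := by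
    intro z
    rw [hG]
    congr 1
    rw [sum_U]
    refine Finset.sum_congr rfl fun y _ => Finset.sum_congr rfl fun f _ => ?_
    simp only [pq, Sum.elim_inl, Sum.elim_inr]
    rcases (cw_nonneg h L e (z a) y f).eq_or_lt with h2 | h2
    · rw [← h2]; ring
    · obtain ⟨p1, p2⟩ := cw_pos h L e _ _ f h2
      rw [Real.log_mul (h.pos _).ne' p1.ne', p2]
      ring
  rw [Finset.sum_congr rfl fun z _ => key z, hm.one h G]
  simp only [hG]
  exact cg_nonneg h L e hc hg (side a)

/-- the old records -/
theorem Marg.hang_old (h : Rev A μ c) (p0 : ∀ z, 0 ≤ π z) (hc : CP A μ (e :: L)) {R : WRec V}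
    (hR : Marg A μ c side π R) :
    Marg A μ c (penSide side (chn e L) a) (hanP A μ e L a π) (R.map .inl) := by
  intro F
  have h1 := ext_marg (q := pq A μ e L a) p0 (fun z _ => pq_sum h hc z)
    (fun z => F (R.1.map fun p => z p.2) (z R.2.1) (R.2.2.map fun p => z p.2))
  have h2 := hR F
  rw [← h1] at h2
  simp only [WRec.map, rmap, List.map_map]
  exact h2

/-- the new records -/
theorem Marg.hang_new (h : Rev A μ c) (hc : CP A μ (e :: L))
    (hm : Marg A μ c side π (P, a, Q)) :
    Marg A μ c (penSide side (chn e L) a) (hanP A μ e L a π)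
      (rmap .inl P, .inl a, jun e L (fun i => .inr (.inr i)) (.inr (.inl ()))) := by
  intro F
  have h1 := hm (fun lP x _ => EW A x ((e :: L).map len) (F lP x))
  have h2 : ∑ z : V ⊕ (Unit ⊕ Inn (chn e L)) → S, hanP A μ e L a π z *
      F ((rmap (Sum.inl : V → V ⊕ (Unit ⊕ Inn (chn e L))) P).map fun p => z p.2) (z (.inl a))
        ((jun e L (V := V ⊕ (Unit ⊕ Inn (chn e L))) (fun i => .inr (.inr i))
          (.inr (.inl ()))).map fun p => z p.2) =
      ∑ z, π z * EW A (z a) ((e :: L).map len) (F (P.map fun p => z p.2) (z a)) := by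
    rw [sum_VW]
    refine Finset.sum_congr rfl fun z _ => ?_
    rw [← cw_sum h L e hc, Finset.mul_sum, sum_U]
    refine Finset.sum_congr rfl fun w _ => ?_
    rw [Finset.mul_sum]
    refine Finset.sum_congr rfl fun f _ => ?_
    rw [jun_map]
    simp only [hanP, pq, rmap, List.map_map, Sum.elim_inl, Sum.elim_inr, Function.comp_def]
    ring
  refine h2.trans (h1.trans ?_)
  refine Finset.sum_congr rfl fun x _ => ?_
  congr 1
  have e1 : (rmap (Sum.inl : V → V ⊕ (Unit ⊕ Inn (chn e L))) P).map Prod.fst =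
      P.map Prod.fst := by
    simp [rmap, Function.comp_def]
  rw [e1, jun_fst]
  exact EW_congr _ _ fun lP _ => EW_const h _ _ _

end hang

end Vale.Agent.P050.SP
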